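import Vale.Agent.P146.Chi
import Vale.Agent.P367.Gap.Gauss

set_option linter.all false

/-!
Module I: for a convex function `F` of a standard Gaussian vector one exponential moment
controls the variance (`var_le_of_exp_moment`).
-/

open MeasureTheory ProbabilityTheory

namespace Vale.Agent.P146.Ub.Cv

variable {ι : Type*} [Fintype ι]

/-- `c x + s y` -/
def mix (c s : ℝ) (x y : ι → ℝ) : ι → ℝ := fun i => c * x i + s * y i

omit [Fintype ι] in
lemma mix_apply (c s : ℝ) (x y : ι → ℝ) (i : ι) : mix c s x y i = c * x i + s * y i := rfl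

/-! ### Gaussian measure facts -/

lemma map_mix_one {c s : ℝ} (h : c ^ 2 + s ^ 2 = 1) :
    ((gaussianReal 0 1).prod (gaussianReal 0 1)).map (fun p : ℝ × ℝ => c * p.1 + s * p.2) =
      gaussianReal 0 1 := by
  have h1 : ((gaussianReal 0 1).prod (gaussianReal 0 1)).map
      (fun p : ℝ × ℝ => c * p.1 + s * p.2) =
      ((gaussianReal 0 1).map (fun x => c * x)).conv ((gaussianReal 0 1).map (fun x => s * x)) := by
    rw [Measure.conv, Measure.map_prod_map _ _ (by fun_prop) (by fun_prop),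
      Measure.map_map (by fun_prop) (by fun_prop)]
    rfl
  rw [h1, gaussianReal_map_const_mul, gaussianReal_map_const_mul, gaussianReal_conv_gaussianReal]
  congr 1
  · simp
  · ext
    simp [h]

lemma measurable_mix (c s : ℝ) :
    Measurable (fun p : (ι → ℝ) × (ι → ℝ) => mix c s p.1 p.2) := by
  unfold mix
  fun_prop

/-- rotation invariance -/
lemma mp_mix {c s : ℝ} (h : c ^ 2 + s ^ 2 = 1) :
    MeasurePreserving (fun p : (ι → ℝ) × (ι → ℝ) => mix c s p.1 p.2)
      ((gpi ι).prod (gpi ι)) (gpi ι) := by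
  have h1 := MeasureTheory.measurePreserving_arrowProdEquivProdArrow ℝ ℝ ι
    (fun _ => gaussianReal 0 1) (fun _ => gaussianReal 0 1)
  have h2 : MeasurePreserving (fun q : ι → ℝ × ℝ => fun i => c * (q i).1 + s * (q i).2)
      (Measure.pi fun _ => (gaussianReal 0 1).prod (gaussianReal 0 1)) (gpi ι) := by
    refine ⟨by fun_prop, ?_⟩
    have h3 := Measure.pi_map_pi (μ := fun _ : ι => (gaussianReal 0 1).prod (gaussianReal 0 1))
      (f := fun _ (p : ℝ × ℝ) => c * p.1 + s * p.2)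
      (by
        intro i
        exact (by fun_prop : Measurable fun p : ℝ × ℝ => c * p.1 + s * p.2).aemeasurable)
    unfold gpi
    rw [map_mix_one h] at h3
    exact h3
  have h4 := h2.comp (h1.symm)
  exact h4

/-! ### three blocks -/

/-- index set of three independent copies -/
abbrev J3 (ι : Type*) : Type _ := ι ⊕ (ι ⊕ ι)

/-- first block -/
def pu (g : J3 ι → ℝ) : ι → ℝ := fun i => g (Sum.inl i)
/-- second block -/
def pv (g : J3 ι → ℝ) : ι → ℝ := fun i => g (Sum.inr (Sum.inl i))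
/-- third block -/
def pw (g : J3 ι → ℝ) : ι → ℝ := fun i => g (Sum.inr (Sum.inr i))

lemma mp_split (ι κ : Type*) [Fintype ι] [Fintype κ] :
    MeasurePreserving (fun g : ι ⊕ κ → ℝ => ((fun i => g (Sum.inl i)), fun j => g (Sum.inr j)))
      (gpi (ι ⊕ κ)) ((gpi ι).prod (gpi κ)) := by
  have h := MeasureTheory.measurePreserving_sumPiEquivProdPi (X := fun _ : ι ⊕ κ => ℝ)
    (fun _ : ι ⊕ κ => gaussianReal 0 1)
  exact h

lemma mp3 : MeasurePreserving (fun g : J3 ι → ℝ => (pu g, (pv g, pw g))) (gpi (J3 ι))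
    ((gpi ι).prod ((gpi ι).prod (gpi ι))) := by
  have h1 := mp_split ι (ι ⊕ ι)
  have h2 := mp_split ι ι
  have h3 := (MeasurePreserving.id (gpi ι)).prod h2
  exact h3.comp h1

lemma mp_pu : MeasurePreserving (pu : (J3 ι → ℝ) → ι → ℝ) (gpi (J3 ι)) (gpi ι) :=
  measurePreserving_fst.comp mp3

lemma mp_vw : MeasurePreserving (fun g : J3 ι → ℝ => (pv g, pw g)) (gpi (J3 ι))
    ((gpi ι).prod (gpi ι)) :=
  measurePreserving_snd.comp mp3

lemma mp_uv : MeasurePreserving (fun g : J3 ι → ℝ => (pu g, pv g)) (gpi (J3 ι))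
    ((gpi ι).prod (gpi ι)) := by
  have h1 : MeasurePreserving (Prod.map id Prod.fst :
      (ι → ℝ) × ((ι → ℝ) × (ι → ℝ)) → (ι → ℝ) × (ι → ℝ))
      ((gpi ι).prod ((gpi ι).prod (gpi ι))) ((gpi ι).prod (gpi ι)) :=
    (MeasurePreserving.id (gpi ι)).prod measurePreserving_fst
  exact h1.comp mp3

section upd

variable [DecidableEq ι] (g : J3 ι → ℝ) (i : ι) (t c s : ℝ) (x y : ι → ℝ)

omit [Fintype ι] in
lemma pu_u : pu (Function.update g (Sum.inl i) t) = Function.update (pu g) i t := by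
  funext j
  unfold pu
  by_cases h : j = i
  · subst h; simp
  · rw [Function.update_of_ne h, Function.update_of_ne (by simpa using h)]

omit [Fintype ι] in
lemma pv_u : pv (Function.update g (Sum.inl i) t) = pv g := by
  funext j
  unfold pv
  rw [Function.update_of_ne (by simp)]

omit [Fintype ι] in
lemma pw_u : pw (Function.update g (Sum.inl i) t) = pw g := by
  funext j
  unfold pw
  rw [Function.update_of_ne (by simp)]

omit [Fintype ι] in
lemma pu_v : pu (Function.update g (Sum.inr (Sum.inl i)) t) = pu g := by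
  funext j
  unfold pu
  rw [Function.update_of_ne (by simp)]

omit [Fintype ι] in
lemma pv_v : pv (Function.update g (Sum.inr (Sum.inl i)) t) = Function.update (pv g) i t := by
  funext j
  unfold pv
  by_cases h : j = i
  · subst h; simp
  · rw [Function.update_of_ne h, Function.update_of_ne (by simpa using h)]

omit [Fintype ι] in
lemma pw_v : pw (Function.update g (Sum.inr (Sum.inl i)) t) = pw g := by
  funext j
  unfold pw
  rw [Function.update_of_ne (by simp)]

omit [Fintype ι] in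
lemma mix_upd_left : mix c s (Function.update x i t) y =
    Function.update (mix c s x y) i (c * t + s * y i) := by
  funext j
  by_cases h : j = i
  · subst h; simp [mix]
  · rw [Function.update_of_ne h, mix_apply, Function.update_of_ne h]; rfl

omit [Fintype ι] in
lemma mix_upd_right : mix c s x (Function.update y i t) =
    Function.update (mix c s x y) i (c * x i + s * t) := by
  funext j
  by_cases h : j = i
  · subst h; simp [mix]
  · rw [Function.update_of_ne h, mix_apply, Function.update_of_ne h]; rfl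

end upd

lemma sum_J3 (g : J3 ι → ℝ) :
    ∑ j, |g j| = ∑ i, |pu g i| + (∑ i, |pv g i| + ∑ i, |pw g i|) := by
  rw [Fintype.sum_sum_type, Fintype.sum_sum_type]
  rfl

lemma sum_mix_le {c s : ℝ} (hc : |c| ≤ 1) (hs : |s| ≤ 1) (x y : ι → ℝ) :
    ∑ i, |mix c s x y i| ≤ ∑ i, |x i| + ∑ i, |y i| := by
  rw [← Finset.sum_add_distrib]
  refine Finset.sum_le_sum fun i _ => ?_
  rw [mix_apply]
  refine (abs_add_le _ _).trans ?_
  rw [abs_mul, abs_mul]
  have h1 := mul_le_mul_of_nonneg_right hc (abs_nonneg (x i))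
  have h2 := mul_le_mul_of_nonneg_right hs (abs_nonneg (y i))
  linarith

lemma sum_uv_le {c s : ℝ} (hc : |c| ≤ 1) (hs : |s| ≤ 1) (g : J3 ι → ℝ) :
    ∑ i, |mix c s (pu g) (pv g) i| ≤ ∑ j, |g j| := by
  have h := sum_mix_le hc hs (pu g) (pv g)
  have h2 := sum_abs_nonneg (pw g)
  rw [sum_J3]
  linarith

lemma sum_uw_le {c s : ℝ} (hc : |c| ≤ 1) (hs : |s| ≤ 1) (g : J3 ι → ℝ) :
    ∑ i, |mix c s (pu g) (pw g) i| ≤ ∑ j, |g j| := by
  have h := sum_mix_le hc hs (pu g) (pw g)
  have h2 := sum_abs_nonneg (pv g)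
  rw [sum_J3]
  linarith

omit [Fintype ι] in
lemma cont_pu : Continuous (pu : (J3 ι → ℝ) → ι → ℝ) := by
  unfold pu; fun_prop
omit [Fintype ι] in
lemma cont_pv : Continuous (pv : (J3 ι → ℝ) → ι → ℝ) := by
  unfold pv; fun_prop
omit [Fintype ι] in
lemma cont_pw : Continuous (pw : (J3 ι → ℝ) → ι → ℝ) := by
  unfold pw; fun_prop

omit [Fintype ι] in
lemma cont_mix {Y : Type*} [TopologicalSpace Y] {c s : Y → ℝ} {x y : Y → ι → ℝ}
    (hc : Continuous c) (hs : Continuous s) (hx : Continuous x) (hy : Continuous y) :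
    Continuous fun z => mix (c z) (s z) (x z) (y z) := by
  unfold mix
  refine continuous_pi fun i => ?_
  have h1 := (continuous_apply i).comp hx
  have h2 := (continuous_apply i).comp hy
  exact (hc.mul h1).add (hs.mul h2)

lemma dom_uv {f : (ι → ℝ) → ℝ} (hf : Dom f) {c s : ℝ} (hc : |c| ≤ 1) (hs : |s| ≤ 1) :
    Dom (fun g : J3 ι → ℝ => f (mix c s (pu g) (pv g))) := by
  obtain ⟨C, k, hC, hk, hb⟩ := hf.bound
  refine ⟨hf.cont.comp (cont_mix continuous_const continuous_const cont_pu cont_pv),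
    C, k, hC, hk, fun g => (hb _).trans ?_⟩
  have := sum_uv_le hc hs g
  gcongr

lemma dom_uw {f : (ι → ℝ) → ℝ} (hf : Dom f) {c s : ℝ} (hc : |c| ≤ 1) (hs : |s| ≤ 1) :
    Dom (fun g : J3 ι → ℝ => f (mix c s (pu g) (pw g))) := by
  obtain ⟨C, k, hC, hk, hb⟩ := hf.bound
  refine ⟨hf.cont.comp (cont_mix continuous_const continuous_const cont_pu cont_pw),
    C, k, hC, hk, fun g => (hb _).trans ?_⟩
  have := sum_uw_le hc hs g
  gcongr

lemma Dom.exp_mul_sum (C k : ℝ) (hC : 0 ≤ C) (hk : 0 ≤ k) :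
    Dom (fun g : ι → ℝ => C * Real.exp (k * ∑ i, |g i|)) := by
  refine ⟨by fun_prop, C, k, hC, hk, fun g => ?_⟩
  rw [abs_of_nonneg (by positivity)]

lemma Dom.sumabs : Dom (fun g : ι → ℝ => ∑ i, |g i|) := by
  refine ⟨by fun_prop, 1, 1, zero_le_one, zero_le_one, fun g => ?_⟩
  rw [abs_of_nonneg (sum_abs_nonneg g), one_mul, one_mul]
  have := Real.add_one_le_exp (∑ i, |g i|)
  linarith

/-! ### the covariance formula -/

/-- regularity of a function, its gradient and the diagonal of its Hessian -/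
structure Reg (F : (ι → ℝ) → ℝ) (G H : ι → (ι → ℝ) → ℝ) (B : ℝ) [DecidableEq ι] : Prop where
  F_dom : Dom F
  G_dom : ∀ i, Dom (G i)
  H_dom : ∀ i, Dom (H i)
  G_bd : ∀ i g, |G i g| ≤ B
  F_diff : ∀ g, HasFDerivAt F
    (∑ i, G i g • ContinuousLinearMap.proj (R := ℝ) (φ := fun _ : ι => ℝ) i) g
  G_diff : ∀ i g t, HasDerivAt (fun t => G i (Function.update g i t))
    (H i (Function.update g i t)) t

section cov

variable [DecidableEq ι] {F : (ι → ℝ) → ℝ} {G H : ι → (ι → ℝ) → ℝ} {B : ℝ}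

lemma Reg.path (h : Reg F G H B) {p : ℝ → ι → ℝ} {p' : ι → ℝ} {t : ℝ}
    (hp : HasDerivAt p p' t) : HasDerivAt (fun t => F (p t)) (∑ i, G i (p t) * p' i) t := by
  have h1 := (h.F_diff (p t)).comp_hasDerivAt t hp
  refine h1.congr_deriv ?_
  simp

lemma Reg.coord (h : Reg F G H B) (g : ι → ℝ) (i : ι) (t : ℝ) :
    HasDerivAt (fun t => F (Function.update g i t)) (G i (Function.update g i t)) t := by
  refine (h.path (hasDerivAt_update g i t)).congr_deriv ?_
  rw [Finset.sum_eq_single i]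
  · simp
  · intro j _ hj
    simp [Pi.single_eq_of_ne hj]
  · intro hi
    exact absurd (Finset.mem_univ i) hi

lemma hasDerivAt_mix (x y : ι → ℝ) (θ : ℝ) :
    HasDerivAt (fun θ => mix (Real.cos θ) (Real.sin θ) x y)
      (fun i => -Real.sin θ * x i + Real.cos θ * y i) θ := by
  refine hasDerivAt_pi.2 fun i => ?_
  exact ((Real.hasDerivAt_cos θ).mul_const (x i)).add ((Real.hasDerivAt_sin θ).mul_const (y i))

/-- `E F(a) F(b)` for two copies which share the first block -/
noncomputable def KK (F : (ι → ℝ) → ℝ) (θ : ℝ) : ℝ :=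
  ∫ g : J3 ι → ℝ, F (mix (Real.cos θ) (Real.sin θ) (pu g) (pv g)) *
    F (mix (Real.cos θ) (Real.sin θ) (pu g) (pw g)) ∂(gpi (J3 ι))

/-- `E ∇F(a)·∇F(b)` -/
noncomputable def phi (G : ι → (ι → ℝ) → ℝ) (θ : ℝ) : ℝ :=
  ∫ g : J3 ι → ℝ, ∑ i, G i (mix (Real.cos θ) (Real.sin θ) (pu g) (pv g)) *
    G i (mix (Real.cos θ) (Real.sin θ) (pu g) (pw g)) ∂(gpi (J3 ι))

/-- the derivative of the integrand of `KK` -/
noncomputable def dK (F : (ι → ℝ) → ℝ) (G : ι → (ι → ℝ) → ℝ) (θ : ℝ) (g : J3 ι → ℝ) : ℝ :=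
  (∑ i, G i (mix (Real.cos θ) (Real.sin θ) (pu g) (pv g)) *
      (-Real.sin θ * pu g i + Real.cos θ * pv g i)) *
      F (mix (Real.cos θ) (Real.sin θ) (pu g) (pw g)) +
    F (mix (Real.cos θ) (Real.sin θ) (pu g) (pv g)) *
      (∑ i, G i (mix (Real.cos θ) (Real.sin θ) (pu g) (pw g)) *
        (-Real.sin θ * pu g i + Real.cos θ * pw g i))

omit [DecidableEq ι] in
lemma lin_bd (hG : ∀ i g, |G i g| ≤ B) (hB : 0 ≤ B) (θ : ℝ) (z x y : ι → ℝ) :
    |∑ i, G i z * (-Real.sin θ * x i + Real.cos θ * y i)| ≤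
      B * (∑ i, |x i| + ∑ i, |y i|) := by
  refine (Finset.abs_sum_le_sum_abs _ _).trans ?_
  rw [← Finset.sum_add_distrib, Finset.mul_sum]
  refine Finset.sum_le_sum fun i _ => ?_
  rw [abs_mul]
  refine mul_le_mul (hG i z) ?_ (abs_nonneg _) hB
  refine (abs_add_le _ _).trans ?_
  rw [abs_mul, abs_mul, abs_neg]
  have h1 := mul_le_mul_of_nonneg_right (Real.abs_sin_le_one θ) (abs_nonneg (x i))
  have h2 := mul_le_mul_of_nonneg_right (Real.abs_cos_le_one θ) (abs_nonneg (y i))
  linarith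

lemma dom_comb (h : Reg F G H B) (θ : ℝ) :
    Dom (dK F G θ) := by
  have hc := Real.abs_cos_le_one θ
  have hs := Real.abs_sin_le_one θ
  unfold dK
  refine Dom.add (Dom.mul (Dom.sum _ fun i _ => Dom.mul (dom_uv (h.G_dom i) hc hs) ?_)
    (dom_uw h.F_dom hc hs)) (Dom.mul (dom_uv h.F_dom hc hs)
    (Dom.sum _ fun i _ => Dom.mul (dom_uw (h.G_dom i) hc hs) ?_))
  · exact ((Dom.coord (Sum.inl i)).const_mul _).add ((Dom.coord (Sum.inr (Sum.inl i))).const_mul _)
  · exact ((Dom.coord (Sum.inl i)).const_mul _).add ((Dom.coord (Sum.inr (Sum.inr i))).const_mul _)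

lemma hasDerivAt_KK_aux (h : Reg F G H B) (θ : ℝ) :
    HasDerivAt (KK F) (∫ g, dK F G θ g ∂(gpi (J3 ι))) θ := by
  obtain ⟨C, k, hC, hk, hb⟩ := h.F_dom.bound
  have hB : ∀ i g, |G i g| ≤ |B| := fun i g => (h.G_bd i g).trans (le_abs_self B)
  have key := hasDerivAt_integral_of_dominated_loc_of_deriv_le (μ := gpi (J3 ι)) (𝕜 := ℝ)
    (F := fun θ (g : J3 ι → ℝ) => F (mix (Real.cos θ) (Real.sin θ) (pu g) (pv g)) *
      F (mix (Real.cos θ) (Real.sin θ) (pu g) (pw g)))
    (F' := fun θ g => dK F G θ g) (x₀ := θ)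
    (s := Metric.ball θ 1)
    (bound := fun g => 2 * ((|B| * ∑ j, |g j|) * (C * Real.exp (k * ∑ j, |g j|))))
    (Metric.ball_mem_nhds θ one_pos)
    (Filter.Eventually.of_forall fun y => ((dom_uv h.F_dom (Real.abs_cos_le_one y)
      (Real.abs_sin_le_one y)).mul (dom_uw h.F_dom (Real.abs_cos_le_one y)
      (Real.abs_sin_le_one y))).cont.aestronglyMeasurable)
    ((dom_uv h.F_dom (Real.abs_cos_le_one θ) (Real.abs_sin_le_one θ)).mul
      (dom_uw h.F_dom (Real.abs_cos_le_one θ) (Real.abs_sin_le_one θ))).integrable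
    (dom_comb h θ).cont.aestronglyMeasurable
    (Filter.Eventually.of_forall fun g y _ => by
      rw [Real.norm_eq_abs]
      have hc := Real.abs_cos_le_one y
      have hs := Real.abs_sin_le_one y
      have hS : 0 ≤ ∑ j, |g j| := sum_abs_nonneg g
      have f1 : |F (mix (Real.cos y) (Real.sin y) (pu g) (pv g))| ≤
          C * Real.exp (k * ∑ j, |g j|) := by
        refine (hb _).trans ?_
        have := sum_uv_le hc hs g
        gcongr
      have f2 : |F (mix (Real.cos y) (Real.sin y) (pu g) (pw g))| ≤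
          C * Real.exp (k * ∑ j, |g j|) := by
        refine (hb _).trans ?_
        have := sum_uw_le hc hs g
        gcongr
      have l1 := lin_bd hB (abs_nonneg B) y (mix (Real.cos y) (Real.sin y) (pu g) (pv g))
        (pu g) (pv g)
      have l2 := lin_bd hB (abs_nonneg B) y (mix (Real.cos y) (Real.sin y) (pu g) (pw g))
        (pu g) (pw g)
      have e1 : ∑ i, |pu g i| + ∑ i, |pv g i| ≤ ∑ j, |g j| := by
        rw [sum_J3]; linarith [sum_abs_nonneg (pw g)]
      have e2 : ∑ i, |pu g i| + ∑ i, |pw g i| ≤ ∑ j, |g j| := by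
        rw [sum_J3]; linarith [sum_abs_nonneg (pv g)]
      have l1' := l1.trans (mul_le_mul_of_nonneg_left e1 (abs_nonneg B))
      have l2' := l2.trans (mul_le_mul_of_nonneg_left e2 (abs_nonneg B))
      unfold dK
      refine (abs_add_le _ _).trans ?_
      rw [abs_mul, abs_mul]
      have q1 := mul_le_mul l1' f2 (abs_nonneg _) (by positivity)
      have q2 := mul_le_mul f1 l2' (abs_nonneg _) (by positivity)
      linarith)
    (by
      have hd : Dom (fun g : J3 ι → ℝ =>
          2 * ((|B| * ∑ j, |g j|) * (C * Real.exp (k * ∑ j, |g j|)))) :=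
        ((Dom.sumabs.const_mul |B|).mul (Dom.exp_mul_sum C k hC hk)).const_mul 2
      exact hd.integrable)
    (Filter.Eventually.of_forall fun g y _ => by
      have p1 := h.path (hasDerivAt_mix (pu g) (pv g) y)
      have p2 := h.path (hasDerivAt_mix (pu g) (pw g) y)
      exact p1.mul p2)
  exact key.2

end cov

section ibp3

variable [DecidableEq ι] {F : (ι → ℝ) → ℝ} {G H : ι → (ι → ℝ) → ℝ} {B : ℝ}

omit [Fintype ι] in
lemma pu_w (g : J3 ι → ℝ) (i : ι) (t : ℝ) :
    pu (Function.update g (Sum.inr (Sum.inr i)) t) = pu g := by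
  funext j
  unfold pu
  rw [Function.update_of_ne (by simp)]

omit [Fintype ι] in
lemma pv_w (g : J3 ι → ℝ) (i : ι) (t : ℝ) :
    pv (Function.update g (Sum.inr (Sum.inr i)) t) = pv g := by
  funext j
  unfold pv
  rw [Function.update_of_ne (by simp)]

omit [Fintype ι] in
lemma pw_w (g : J3 ι → ℝ) (i : ι) (t : ℝ) :
    pw (Function.update g (Sum.inr (Sum.inr i)) t) = Function.update (pw g) i t := by
  funext j
  unfold pw
  by_cases h : j = i
  · subst h; simp
  · rw [Function.update_of_ne h, Function.update_of_ne (by simpa using h)]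

lemma lin_deriv (a b t : ℝ) : HasDerivAt (fun t => a * t + b) a t := by
  simpa using ((hasDerivAt_id t).const_mul a).add_const b

lemma lin_deriv' (a b t : ℝ) : HasDerivAt (fun t => b + a * t) a t := by
  simpa using ((hasDerivAt_id t).const_mul a).const_add b

lemma comp_upd {f f' : (ι → ℝ) → ℝ} {i : ι} {z : ι → ℝ}
    (hf : ∀ t, HasDerivAt (fun t => f (Function.update z i t)) (f' (Function.update z i t)) t)
    {q : ℝ → ℝ} {a t : ℝ} (hq : HasDerivAt q a t) :
    HasDerivAt (fun t => f (Function.update z i (q t)))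
      (f' (Function.update z i (q t)) * a) t :=
  (hf (q t)).comp t hq

/-- integration by parts, first copy -/
lemma ibp_uv (h : Reg F G H B) {c s : ℝ} (hc : |c| ≤ 1) (hs : |s| ≤ 1) (i : ι) :
    ∫ g : J3 ι → ℝ, (G i (mix c s (pu g) (pv g)) * (-s * pu g i + c * pv g i)) *
        F (mix c s (pu g) (pw g)) ∂(gpi (J3 ι)) =
      -(s * c) * ∫ g : J3 ι → ℝ, G i (mix c s (pu g) (pv g)) * G i (mix c s (pu g) (pw g))
        ∂(gpi (J3 ι)) := by
  have dGa : Dom (fun g : J3 ι → ℝ => G i (mix c s (pu g) (pv g))) := dom_uv (h.G_dom i) hc hs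
  have dHa : Dom (fun g : J3 ι → ℝ => H i (mix c s (pu g) (pv g))) := dom_uv (h.H_dom i) hc hs
  have dFb : Dom (fun g : J3 ι → ℝ => F (mix c s (pu g) (pw g))) := dom_uw h.F_dom hc hs
  have dGb : Dom (fun g : J3 ι → ℝ => G i (mix c s (pu g) (pw g))) := dom_uw (h.G_dom i) hc hs
  have i1 : ∫ g : J3 ι → ℝ, g (Sum.inl i) * (G i (mix c s (pu g) (pv g)) *
      F (mix c s (pu g) (pw g))) ∂(gpi (J3 ι)) =
      ∫ g : J3 ι → ℝ, (c * (H i (mix c s (pu g) (pv g)) * F (mix c s (pu g) (pw g))) +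
        c * (G i (mix c s (pu g) (pv g)) * G i (mix c s (pu g) (pw g)))) ∂(gpi (J3 ι)) := by
    refine ibp (Sum.inl i) (dGa.mul dFb) (((dHa.mul dFb).const_mul c).add
      ((dGa.mul dGb).const_mul c)) fun g t => ?_
    simp only [pu_u, pv_u, pw_u, mix_upd_left]
    have d1 := comp_upd (f := G i) (f' := H i) (i := i) (z := mix c s (pu g) (pv g))
      (fun t => h.G_diff i _ t) (lin_deriv c (s * pv g i) t)
    have d2 := comp_upd (f := F) (f' := G i) (i := i) (z := mix c s (pu g) (pw g))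
      (fun t => h.coord _ i t) (lin_deriv c (s * pw g i) t)
    refine (d1.mul d2).congr_deriv ?_
    ring
  have i2 : ∫ g : J3 ι → ℝ, g (Sum.inr (Sum.inl i)) * (G i (mix c s (pu g) (pv g)) *
      F (mix c s (pu g) (pw g))) ∂(gpi (J3 ι)) =
      ∫ g : J3 ι → ℝ, s * (H i (mix c s (pu g) (pv g)) * F (mix c s (pu g) (pw g)))
        ∂(gpi (J3 ι)) := by
    refine ibp (Sum.inr (Sum.inl i)) (dGa.mul dFb) ((dHa.mul dFb).const_mul s) fun g t => ?_
    simp only [pu_v, pv_v, pw_v, mix_upd_right]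
    have d1 := comp_upd (f := G i) (f' := H i) (i := i) (z := mix c s (pu g) (pv g))
      (fun t => h.G_diff i _ t) (lin_deriv' s (c * pu g i) t)
    refine (d1.mul_const _).congr_deriv ?_
    ring
  have e0 : ∀ g : J3 ι → ℝ, (G i (mix c s (pu g) (pv g)) * (-s * pu g i + c * pv g i)) *
        F (mix c s (pu g) (pw g)) =
      (-s) * (g (Sum.inl i) * (G i (mix c s (pu g) (pv g)) * F (mix c s (pu g) (pw g)))) +
      c * (g (Sum.inr (Sum.inl i)) * (G i (mix c s (pu g) (pv g)) *
        F (mix c s (pu g) (pw g)))) := by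
    intro g
    unfold pu pv
    ring
  simp_rw [e0]
  rw [int_add (((Dom.coord _).mul (dGa.mul dFb)).const_mul _)
    (((Dom.coord _).mul (dGa.mul dFb)).const_mul _), integral_const_mul, integral_const_mul,
    i1, i2, int_add ((dHa.mul dFb).const_mul c) ((dGa.mul dGb).const_mul c),
    integral_const_mul, integral_const_mul, integral_const_mul]
  ring

/-- integration by parts, second copy -/
lemma ibp_uw (h : Reg F G H B) {c s : ℝ} (hc : |c| ≤ 1) (hs : |s| ≤ 1) (i : ι) :
    ∫ g : J3 ι → ℝ, F (mix c s (pu g) (pv g)) *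
        (G i (mix c s (pu g) (pw g)) * (-s * pu g i + c * pw g i)) ∂(gpi (J3 ι)) =
      -(s * c) * ∫ g : J3 ι → ℝ, G i (mix c s (pu g) (pv g)) * G i (mix c s (pu g) (pw g))
        ∂(gpi (J3 ι)) := by
  have dGa : Dom (fun g : J3 ι → ℝ => G i (mix c s (pu g) (pv g))) := dom_uv (h.G_dom i) hc hs
  have dFa : Dom (fun g : J3 ι → ℝ => F (mix c s (pu g) (pv g))) := dom_uv h.F_dom hc hs
  have dHb : Dom (fun g : J3 ι → ℝ => H i (mix c s (pu g) (pw g))) := dom_uw (h.H_dom i) hc hs
  have dGb : Dom (fun g : J3 ι → ℝ => G i (mix c s (pu g) (pw g))) := dom_uw (h.G_dom i) hc hs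
  have i1 : ∫ g : J3 ι → ℝ, g (Sum.inl i) * (F (mix c s (pu g) (pv g)) *
      G i (mix c s (pu g) (pw g))) ∂(gpi (J3 ι)) =
      ∫ g : J3 ι → ℝ, (c * (F (mix c s (pu g) (pv g)) * H i (mix c s (pu g) (pw g))) +
        c * (G i (mix c s (pu g) (pv g)) * G i (mix c s (pu g) (pw g)))) ∂(gpi (J3 ι)) := by
    refine ibp (Sum.inl i) (dFa.mul dGb) (((dFa.mul dHb).const_mul c).add
      ((dGa.mul dGb).const_mul c)) fun g t => ?_
    simp only [pu_u, pv_u, pw_u, mix_upd_left]
    have d1 := comp_upd (f := G i) (f' := H i) (i := i) (z := mix c s (pu g) (pw g))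
      (fun t => h.G_diff i _ t) (lin_deriv c (s * pw g i) t)
    have d2 := comp_upd (f := F) (f' := G i) (i := i) (z := mix c s (pu g) (pv g))
      (fun t => h.coord _ i t) (lin_deriv c (s * pv g i) t)
    refine (d2.mul d1).congr_deriv ?_
    ring
  have i2 : ∫ g : J3 ι → ℝ, g (Sum.inr (Sum.inr i)) * (F (mix c s (pu g) (pv g)) *
      G i (mix c s (pu g) (pw g))) ∂(gpi (J3 ι)) =
      ∫ g : J3 ι → ℝ, s * (F (mix c s (pu g) (pv g)) * H i (mix c s (pu g) (pw g)))
        ∂(gpi (J3 ι)) := by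
    refine ibp (Sum.inr (Sum.inr i)) (dFa.mul dGb) ((dFa.mul dHb).const_mul s) fun g t => ?_
    simp only [pu_w, pv_w, pw_w, mix_upd_right]
    have d1 := comp_upd (f := G i) (f' := H i) (i := i) (z := mix c s (pu g) (pw g))
      (fun t => h.G_diff i _ t) (lin_deriv' s (c * pu g i) t)
    refine (d1.const_mul _).congr_deriv ?_
    ring
  have e0 : ∀ g : J3 ι → ℝ, F (mix c s (pu g) (pv g)) *
        (G i (mix c s (pu g) (pw g)) * (-s * pu g i + c * pw g i)) =
      (-s) * (g (Sum.inl i) * (F (mix c s (pu g) (pv g)) * G i (mix c s (pu g) (pw g)))) +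
      c * (g (Sum.inr (Sum.inr i)) * (F (mix c s (pu g) (pv g)) *
        G i (mix c s (pu g) (pw g)))) := by
    intro g
    unfold pu pw
    ring
  simp_rw [e0]
  rw [int_add (((Dom.coord _).mul (dFa.mul dGb)).const_mul _)
    (((Dom.coord _).mul (dFa.mul dGb)).const_mul _), integral_const_mul, integral_const_mul,
    i1, i2, int_add ((dFa.mul dHb).const_mul c) ((dGa.mul dGb).const_mul c),
    integral_const_mul, integral_const_mul, integral_const_mul]
  ring

lemma int_dK (h : Reg F G H B) (θ : ℝ) :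
    ∫ g, dK F G θ g ∂(gpi (J3 ι)) = -(2 * Real.sin θ * Real.cos θ) * phi G θ := by
  have hc := Real.abs_cos_le_one θ
  have hs := Real.abs_sin_le_one θ
  have dl1 : ∀ i, Dom (fun g : J3 ι → ℝ => -Real.sin θ * pu g i + Real.cos θ * pv g i) :=
    fun i => ((Dom.coord (Sum.inl i)).const_mul _).add
      ((Dom.coord (Sum.inr (Sum.inl i))).const_mul _)
  have dl2 : ∀ i, Dom (fun g : J3 ι → ℝ => -Real.sin θ * pu g i + Real.cos θ * pw g i) :=
    fun i => ((Dom.coord (Sum.inl i)).const_mul _).add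
      ((Dom.coord (Sum.inr (Sum.inr i))).const_mul _)
  have d1 : ∀ i, Dom (fun g : J3 ι → ℝ =>
      (G i (mix (Real.cos θ) (Real.sin θ) (pu g) (pv g)) *
      (-Real.sin θ * pu g i + Real.cos θ * pv g i)) *
      F (mix (Real.cos θ) (Real.sin θ) (pu g) (pw g))) := fun i =>
    ((dom_uv (h.G_dom i) hc hs).mul (dl1 i)).mul (dom_uw h.F_dom hc hs)
  have d2 : ∀ i, Dom (fun g : J3 ι → ℝ =>
      F (mix (Real.cos θ) (Real.sin θ) (pu g) (pv g)) *
      (G i (mix (Real.cos θ) (Real.sin θ) (pu g) (pw g)) *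
      (-Real.sin θ * pu g i + Real.cos θ * pw g i))) := fun i =>
    (dom_uv h.F_dom hc hs).mul ((dom_uw (h.G_dom i) hc hs).mul (dl2 i))
  unfold dK
  simp_rw [Finset.sum_mul, Finset.mul_sum]
  rw [int_add (Dom.sum _ fun i _ => d1 i) (Dom.sum _ fun i _ => d2 i),
    int_sum _ fun i _ => d1 i, int_sum _ fun i _ => d2 i]
  unfold phi
  rw [int_sum _ fun i _ => (dom_uv (h.G_dom i) hc hs).mul (dom_uw (h.G_dom i) hc hs),
    Finset.mul_sum, ← Finset.sum_add_distrib]
  refine Finset.sum_congr rfl fun i _ => ?_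
  rw [ibp_uv h hc hs i, ibp_uw h hc hs i]
  ring

lemma hasDerivAt_KK (h : Reg F G H B) (θ : ℝ) :
    HasDerivAt (KK F) (-(2 * Real.sin θ * Real.cos θ) * phi G θ) θ := by
  rw [← int_dK h]
  exact hasDerivAt_KK_aux h θ

lemma KK_zero (hF : Dom F) : KK F 0 = ∫ g, F g ^ 2 ∂(gpi ι) := by
  unfold KK
  have e : ∀ x y : ι → ℝ, mix (Real.cos 0) (Real.sin 0) x y = x := by
    intro x y
    funext i
    simp [mix]
  simp_rw [e]
  have h1 := mp_pu (ι := ι)
  have h2 : ∫ g : J3 ι → ℝ, F (pu g) ^ 2 ∂(gpi (J3 ι)) = ∫ z, F z ^ 2 ∂(gpi ι) := by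
    rw [← h1.map_eq, integral_map h1.measurable.aemeasurable]
    exact (hF.cont.pow 2).aestronglyMeasurable
  rw [← h2]
  refine integral_congr_ae (Filter.Eventually.of_forall fun g => ?_)
  simp only [sq]

lemma KK_pi (hF : Dom F) : KK F (Real.pi / 2) = (∫ g, F g ∂(gpi ι)) ^ 2 := by
  unfold KK
  have e : ∀ x y : ι → ℝ, mix (Real.cos (Real.pi / 2)) (Real.sin (Real.pi / 2)) x y = y := by
    intro x y
    funext i
    simp [mix]
  simp_rw [e]
  have h1 := mp_vw (ι := ι)
  have h2 : ∫ g : J3 ι → ℝ, F (pv g) * F (pw g) ∂(gpi (J3 ι)) =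
      ∫ q : (ι → ℝ) × (ι → ℝ), F q.1 * F q.2 ∂((gpi ι).prod (gpi ι)) := by
    rw [← h1.map_eq, integral_map h1.measurable.aemeasurable]
    exact ((hF.cont.comp continuous_fst).mul (hF.cont.comp continuous_snd)).aestronglyMeasurable
  rw [h2, integral_prod_mul, sq]

end ibp3

/-! ### the convexity inequality -/

lemma exp_integral_le {Ω : Type*} [MeasurableSpace Ω] {μ : Measure Ω} [IsProbabilityMeasure μ]
    {f : Ω → ℝ} (hf : Integrable f μ) (he : Integrable (fun w => Real.exp (f w)) μ) :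
    Real.exp (∫ w, f w ∂μ) ≤ ∫ w, Real.exp (f w) ∂μ := by
  set m := ∫ w, f w ∂μ with hm
  have h1 : ∫ w, Real.exp m * (f w + (1 - m)) ∂μ = Real.exp m := by
    rw [integral_const_mul, integral_add hf (integrable_const _), ← hm]
    simp
  calc Real.exp m = ∫ w, Real.exp m * (f w + (1 - m)) ∂μ := h1.symm
    _ ≤ ∫ w, Real.exp (f w) ∂μ := by
        refine integral_mono ((hf.add (integrable_const _)).const_mul _) he fun w => ?_
        have h2 := Real.add_one_le_exp (f w - m)
        have h3 : Real.exp (f w) = Real.exp m * Real.exp (f w - m) := by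
          rw [← Real.exp_add]; congr 1; ring
        simp only
        rw [h3]
        refine mul_le_mul_of_nonneg_left ?_ (Real.exp_pos m).le
        linarith

/-- continuous functions of linear growth -/
structure Lin (f : (ι → ℝ) → ℝ) : Prop where
  cont : Continuous f
  bound : ∃ a b : ℝ, 0 ≤ a ∧ 0 ≤ b ∧ ∀ g, |f g| ≤ a + b * ∑ i, |g i|

lemma Lin.dom {f : (ι → ℝ) → ℝ} (h : Lin f) : Dom f := by
  obtain ⟨a, b, ha, hb, hf⟩ := h.bound
  refine ⟨h.cont, a + b, 1, by positivity, zero_le_one, fun g => (hf g).trans ?_⟩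
  have h0 := sum_abs_nonneg g
  have h1 := Real.add_one_le_exp (∑ i, |g i|)
  rw [one_mul]
  nlinarith [mul_le_mul_of_nonneg_left (show (1 : ℝ) ≤ Real.exp (∑ i, |g i|) by linarith) ha,
    mul_le_mul_of_nonneg_left (show (∑ i, |g i|) ≤ Real.exp (∑ i, |g i|) by linarith) hb]

lemma Lin.dom_exp {f : (ι → ℝ) → ℝ} (h : Lin f) : Dom (fun g => Real.exp (f g)) := by
  obtain ⟨a, b, ha, hb, hf⟩ := h.bound
  refine ⟨Real.continuous_exp.comp h.cont, Real.exp a, b, (Real.exp_pos a).le, hb, fun g => ?_⟩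
  rw [abs_of_pos (Real.exp_pos _), ← Real.exp_add]
  exact Real.exp_le_exp.2 ((le_abs_self _).trans (hf g))

lemma Lin.add {f h : (ι → ℝ) → ℝ} (hf : Lin f) (hh : Lin h) : Lin (fun g => f g + h g) := by
  obtain ⟨a, b, ha, hb, h1⟩ := hf.bound
  obtain ⟨a', b', ha', hb', h2⟩ := hh.bound
  refine ⟨hf.cont.add hh.cont, a + a', b + b', by positivity, by positivity, fun g => ?_⟩
  have := (abs_add_le (f g) (h g)).trans (add_le_add (h1 g) (h2 g))
  linarith

lemma Lin.const_mul {f : (ι → ℝ) → ℝ} (r : ℝ) (hf : Lin f) : Lin (fun g => r * f g) := by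
  obtain ⟨a, b, ha, hb, h1⟩ := hf.bound
  refine ⟨hf.cont.const_mul r, |r| * a, |r| * b, by positivity, by positivity, fun g => ?_⟩
  rw [abs_mul]
  have := mul_le_mul_of_nonneg_left (h1 g) (abs_nonneg r)
  linarith

lemma Lin.const (r : ℝ) : Lin (fun _ : ι → ℝ => r) :=
  ⟨continuous_const, |r|, 0, abs_nonneg r, le_rfl, fun g => by simp⟩

lemma Lin.coord (i : ι) : Lin (fun g : ι → ℝ => g i) :=
  ⟨continuous_apply i, 0, 1, le_rfl, zero_le_one, fun g => by
    have h1 : |g i| ≤ ∑ i, |g i| := Finset.single_le_sum (f := fun i => |g i|)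
      (fun _ _ => abs_nonneg _) (Finset.mem_univ i)
    linarith⟩

lemma Lin.of_bounded {f : (ι → ℝ) → ℝ} (hf : Continuous f) (C : ℝ) (hb : ∀ g, |f g| ≤ C) :
    Lin f :=
  ⟨hf, C, 0, (abs_nonneg _).trans (hb 0), le_rfl, fun g => by simpa using hb g⟩

lemma Lin.sum {κ : Type*} (s : Finset κ) {f : κ → (ι → ℝ) → ℝ} (hf : ∀ k ∈ s, Lin (f k)) :
    Lin (fun g => ∑ k ∈ s, f k g) := by
  classical
  induction s using Finset.induction_on with
  | empty => simpa using Lin.const (ι := ι) 0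
  | insert a s ha ih =>
    simp only [Finset.sum_insert ha]
    exact (hf a (Finset.mem_insert_self _ _)).add
      (ih fun k hk => hf k (Finset.mem_insert_of_mem hk))

lemma Lin.fix {f : (ι → ℝ) → ℝ} (hf : Lin f) {c s : ℝ} (hc : |c| ≤ 1) (hs : |s| ≤ 1)
    (z : ι → ℝ) : Lin (fun y => f (mix c s z y)) := by
  obtain ⟨a, b, ha, hb, h1⟩ := hf.bound
  refine ⟨hf.cont.comp (cont_mix continuous_const continuous_const continuous_const
    continuous_id), a + b * ∑ i, |z i|, b, ?_, hb, fun y => (h1 _).trans ?_⟩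
  · have := sum_abs_nonneg z
    positivity
  · have := mul_le_mul_of_nonneg_left (sum_mix_le hc hs z y) hb
    linarith

/-- functions of linear growth of a mixture of two copies -/
lemma Lin.mix2 {f : (ι → ℝ) → ℝ} (hf : Lin f) {c s : ℝ} (h : c ^ 2 + s ^ 2 = 1) :
    Integrable (fun q : (ι → ℝ) × (ι → ℝ) => f (mix c s q.1 q.2)) ((gpi ι).prod (gpi ι)) ∧
    Integrable (fun q : (ι → ℝ) × (ι → ℝ) => Real.exp (f (mix c s q.1 q.2)))
      ((gpi ι).prod (gpi ι)) :=
  ⟨(mp_mix h).integrable_comp_of_integrable hf.dom.integrable,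
    (mp_mix h).integrable_comp_of_integrable (g := fun z => Real.exp (f z))
      hf.dom_exp.integrable⟩

section convex

variable [DecidableEq ι] {F : (ι → ℝ) → ℝ} {G H : ι → (ι → ℝ) → ℝ} {B : ℝ}

omit [DecidableEq ι] in
/-- Cameron-Martin in the form used below -/
lemma int_shift (u : ι → ℝ) (f : (ι → ℝ) → ℝ) :
    ∫ y, f y ∂(gpi ι) =
      ∫ y, Real.exp (-(∑ i, u i * y i) - (∑ i, u i ^ 2) / 2) * f (fun i => y i + u i)
        ∂(gpi ι) := by
  have h := Vale.Agent.P367.Gap.integral_shift (ι := ι) (-u)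
    (fun J => Real.exp (-(∑ i, u i * J i) + (∑ i, u i ^ 2) / 2) * f J)
  unfold gpi
  have e1 : ∀ J : ι → ℝ, Real.exp (-(∑ i, (-u) i * J i) - (∑ i, (-u) i ^ 2) / 2) *
      (Real.exp (-(∑ i, u i * J i) + (∑ i, u i ^ 2) / 2) * f J) = f J := by
    intro J
    rw [← mul_assoc, ← Real.exp_add]
    have e2 : -(∑ i, (-u) i * J i) - (∑ i, (-u) i ^ 2) / 2 +
        (-(∑ i, u i * J i) + (∑ i, u i ^ 2) / 2) = 0 := by
      have e3 : ∑ i, (-u) i * J i = -∑ i, u i * J i := by
        rw [← Finset.sum_neg_distrib]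
        exact Finset.sum_congr rfl fun i _ => by simp
      have e4 : ∑ i, (-u) i ^ 2 = ∑ i, u i ^ 2 :=
        Finset.sum_congr rfl fun i _ => by simp
      rw [e3, e4]
      ring
    rw [e2, Real.exp_zero, one_mul]
  simp_rw [e1] at h
  rw [← h]
  refine integral_congr_ae (Filter.Eventually.of_forall fun J => ?_)
  simp only
  have e5 : (J - -u) = fun i => J i + u i := by
    funext i
    simp
  rw [e5]
  congr 2
  have e6 : ∑ i, u i * (J i + u i) = ∑ i, u i * J i + ∑ i, u i ^ 2 := by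
    rw [← Finset.sum_add_distrib]
    exact Finset.sum_congr rfl fun i _ => by ring
  rw [e6]
  ring

end convex

lemma int_mix {c s : ℝ} (h : c ^ 2 + s ^ 2 = 1) {f : (ι → ℝ) → ℝ} (hf : Continuous f) :
    ∫ q : (ι → ℝ) × (ι → ℝ), f (mix c s q.1 q.2) ∂((gpi ι).prod (gpi ι)) =
      ∫ g, f g ∂(gpi ι) := by
  have h1 := mp_mix (ι := ι) h
  conv_rhs => rw [← h1.map_eq]
  rw [integral_map h1.measurable.aemeasurable]
  rw [h1.map_eq]
  exact hf.aestronglyMeasurable

section convex2

variable {F : (ι → ℝ) → ℝ} {G : ι → (ι → ℝ) → ℝ} {B : ℝ}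

lemma int_coord_zero (i : ι) : ∫ g : ι → ℝ, g i ∂(gpi ι) = 0 := by
  classical
  have h := ibp (ι := ι) i (Φ := fun _ => 1) (Φ' := fun _ => 0) (Dom.const 1) (Dom.const 0)
    (fun g t => hasDerivAt_const t 1)
  simpa using h

lemma Lin.fix_shift {f : (ι → ℝ) → ℝ} (hf : Lin f) {c s : ℝ} (hc : |c| ≤ 1) (hs : |s| ≤ 1)
    (z u : ι → ℝ) : Lin (fun y => f (mix c s z (fun i => y i + u i))) := by
  obtain ⟨a, b, ha, hb, h1⟩ := hf.bound
  refine ⟨hf.cont.comp (cont_mix continuous_const continuous_const continuous_const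
    (by fun_prop)), a + b * (∑ i, |z i| + ∑ i, |u i|), b, ?_, hb, fun y => (h1 _).trans ?_⟩
  · have := sum_abs_nonneg z
    have := sum_abs_nonneg u
    positivity
  · have h2 := sum_mix_le hc hs z (fun i => y i + u i)
    have h3 : ∑ i, |y i + u i| ≤ ∑ i, |y i| + ∑ i, |u i| := by
      rw [← Finset.sum_add_distrib]
      exact Finset.sum_le_sum fun i _ => abs_add_le _ _
    have := mul_le_mul_of_nonneg_left (h2.trans (add_le_add_right h3 (∑ i, |z i|))) hb
    linarith

/-- the conditional inequality -/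
lemma cond_ineq (hF : Lin F) (hG : ∀ i, Lin (G i))
    (hconv : ∀ z w : ι → ℝ, F z + ∑ i, G i z * w i ≤ F (fun i => z i + w i))
    {c s x : ℝ} (hc : |c| ≤ 1) (hs : |s| ≤ 1) (hx : 0 ≤ x) (z : ι → ℝ) :
    Real.exp (x * (∫ y, F (mix c s z y) ∂(gpi ι)) +
        x ^ 2 * s ^ 2 / 2 * ∑ i, (∫ y, G i (mix c s z y) ∂(gpi ι)) ^ 2) ≤
      ∫ y, Real.exp (x * F (mix c s z y)) ∂(gpi ι) := by
  set Γ : ι → ℝ := fun i => ∫ y, G i (mix c s z y) ∂(gpi ι) with hΓ
  set u : ι → ℝ := fun i => x * s * Γ i with hu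
  have lF : Lin (fun y => F (mix c s z y)) := hF.fix hc hs z
  have lG : ∀ i, Lin (fun y => G i (mix c s z y)) := fun i => (hG i).fix hc hs z
  have l1 : Lin (fun y : ι → ℝ => x * F (mix c s z y) + ∑ i, (x * s * u i) * G i (mix c s z y)) :=
    (lF.const_mul x).add (Lin.sum _ fun i _ => (lG i).const_mul _)
  have l2 : Lin (fun y : ι → ℝ => ∑ i, (-u i) * y i + -((∑ i, u i ^ 2) / 2)) :=
    (Lin.sum _ fun i _ => (Lin.coord i).const_mul _).add (Lin.const _)
  have l3 := l1.add l2
  rw [int_shift u (fun y => Real.exp (x * F (mix c s z y)))]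
  have j1 := exp_integral_le l3.dom.integrable l3.dom_exp.integrable
  have e1 : ∫ y : ι → ℝ, ((x * F (mix c s z y) + ∑ i, (x * s * u i) * G i (mix c s z y)) +
      (∑ i, (-u i) * y i + -((∑ i, u i ^ 2) / 2))) ∂(gpi ι) =
      x * (∫ y, F (mix c s z y) ∂(gpi ι)) + x ^ 2 * s ^ 2 / 2 * ∑ i, Γ i ^ 2 := by
    rw [int_add l1.dom l2.dom, int_add (lF.const_mul x).dom
      (Lin.sum _ fun i _ => (lG i).const_mul _).dom, int_add
      (Lin.sum _ fun i _ => (Lin.coord i).const_mul _).dom (Lin.const _).dom,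
      int_sum _ fun i _ => ((lG i).const_mul _).dom,
      int_sum _ fun i _ => ((Lin.coord i).const_mul _).dom]
    simp_rw [integral_const_mul, int_coord_zero]
    have e2 : ∑ i, x * s * u i * ∫ g, G i (mix c s z g) ∂(gpi ι) =
        x ^ 2 * s ^ 2 * ∑ i, Γ i ^ 2 := by
      rw [Finset.mul_sum]
      refine Finset.sum_congr rfl fun i _ => ?_
      simp only [hu, hΓ]
      ring
    have e3 : ∑ i, u i ^ 2 = x ^ 2 * s ^ 2 * ∑ i, Γ i ^ 2 := by
      rw [Finset.mul_sum]
      refine Finset.sum_congr rfl fun i _ => ?_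
      simp only [hu]
      ring
    rw [e2, e3]
    simp
    ring
  rw [e1] at j1
  refine j1.trans (integral_mono l3.dom_exp.integrable ?_ fun y => ?_)
  · have l4 : Lin (fun y : ι → ℝ => x * F (mix c s z (fun i => y i + u i)) +
        (∑ i, (-u i) * y i + -((∑ i, u i ^ 2) / 2))) :=
      ((hF.fix_shift hc hs z u).const_mul x).add l2
    refine (l4.dom_exp.integrable).congr (Filter.Eventually.of_forall fun y => ?_)
    simp only
    rw [← Real.exp_add]
    congr 1
    have e4 : ∑ i, -u i * y i = -∑ i, u i * y i := by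
      rw [← Finset.sum_neg_distrib]
      exact Finset.sum_congr rfl fun i _ => by ring
    rw [e4]
    ring
  · simp only
    rw [← Real.exp_add]
    refine Real.exp_le_exp.2 ?_
    have h1 := hconv (mix c s z y) (fun i => s * u i)
    have e5 : (fun i => mix c s z y i + s * u i) = mix c s z (fun i => y i + u i) := by
      funext i
      simp only [mix_apply]
      ring
    rw [e5] at h1
    have h2 := mul_le_mul_of_nonneg_left h1 hx
    have e6 : x * (F (mix c s z y) + ∑ i, G i (mix c s z y) * (s * u i)) =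
        x * F (mix c s z y) + ∑ i, x * s * u i * G i (mix c s z y) := by
      rw [mul_add, Finset.mul_sum]
      congr 1
      exact Finset.sum_congr rfl fun i _ => by ring
    have e4 : ∑ i, -u i * y i = -∑ i, u i * y i := by
      rw [← Finset.sum_neg_distrib]
      exact Finset.sum_congr rfl fun i _ => by ring
    rw [e6] at h2
    rw [e4]
    linarith

/-- the unconditional inequality -/
lemma total_ineq (hF : Lin F) (hG : ∀ i, Lin (G i)) (hB : ∀ i g, |G i g| ≤ B)
    (hconv : ∀ z w : ι → ℝ, F z + ∑ i, G i z * w i ≤ F (fun i => z i + w i))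
    {c s x : ℝ} (hcs : c ^ 2 + s ^ 2 = 1) (hx : 0 ≤ x) :
    Real.exp (x * (∫ g, F g ∂(gpi ι)) +
        x ^ 2 * s ^ 2 / 2 * ∑ i, ∫ z, (∫ y, G i (mix c s z y) ∂(gpi ι)) ^ 2 ∂(gpi ι)) ≤
      ∫ g, Real.exp (x * F g) ∂(gpi ι) := by
  have hc : |c| ≤ 1 := by
    rw [abs_le]; constructor <;> nlinarith [sq_nonneg s]
  have hs : |s| ≤ 1 := by
    rw [abs_le]; constructor <;> nlinarith [sq_nonneg c]
  have mF := hF.mix2 hcs
  have mE := (hF.const_mul x).mix2 hcs
  have mG := fun i => ((hG i).mix2 hcs).1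
  have iF : Integrable (fun z => ∫ y, F (mix c s z y) ∂(gpi ι)) (gpi ι) := mF.1.integral_prod_left
  have iG : ∀ i, Integrable (fun z => ∫ y, G i (mix c s z y) ∂(gpi ι)) (gpi ι) :=
    fun i => (mG i).integral_prod_left
  have iG2 : ∀ i, Integrable (fun z => (∫ y, G i (mix c s z y) ∂(gpi ι)) ^ 2) (gpi ι) := by
    intro i
    refine Integrable.mono' (integrable_const (B ^ 2)) ((iG i).1.pow 2)
      (Filter.Eventually.of_forall fun z => ?_)
    rw [Real.norm_eq_abs, abs_pow]
    have h1 : |∫ y, G i (mix c s z y) ∂(gpi ι)| ≤ B := by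
      have h2 := norm_integral_le_of_norm_le_const (μ := gpi ι)
        (f := fun y => G i (mix c s z y)) (C := B)
        (Filter.Eventually.of_forall fun y => by rw [Real.norm_eq_abs]; exact hB i _)
      simpa using h2
    exact pow_le_pow_left₀ (abs_nonneg _) h1 2
  have iE : Integrable (fun z => ∫ y, Real.exp (x * F (mix c s z y)) ∂(gpi ι)) (gpi ι) :=
    mE.2.integral_prod_left
  have i3 : Integrable (fun z => x * (∫ y, F (mix c s z y) ∂(gpi ι)) +
        x ^ 2 * s ^ 2 / 2 * ∑ i, (∫ y, G i (mix c s z y) ∂(gpi ι)) ^ 2) (gpi ι) :=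
    (iF.const_mul x).add ((integrable_finsetSum _ fun i _ => iG2 i).const_mul _)
  have i4 : Integrable (fun z => Real.exp (x * (∫ y, F (mix c s z y) ∂(gpi ι)) +
        x ^ 2 * s ^ 2 / 2 * ∑ i, (∫ y, G i (mix c s z y) ∂(gpi ι)) ^ 2)) (gpi ι) := by
    refine Integrable.mono' iE (Real.continuous_exp.comp_aestronglyMeasurable i3.1)
      (Filter.Eventually.of_forall fun z => ?_)
    rw [Real.norm_eq_abs, abs_of_pos (Real.exp_pos _)]
    exact cond_ineq hF hG hconv hc hs hx z
  have j1 := exp_integral_le i3 i4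
  have e1 : ∫ z, (x * (∫ y, F (mix c s z y) ∂(gpi ι)) +
        x ^ 2 * s ^ 2 / 2 * ∑ i, (∫ y, G i (mix c s z y) ∂(gpi ι)) ^ 2) ∂(gpi ι) =
      x * (∫ g, F g ∂(gpi ι)) +
        x ^ 2 * s ^ 2 / 2 * ∑ i, ∫ z, (∫ y, G i (mix c s z y) ∂(gpi ι)) ^ 2 ∂(gpi ι) := by
    rw [integral_add (iF.const_mul x)
      ((integrable_finsetSum _ fun i _ => iG2 i).const_mul _), integral_const_mul,
      integral_const_mul, integral_finsetSum _ fun i _ => iG2 i]
    congr 2
    rw [← integral_prod _ mF.1]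
    exact int_mix hcs hF.cont
  have e2 : ∫ z, (∫ y, Real.exp (x * F (mix c s z y)) ∂(gpi ι)) ∂(gpi ι) =
      ∫ g, Real.exp (x * F g) ∂(gpi ι) := by
    rw [← integral_prod _ mE.2]
    exact int_mix hcs (hF.const_mul x).dom_exp.cont
  rw [e1] at j1
  rw [← e2]
  exact j1.trans (integral_mono i4 iE fun z => cond_ineq hF hG hconv hc hs hx z)

end convex2

section final

variable [DecidableEq ι] {F : (ι → ℝ) → ℝ} {G H : ι → (ι → ℝ) → ℝ} {B : ℝ}

omit [DecidableEq ι] in
lemma int_J3 {f : (ι → ℝ) × ((ι → ℝ) × (ι → ℝ)) → ℝ} (hf : Continuous f) :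
    ∫ g : J3 ι → ℝ, f (pu g, (pv g, pw g)) ∂(gpi (J3 ι)) =
      ∫ q, f q ∂((gpi ι).prod ((gpi ι).prod (gpi ι))) := by
  have h1 := mp3 (ι := ι)
  conv_rhs => rw [← h1.map_eq]
  rw [integral_map h1.measurable.aemeasurable]
  rw [h1.map_eq]
  exact hf.aestronglyMeasurable

omit [DecidableEq ι] in
lemma phi_eq (hG : ∀ i, Dom (G i)) (θ : ℝ) :
    phi G θ = ∑ i, ∫ z, (∫ y, G i (mix (Real.cos θ) (Real.sin θ) z y) ∂(gpi ι)) ^ 2 ∂(gpi ι) := by
  have hc := Real.abs_cos_le_one θ
  have hs := Real.abs_sin_le_one θ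
  unfold phi
  rw [int_sum _ fun i _ => (dom_uv (hG i) hc hs).mul (dom_uw (hG i) hc hs)]
  refine Finset.sum_congr rfl fun i _ => ?_
  set f : (ι → ℝ) × ((ι → ℝ) × (ι → ℝ)) → ℝ := fun q =>
    G i (mix (Real.cos θ) (Real.sin θ) q.1 q.2.1) * G i (mix (Real.cos θ) (Real.sin θ) q.1 q.2.2)
    with hf
  have cf : Continuous f :=
    ((hG i).cont.comp (cont_mix continuous_const continuous_const continuous_fst
      (continuous_fst.comp continuous_snd))).mul
    ((hG i).cont.comp (cont_mix continuous_const continuous_const continuous_fst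
      (continuous_snd.comp continuous_snd)))
  have i1 : Integrable f ((gpi ι).prod ((gpi ι).prod (gpi ι))) := by
    rw [← (mp3 (ι := ι)).integrable_comp cf.aestronglyMeasurable]
    exact ((dom_uv (hG i) hc hs).mul (dom_uw (hG i) hc hs)).integrable
  have e1 := int_J3 cf
  have e2 : ∫ g : J3 ι → ℝ, f (pu g, (pv g, pw g)) ∂(gpi (J3 ι)) =
      ∫ g : J3 ι → ℝ, G i (mix (Real.cos θ) (Real.sin θ) (pu g) (pv g)) *
        G i (mix (Real.cos θ) (Real.sin θ) (pu g) (pw g)) ∂(gpi (J3 ι)) := rfl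
  rw [← e2, e1, integral_prod _ i1]
  refine integral_congr_ae (Filter.Eventually.of_forall fun z => ?_)
  simp only [hf]
  rw [integral_prod_mul (fun y => G i (mix (Real.cos θ) (Real.sin θ) z y))
    (fun y => G i (mix (Real.cos θ) (Real.sin θ) z y)), sq]

omit [DecidableEq ι] in
lemma phi_le (hG : ∀ i, Dom (G i)) {M : ℝ} (hM : ∀ g, ∑ i, G i g ^ 2 ≤ M) (θ : ℝ) :
    phi G θ ≤ M := by
  have hc := Real.abs_cos_le_one θ
  have hs := Real.abs_sin_le_one θ
  have h1 : phi G θ ≤ ∫ _g : J3 ι → ℝ, M ∂(gpi (J3 ι)) := by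
    refine int_mono (Dom.sum _ fun i _ => (dom_uv (hG i) hc hs).mul (dom_uw (hG i) hc hs))
      (Dom.const M) fun g => ?_
    have h2 := hM (mix (Real.cos θ) (Real.sin θ) (pu g) (pv g))
    have h3 := hM (mix (Real.cos θ) (Real.sin θ) (pu g) (pw g))
    have h4 : ∑ i, G i (mix (Real.cos θ) (Real.sin θ) (pu g) (pv g)) *
        G i (mix (Real.cos θ) (Real.sin θ) (pu g) (pw g)) ≤
        ∑ i, (G i (mix (Real.cos θ) (Real.sin θ) (pu g) (pv g)) ^ 2 / 2 +
          G i (mix (Real.cos θ) (Real.sin θ) (pu g) (pw g)) ^ 2 / 2) := by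
      refine Finset.sum_le_sum fun i _ => ?_
      nlinarith [sq_nonneg (G i (mix (Real.cos θ) (Real.sin θ) (pu g) (pv g)) -
        G i (mix (Real.cos θ) (Real.sin θ) (pu g) (pw g)))]
    rw [Finset.sum_add_distrib, ← Finset.sum_div, ← Finset.sum_div] at h4
    linarith
  simpa using h1

/-- **Variance from one exponential moment**, convex functions of a Gaussian vector. -/
theorem var_le_of_exp_moment (h : Reg F G H B) (hF : Lin F)
    (hconv : ∀ z w : ι → ℝ, F z + ∑ i, G i z * w i ≤ F (fun i => z i + w i))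
    {M : ℝ} (hM : ∀ g, ∑ i, G i g ^ 2 ≤ M) {x A : ℝ} (hx : 0 < x)
    (hexp : ∫ g, Real.exp (x * F g) ∂(gpi ι) ≤
      Real.exp (x * (∫ g, F g ∂(gpi ι)) + x ^ 2 * A / 2)) {u : ℝ} (hu : 0 < u) (hu1 : u ≤ 1) :
    0 ≤ A ∧ ∫ g, F g ^ 2 ∂(gpi ι) - (∫ g, F g ∂(gpi ι)) ^ 2 ≤ M * u + A * (-Real.log u) := by
  have hG : ∀ i, Lin (G i) := fun i => Lin.of_bounded (h.G_dom i).cont B (h.G_bd i)
  -- the two bounds on phi
  have b0 : ∀ θ, 0 ≤ phi G θ := by
    intro θ
    rw [phi_eq h.G_dom]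
    exact Finset.sum_nonneg fun i _ => integral_nonneg fun z => sq_nonneg _
  have b1 : ∀ θ, Real.sin θ ^ 2 * phi G θ ≤ A := by
    intro θ
    have h1 := total_ineq hF hG h.G_bd hconv (c := Real.cos θ) (s := Real.sin θ)
      (by rw [add_comm]; exact Real.sin_sq_add_cos_sq θ) hx.le
    rw [← phi_eq h.G_dom] at h1
    have h2 := Real.exp_le_exp.1 (h1.trans hexp)
    have h3 : x ^ 2 / 2 * (Real.sin θ ^ 2 * phi G θ) ≤ x ^ 2 / 2 * A := by
      have e : x ^ 2 * Real.sin θ ^ 2 / 2 * phi G θ =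
        x ^ 2 / 2 * (Real.sin θ ^ 2 * phi G θ) := by ring
      rw [e] at h2
      linarith
    exact le_of_mul_le_mul_left h3 (by positivity)
  have b2 : ∀ θ, phi G θ ≤ M := phi_le h.G_dom hM
  have hA : 0 ≤ A := by
    have h1 := b1 (Real.pi / 2)
    have h2 := b0 (Real.pi / 2)
    rw [Real.sin_pi_div_two] at h1
    linarith
  refine ⟨hA, ?_⟩
  have hpi : (0 : ℝ) ≤ Real.pi / 2 := by positivity
  have dsq : ∀ θ, HasDerivAt (fun θ => Real.sin θ ^ 2) (2 * Real.sin θ * Real.cos θ) θ := by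
    intro θ
    refine ((Real.hasDerivAt_sin θ).fun_pow 2).congr_deriv ?_
    simp
  have sc : ∀ θ, 0 ≤ θ → θ ≤ Real.pi / 2 → 0 ≤ Real.sin θ ∧ 0 ≤ Real.cos θ := fun θ h0 h1 =>
    ⟨Real.sin_nonneg_of_nonneg_of_le_pi h0 (by linarith [Real.pi_pos]),
      Real.cos_nonneg_of_neg_pi_div_two_le_of_le (by linarith [Real.pi_pos]) h1⟩
  -- the angle
  set t := Real.arcsin (√u) with ht
  have hsu : 0 < √u := Real.sqrt_pos.2 hu
  have hsu1 : √u ≤ 1 := by
    rw [Real.sqrt_le_iff]; constructor <;> linarith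
  have hst : Real.sin t = √u := Real.sin_arcsin (by linarith) hsu1
  have hst2 : Real.sin t ^ 2 = u := by rw [hst, Real.sq_sqrt hu.le]
  have ht0 : 0 < t := Real.arcsin_pos.2 hsu
  have ht1 : t ≤ Real.pi / 2 := Real.arcsin_le_pi_div_two _
  -- first piece
  have p1 : KK F 0 ≤ KK F t + M * u := by
    set D : ℝ → ℝ := fun θ => KK F θ + M * Real.sin θ ^ 2 with hD
    have dD : ∀ θ, HasDerivAt D (-(2 * Real.sin θ * Real.cos θ) * phi G θ +
        M * (2 * Real.sin θ * Real.cos θ)) θ := fun θ =>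
      (hasDerivAt_KK h θ).add ((dsq θ).const_mul M)
    have mono : MonotoneOn D (Set.Icc 0 t) := by
      refine monotoneOn_of_deriv_nonneg (convex_Icc _ _)
        (fun θ _ => (dD θ).continuousAt.continuousWithinAt)
        (fun θ _ => (dD θ).differentiableAt.differentiableWithinAt) fun θ hθ => ?_
      rw [interior_Icc] at hθ
      rw [(dD θ).deriv]
      obtain ⟨s0, c0⟩ := sc θ hθ.1.le (hθ.2.le.trans ht1)
      have h5 : -(2 * Real.sin θ * Real.cos θ) * phi G θ +
          M * (2 * Real.sin θ * Real.cos θ) =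
          (2 * Real.sin θ * Real.cos θ) * (M - phi G θ) := by ring
      rw [h5]
      exact mul_nonneg (by positivity) (by linarith [b2 θ])
    have h6 := mono (Set.left_mem_Icc.2 ht0.le) (Set.right_mem_Icc.2 ht0.le) ht0.le
    simp only [hD] at h6
    rw [hst2, Real.sin_zero] at h6
    linarith
  -- second piece
  have p2 : KK F t ≤ KK F (Real.pi / 2) + A * (-Real.log u) := by
    set D : ℝ → ℝ := fun θ => KK F θ + A * Real.log (Real.sin θ ^ 2) with hD
    have spos : ∀ θ ∈ Set.Icc t (Real.pi / 2), 0 < Real.sin θ := fun θ hθ =>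
      Real.sin_pos_of_pos_of_lt_pi (ht0.trans_le hθ.1) (by linarith [hθ.2, Real.pi_pos])
    have dD : ∀ θ ∈ Set.Icc t (Real.pi / 2), HasDerivAt D
        (-(2 * Real.sin θ * Real.cos θ) * phi G θ +
        A * ((2 * Real.sin θ * Real.cos θ) / Real.sin θ ^ 2)) θ := fun θ hθ =>
      (hasDerivAt_KK h θ).add (((dsq θ).log (pow_pos (spos θ hθ) 2).ne').const_mul A)
    have mono : MonotoneOn D (Set.Icc t (Real.pi / 2)) := by
      refine monotoneOn_of_deriv_nonneg (convex_Icc _ _)
        (fun θ hθ => (dD θ hθ).continuousAt.continuousWithinAt)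
        (fun θ hθ => (dD θ (interior_subset hθ)).differentiableAt.differentiableWithinAt)
        fun θ hθ => ?_
      have hθ' := interior_subset hθ
      rw [(dD θ hθ').deriv]
      obtain ⟨s0, c0⟩ := sc θ (ht0.le.trans hθ'.1) hθ'.2
      have s1 := spos θ hθ'
      have h4 : phi G θ ≤ A / Real.sin θ ^ 2 := by
        rw [le_div_iff₀ (pow_pos s1 2)]
        linarith [b1 θ]
      have h5 : -(2 * Real.sin θ * Real.cos θ) * phi G θ +
          A * ((2 * Real.sin θ * Real.cos θ) / Real.sin θ ^ 2) =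
          (2 * Real.sin θ * Real.cos θ) * (A / Real.sin θ ^ 2 - phi G θ) := by
        field_simp
        ring
      rw [h5]
      exact mul_nonneg (by positivity) (by linarith)
    have h6 := mono (Set.left_mem_Icc.2 ht1) (Set.right_mem_Icc.2 ht1) ht1
    simp only [hD] at h6
    rw [hst2, Real.sin_pi_div_two] at h6
    norm_num at h6
    linarith
  rw [KK_zero h.F_dom] at p1
  rw [KK_pi h.F_dom] at p2
  linarith

end final

/-! ### log-partition functions and the SK free energy -/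

section logzz

variable {S : Type*} [Fintype S] [Nonempty S] (a : S → ι → ℝ) (c : S → ℝ)

lemma log_zz_lin : Lin (fun g => Real.log (zz a c g)) := by
  refine ⟨log_zz_cont a c, ∑ s, |c s| + Real.log (Fintype.card S), ∑ s, ∑ i, |a s i|, ?_,
    Finset.sum_nonneg fun _ _ => Finset.sum_nonneg fun _ _ => abs_nonneg _, fun g => ?_⟩
  · have h1 : (0 : ℝ) ≤ ∑ s, |c s| := Finset.sum_nonneg fun _ _ => abs_nonneg _
    have h2 : 0 ≤ Real.log (Fintype.card S : ℝ) :=
      Real.log_nonneg (by exact_mod_cast Fintype.card_pos)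
    linarith
  · have := log_zz_bound a c g
    linarith

lemma log_zz_fderiv (g : ι → ℝ) :
    HasFDerivAt (fun g => Real.log (zz a c g))
      (∑ i, gav a c (fun s => a s i) g •
        ContinuousLinearMap.proj (R := ℝ) (φ := fun _ : ι => ℝ) i) g := by
  have h1 : ∀ s, HasFDerivAt (fun g : ι → ℝ => ∑ i, a s i * g i + c s)
      (∑ i, a s i • ContinuousLinearMap.proj (R := ℝ) (φ := fun _ : ι => ℝ) i) g := by
    intro s
    refine (HasFDerivAt.fun_sum fun i _ => ?_).add_const (c s)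
    exact (ContinuousLinearMap.proj (R := ℝ) (φ := fun _ : ι => ℝ) i).hasFDerivAt.const_mul (a s i)
  have h2 : HasFDerivAt (fun g : ι → ℝ => zz a c g)
      (∑ s, wt a c g s •
        ∑ i, a s i • ContinuousLinearMap.proj (R := ℝ) (φ := fun _ : ι => ℝ) i) g := by
    unfold zz
    exact HasFDerivAt.fun_sum fun s _ => (h1 s).exp
  refine (h2.log (zz_pos a c g).ne').congr_fderiv ?_
  ext v
  simp only [_root_.smul_apply, _root_.sum_apply,
    ContinuousLinearMap.proj_apply, smul_eq_mul]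
  unfold gav
  rw [Finset.mul_sum]
  simp_rw [Finset.mul_sum, div_mul_eq_mul_div, Finset.sum_mul]
  rw [Finset.sum_comm]
  refine Finset.sum_congr rfl fun i _ => ?_
  rw [Finset.sum_div]
  refine Finset.sum_congr rfl fun s _ => ?_
  ring

/-- the tangent inequality for log-partition functions -/
lemma log_zz_tangent (z w : ι → ℝ) :
    Real.log (zz a c z) + ∑ i, gav a c (fun s => a s i) z * w i ≤
      Real.log (zz a c (fun i => z i + w i)) := by
  set m : ℝ := ∑ i, gav a c (fun s => a s i) z * w i with hm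
  have hz := zz_pos a c z
  have e1 : ∀ s, wt a c (fun i => z i + w i) s = wt a c z s * Real.exp (∑ i, a s i * w i) := by
    intro s
    unfold wt
    rw [← Real.exp_add]
    congr 1
    simp_rw [mul_add]
    rw [Finset.sum_add_distrib]
    ring
  have e2 : ∑ s, wt a c z s * (∑ i, a s i * w i) = m * zz a c z := by
    have h1 : ∀ i, gav a c (fun s => a s i) z * w i * zz a c z =
        ∑ s, wt a c z s * (a s i * w i) := by
      intro i
      unfold gav
      rw [div_mul_eq_mul_div, div_mul_cancel₀ _ hz.ne', Finset.sum_mul]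
      exact Finset.sum_congr rfl fun s _ => by ring
    rw [hm, Finset.sum_mul]
    simp_rw [h1, Finset.mul_sum]
    exact Finset.sum_comm
  have h3 : Real.exp m * zz a c z ≤ zz a c (fun i => z i + w i) := by
    have h4 : ∑ s, wt a c z s * (Real.exp m * (∑ i, a s i * w i + (1 - m))) ≤
        zz a c (fun i => z i + w i) := by
      unfold zz
      simp_rw [e1]
      refine Finset.sum_le_sum fun s _ => mul_le_mul_of_nonneg_left ?_ (wt_pos a c z s).le
      have h5 := Real.add_one_le_exp (∑ i, a s i * w i - m)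
      have h6 : Real.exp (∑ i, a s i * w i) =
          Real.exp m * Real.exp (∑ i, a s i * w i - m) := by
        rw [← Real.exp_add]; congr 1; ring
      rw [h6]
      refine mul_le_mul_of_nonneg_left ?_ (Real.exp_pos m).le
      linarith
    have h7 : ∑ s, wt a c z s * (Real.exp m * (∑ i, a s i * w i + (1 - m))) =
        Real.exp m * zz a c z := by
      have h8 : ∀ s, wt a c z s * (Real.exp m * (∑ i, a s i * w i + (1 - m))) =
          Real.exp m * (wt a c z s * (∑ i, a s i * w i)) +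
            Real.exp m * (1 - m) * wt a c z s := by
        intro s; ring
      simp_rw [h8]
      rw [Finset.sum_add_distrib, ← Finset.mul_sum, ← Finset.mul_sum, e2]
      unfold zz
      ring
    rw [h7] at h4
    exact h4
  have h9 := Real.log_le_log (by positivity) h3
  rw [Real.log_mul (Real.exp_pos m).ne' hz.ne', Real.log_exp] at h9
  linarith

end logzz

section sk

variable (n : ℕ) (β : ℝ)

/-- gradient of the free energy -/
noncomputable def gradF (p : Pair n) (g : Pair n → ℝ) : ℝ :=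
  (β / Real.sqrt n) * av n β (ps p) g

/-- diagonal of the Hessian of the free energy -/
noncomputable def hessF (p : Pair n) (g : Pair n → ℝ) : ℝ :=
  (β / Real.sqrt n) * ((β / Real.sqrt n) * (av n β (symmDiff (ps p) (ps p)) g -
    av n β (ps p) g * av n β (ps p) g))

lemma gradF_eq (p : Pair n) (g : Pair n → ℝ) :
    gav (ska n β) (fun _ => 0) (fun s => ska n β s p) g = gradF n β p g := by
  unfold gradF av avf
  rw [← gav_const_mul]
  rfl

lemma reg_freeEnergy : Reg (freeEnergy n β) (gradF n β) (hessF n β) |β / Real.sqrt n| where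
  F_dom := freeEnergy_dom n β
  G_dom p := (av_dom n β (ps p)).const_mul _
  H_dom p := ((((av_dom n β _).sub ((av_dom n β _).mul (av_dom n β _)))).const_mul _).const_mul _
  G_bd p g := by
    unfold gradF
    rw [abs_mul]
    exact mul_le_of_le_one_right (abs_nonneg _) (abs_av_le n β _ g)
  F_diff g := by
    have h := log_zz_fderiv (ska n β) (fun _ => 0) g
    have e : (fun g => Real.log (zz (ska n β) (fun _ => 0) g)) = freeEnergy n β := by
      funext g; exact (freeEnergy_eq n β g).symm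
    rw [e] at h
    simp_rw [gradF_eq] at h
    exact h
  G_diff p g t := (hasDerivAt_av n β (ps p) g p t).const_mul _

lemma lin_freeEnergy : Lin (freeEnergy n β) := by
  have e : (fun g => Real.log (zz (ska n β) (fun _ => 0) g)) = freeEnergy n β := by
    funext g; exact (freeEnergy_eq n β g).symm
  rw [← e]
  exact log_zz_lin (ska n β) (fun _ => 0)

lemma tangent_freeEnergy (z w : Pair n → ℝ) :
    freeEnergy n β z + ∑ p, gradF n β p z * w p ≤ freeEnergy n β (fun p => z p + w p) := by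
  have h := log_zz_tangent (ska n β) (fun _ => 0) z w
  simp_rw [gradF_eq] at h
  rw [freeEnergy_eq, freeEnergy_eq]
  exact h

lemma card_pair_le : (Fintype.card (Pair n) : ℝ) ≤ (n : ℝ) ^ 2 / 2 := by
  have h1 : Fintype.card (Pair n) + Fintype.card (Pair n) ≤ n ^ 2 := by
    have h2 : Fintype.card (Pair n ⊕ Pair n) ≤ Fintype.card (Fin n × Fin n) := by
      refine Fintype.card_le_of_injective
        (fun q : Pair n ⊕ Pair n => Sum.elim (fun p => p.1) (fun p => (p.1.2, p.1.1)) q) ?_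
      rintro (p | p) (q | q) hpq
      · simp only [Sum.elim_inl] at hpq
        rw [Subtype.ext hpq]
      · simp only [Sum.elim_inl, Sum.elim_inr] at hpq
        have h3 := p.2
        have h4 := q.2
        rw [hpq] at h3
        exact absurd h3 (not_lt.2 h4.le)
      · simp only [Sum.elim_inl, Sum.elim_inr] at hpq
        have h3 := p.2
        have h4 := q.2
        rw [← hpq] at h4
        exact absurd h4 (not_lt.2 h3.le)
      · simp only [Sum.elim_inr, Prod.mk.injEq] at hpq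
        rw [Subtype.ext (Prod.ext hpq.2 hpq.1)]
    rw [Fintype.card_sum, Fintype.card_prod, Fintype.card_fin] at h2
    rw [sq]
    exact h2
  have h5 : ((Fintype.card (Pair n) + Fintype.card (Pair n) : ℕ) : ℝ) ≤ ((n ^ 2 : ℕ) : ℝ) := by
    exact_mod_cast h1
  push_cast at h5
  linarith

lemma sum_gradF_sq (g : Pair n → ℝ) : ∑ p, gradF n β p g ^ 2 ≤ β ^ 2 * n / 2 := by
  rcases Nat.eq_zero_or_pos n with h0 | hn
  · subst h0
    have : IsEmpty (Pair 0) := ⟨fun p => p.1.1.elim0⟩
    simp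
  · have hn' : (0 : ℝ) < n := by exact_mod_cast hn
    calc ∑ p, gradF n β p g ^ 2 ≤ ∑ _p : Pair n, β ^ 2 / n := by
          refine Finset.sum_le_sum fun p _ => ?_
          unfold gradF
          rw [mul_pow, div_pow, Real.sq_sqrt hn'.le]
          refine mul_le_of_le_one_right (by positivity) ?_
          rw [← sq_abs]
          exact pow_le_one₀ (abs_nonneg _) (abs_av_le n β _ g)
      _ = Fintype.card (Pair n) * (β ^ 2 / n) := by simp
      _ ≤ ((n : ℝ) ^ 2 / 2) * (β ^ 2 / n) :=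
          mul_le_mul_of_nonneg_right (card_pair_le n) (by positivity)
      _ = β ^ 2 * n / 2 := by field_simp

/-- **Module I for the SK free energy.**  One exponential moment bounds the variance. -/
theorem var_freeEnergy_le {x A : ℝ} (hx : 0 < x)
    (hexp : ∫ g, Real.exp (x * freeEnergy n β g) ∂(disorder n) ≤
      Real.exp (x * (∫ g, freeEnergy n β g ∂(disorder n)) + x ^ 2 * A / 2))
    {u : ℝ} (hu : 0 < u) (hu1 : u ≤ 1) :
    0 ≤ A ∧ Var[freeEnergy n β; disorder n] ≤ β ^ 2 * n / 2 * u + A * (-Real.log u) := by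
  have h := var_le_of_exp_moment (reg_freeEnergy n β) (lin_freeEnergy n β)
    (tangent_freeEnergy n β) (sum_gradF_sq n β) hx hexp hu hu1
  have hd := freeEnergy_dom n β
  have hm : MemLp (freeEnergy n β) 2 (gpi (Pair n)) := by
    rw [memLp_two_iff_integrable_sq hd.cont.aestronglyMeasurable]
    exact (hd.pow 2).integrable
  have e : Var[freeEnergy n β; disorder n] =
      ∫ g, freeEnergy n β g ^ 2 ∂(gpi (Pair n)) - (∫ g, freeEnergy n β g ∂(gpi (Pair n))) ^ 2 :=
    variance_eq_sub (μ := gpi (Pair n)) hm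
  rw [e]
  exact h

end sk

end Vale.Agent.P146.Ub.Cv
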