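import Vale.Agent.P146.Gap.First
import Vale.Agent.P146.Gap.Vari
import Vale.Agent.P146.Gap.Minb
import Vale.Agent.P146.Gap.Comp

/-!
# P146 / Ub: the Parisi functional with all exponents at least `x`

The infimum of the SK Parisi functional over the exponents `≥ x` is at most the infimum over all
exponents plus `C x²`.
-/

set_option linter.all false

open MeasureTheory ProbabilityTheory Filter Topology Set

namespace Vale.Agent.P146.Gap

open Vale.Agent.P157.Par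

theorem gap2_M1f_ge {C g s₁ : ℝ} {F : ℝ → ℝ} (h : Adm C F) (hg : 0 < g) (hg1 : g ≤ 1) {τ : ℝ}
    (hτ : τ ∈ Icc 0 s₁) : -(2 * g) ≤ M1f g s₁ F τ := by
  obtain ⟨L, B, hsm⟩ := first_sm h hg hτ
  have b2 := first_f_bc h hg s₁ 1
  have b3 := first_f_bc h hg s₁ 2
  have hb := (b3.mul b3).add ((b2.mul (b2.mul b2)).smul (-(2 * g)))
  obtain ⟨K, hK⟩ := hb.2
  rw [first_M1f_eq]
  have h1 := hsm.tlt_mono (g := fun _ => -(2 * g))
    (g' := fun x => first_f g s₁ F 3 τ x * first_f g s₁ F 3 τ x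
        + -(2 * g) * (first_f g s₁ F 2 τ x * (first_f g s₁ F 2 τ x * first_f g s₁ F 2 τ x)))
    continuous_const (K := |-(2 * g)|) (fun _ => le_rfl) (hb.slice τ) (hK τ) (fun x => ?_) g τ 0
  · rwa [hsm.tlt_const] at h1
  · obtain ⟨p1, p2⟩ := first_d1_sq h hg hg1 hτ x
    have p5 : first_f g s₁ F 2 τ x ≤ 1 := by nlinarith [sq_nonneg (first_f g s₁ F 1 τ x)]
    have p6 : first_f g s₁ F 2 τ x * (first_f g s₁ F 2 τ x * first_f g s₁ F 2 τ x) ≤ 1 := by
      have a1 : first_f g s₁ F 2 τ x * first_f g s₁ F 2 τ x ≤ 1 := by nlinarith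
      nlinarith
    nlinarith [mul_self_nonneg (first_f g s₁ F 3 τ x)]

/-- Chord bound for the overlap along the first block. -/
theorem gap2_chord {C g s₁ : ℝ} {F : ℝ → ℝ} (h : Adm C F) (hg : 0 < g) (hg1 : g ≤ 1)
    (hs : 0 < s₁) {τ : ℝ} (hτ : τ ∈ Icc 0 s₁) :
    Rf g g s₁ F τ ≤ τ / s₁ * Rf g g s₁ F s₁ + g * τ * (s₁ - τ) := by
  have hd : ∀ t ∈ Ioo 0 s₁, HasDerivAt (fun t => Rf g g s₁ F t + g * t ^ 2)
      (Mf g s₁ F t + 2 * g * t) t := by
    intro t ht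
    have h1 := Rf_hasDerivAt h hg hg1 ht
    have h2 : HasDerivAt (fun t : ℝ => g * t ^ 2) (g * (2 * t)) t := by
      have := (hasDerivAt_pow 2 t).const_mul g
      simpa using this
    exact (h1.add h2).congr_deriv (by ring)
  have hd2 : ∀ t ∈ Ioo 0 s₁, HasDerivAt (fun t => Mf g s₁ F t + 2 * g * t)
      (M1f g s₁ F t + 2 * g) t := by
    intro t ht
    have h1 := Mf_hasDerivAt h hg hg1 ht
    have h2 : HasDerivAt (fun t : ℝ => 2 * g * t) (2 * g) t := by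
      simpa using (hasDerivAt_id t).const_mul (2 * g)
    exact h1.add h2
  have hc : ContinuousOn (fun t => Rf g g s₁ F t + g * t ^ 2) (Icc 0 s₁) :=
    (Rf_cont h hg hg1 hg hg1).add (by fun_prop)
  have hmono : MonotoneOn (fun t => Mf g s₁ F t + 2 * g * t) (Ioo 0 s₁) := by
    refine monotoneOn_of_deriv_nonneg (convex_Ioo _ _)
      (fun t ht => (hd2 t ht).continuousAt.continuousWithinAt) ?_ ?_
    · rw [interior_Ioo]
      exact fun t ht => (hd2 t ht).differentiableAt.differentiableWithinAt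
    · rw [interior_Ioo]
      intro t ht
      rw [(hd2 t ht).deriv]
      linarith [gap2_M1f_ge h hg hg1 (s₁ := s₁) (τ := t) ⟨ht.1.le, ht.2.le⟩]
  have hconv : ConvexOn ℝ (Icc 0 s₁) (fun t => Rf g g s₁ F t + g * t ^ 2) := by
    refine MonotoneOn.convexOn_of_deriv (convex_Icc _ _) hc ?_ ?_
    · rw [interior_Icc]
      exact fun t ht => (hd t ht).differentiableAt.differentiableWithinAt
    · rw [interior_Icc]
      intro a ha c hcc hac
      rw [(hd a ha).deriv, (hd c hcc).deriv]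
      exact hmono ha hcc hac
  have h0 : (0 : ℝ) ∈ Icc 0 s₁ := ⟨le_rfl, hs.le⟩
  have h1 : s₁ ∈ Icc 0 s₁ := ⟨hs.le, le_rfl⟩
  have hw : 0 ≤ 1 - τ / s₁ := by
    rw [sub_nonneg, div_le_one hs]; exact hτ.2
  have hw' : 0 ≤ τ / s₁ := div_nonneg hτ.1 hs.le
  have key := hconv.2 h0 h1 hw hw' (by ring)
  simp only [smul_eq_mul, mul_zero, zero_add] at key
  have e : τ / s₁ * s₁ = τ := div_mul_cancel₀ _ hs.ne'
  rw [e, Rf_zero h hg hg1 g hs.le] at key
  have e2 : τ / s₁ * (Rf g g s₁ F s₁ + g * s₁ ^ 2) = τ / s₁ * Rf g g s₁ F s₁ + g * τ * s₁ := by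
    have : τ / s₁ * (g * s₁ ^ 2) = g * (τ / s₁ * s₁) * s₁ := by ring
    rw [mul_add, this, e]
  rw [e2] at key
  nlinarith

/-- The cost of raising the exponent on the first block. -/
theorem gap2_cost {b C g g' s₁ K : ℝ} {F : ℝ → ℝ} (hb : 0 < b) (h : Adm C F) (hg : 0 < g)
    (hgg : g ≤ g') (hg'1 : g' ≤ 1) (hs : 0 < s₁)
    (htilt : ∀ τ ∈ Icc 0 s₁, Rf g' g s₁ F τ ≤ Rf g g s₁ F τ + K * (g' - g) * τ)
    (hend : Rf g g s₁ F s₁ ≤ s₁ / b ^ 2) :
    gstep g' s₁ F 0 - gstep g s₁ F 0 ≤ (g' - g) * s₁ ^ 2 / (4 * b ^ 2)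
      + 1 / 2 * (g' - g) * (g * s₁ ^ 3 / 6 + K * (g' - g) * s₁ ^ 2 / 2) := by
  have hg1 : g ≤ 1 := hgg.trans hg'1
  have hg' : 0 < g' := hg.trans_le hgg
  rw [gstep_diff h hg hg1 hg' hg'1 hs.le 0]
  have h1 : ∫ τ in (0 : ℝ)..s₁, Rf g' g s₁ F τ ≤
      ∫ τ in (0 : ℝ)..s₁, ((1 / b ^ 2 + g * s₁ + K * (g' - g)) * τ - g * τ ^ 2) := by
    refine intervalIntegral.integral_mono_on hs.le
      ((Rf_cont h hg hg1 hg' hg'1).intervalIntegrable_of_Icc hs.le)
      (Continuous.intervalIntegrable (by fun_prop) _ _) ?_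
    intro τ hτ
    have a1 := htilt τ hτ
    have a2 := gap2_chord h hg hg1 hs hτ
    have a3 : τ / s₁ * Rf g g s₁ F s₁ ≤ τ / s₁ * (s₁ / b ^ 2) :=
      mul_le_mul_of_nonneg_left hend (div_nonneg hτ.1 hs.le)
    have a4 : τ / s₁ * (s₁ / b ^ 2) = 1 / b ^ 2 * τ := by
      field_simp
    rw [a4] at a3
    nlinarith
  have h2 : ∫ τ in (0 : ℝ)..s₁, ((1 / b ^ 2 + g * s₁ + K * (g' - g)) * τ - g * τ ^ 2) =
      (1 / b ^ 2 + g * s₁ + K * (g' - g)) * (s₁ ^ 2 / 2) - g * (s₁ ^ 3 / 3) := by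
    rw [intervalIntegral.integral_sub (Continuous.intervalIntegrable (by fun_prop) _ _)
      (Continuous.intervalIntegrable (by fun_prop) _ _),
      intervalIntegral.integral_const_mul, intervalIntegral.integral_const_mul, integral_id,
      integral_pow]
    ring
  rw [h2] at h1
  have h3 : 0 ≤ 1 / 2 * (g' - g) := by linarith
  have h4 := mul_le_mul_of_nonneg_left h1 h3
  unfold Rf at h4
  refine h4.trans (le_of_eq ?_)
  field_simp
  ring

/-! ### Dropping the first exponent -/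

/-- the sequence without the term of index one; the term of index zero is zero -/
noncomputable def gap2D (m : ℕ → ℝ) : ℕ → ℝ := fun l => if l = 0 then 0 else m (l + 1)

theorem gap2D_zero (m : ℕ → ℝ) : gap2D m 0 = 0 := if_pos rfl

theorem gap2D_succ (m : ℕ → ℝ) (l : ℕ) : gap2D m (l + 1) = m (l + 2) := if_neg (Nat.succ_ne_zero l)

theorem gap2D_exp {k : ℕ} {m : ℕ → ℝ} (hm : Exponents (k + 1) m) : Exponents k (gap2D m) := by
  obtain ⟨-, e0, -⟩ := minb_exp hm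
  refine ⟨gap2D_zero m, ?_, ?_⟩
  · rw [gap2D_succ]; exact hm.2.1
  · intro l hl
    rcases Nat.eq_zero_or_pos l with rfl | hl0
    · rw [gap2D_zero, gap2D_succ]; exact e0 2 (by omega) (by omega)
    · obtain ⟨i, rfl⟩ := Nat.exists_eq_add_of_le' hl0
      rw [gap2D_succ, gap2D_succ]
      exact hm.2.2 (i + 2) (by omega)

theorem gap2D_P {b : ℝ} {k : ℕ} {R : ℕ → ℝ} (h : MinbP b (k + 1) R) : MinbP b k (gap2D R) := by
  refine ⟨gap2D_zero R, fun l hl => ?_, ?_⟩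
  · rcases Nat.eq_zero_or_pos l with rfl | hl0
    · rw [gap2D_zero, gap2D_succ]
      have := minb_mono h.2.1 (Nat.zero_le 2) (by omega)
      rw [h.1] at this
      exact this
    · obtain ⟨i, rfl⟩ := Nat.exists_eq_add_of_le' hl0
      rw [gap2D_succ, gap2D_succ]
      exact h.2.1 (i + 2) (by omega)
  · rw [gap2D_succ]; exact h.2.2

theorem gap2_step {k p : ℕ} {m R : ℕ → ℝ} (hm : Exponents (k + 1) m) (hp : 1 < p)
    (hpk : p ≤ k + 2) (h1 : ∀ l, 1 ≤ l → l < p → R l = R 1) :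
    cascade (fun l => m (1 + l)) (fun l => R (1 + l)) (k + 1) lc =
      gstep (m p) (R p - R 1)
        (cascade (fun l => m (p + l)) (fun l => R (p + l)) (k + 2 - p) lc) := by
  obtain ⟨-, e0, -⟩ := minb_exp hm
  have hk : k + 1 = (p - 1) + (k + 2 - p) := by omega
  rw [hk, minb_split]
  have hp' : ∀ l, 1 + (p - 1 + l) = p + l := fun l => by omega
  simp only [hp']
  rw [minb_block (p := p - 1) (by omega) (fun l h4 h5 => (e0 _ (by omega) (by omega)).ne')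
    (fun l hl => by
      simp only [Nat.add_zero]
      exact h1 (1 + l) (by omega) (by omega))]
  have hp'' : 1 + (p - 1) = p := by omega
  simp only [Nat.add_zero, hp'']

theorem gap2_sum {k : ℕ} {m R : ℕ → ℝ} (h0 : R 0 = 0) :
    ∑ l ∈ Finset.range (k + 1), (gap2D m (l + 1) - gap2D m l) * gap2D R l ^ 2 =
      ∑ l ∈ Finset.range (k + 1 + 1), (m (l + 1) - m l) * R l ^ 2 - (m 2 - m 1) * R 1 ^ 2 := by
  rw [Finset.sum_range_succ', Finset.sum_range_succ', Finset.sum_range_succ']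
  simp only [gap2D_succ, gap2D_zero, h0]
  ring

theorem gap2_casc {k : ℕ} {m R : ℕ → ℝ} (h0 : R 0 = 0) :
    cascade (gap2D m) (gap2D R) (k + 1) lc = gstep (m 2) (R 2)
      (cascade (fun l => m (2 + l)) (fun l => R (2 + l)) k lc) := by
  have hk : k + 1 = 1 + k := by omega
  rw [hk, minb_split, cascade_succ_def]
  have e1 : (fun l => gap2D m (1 + l)) = fun l => m (2 + l) := by
    funext l
    rw [Nat.add_comm 1 l, gap2D_succ, Nat.add_comm l 2]
  have e2 : (fun l => gap2D R (1 + l)) = fun l => R (2 + l) := by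
    funext l
    rw [Nat.add_comm 1 l, gap2D_succ, Nat.add_comm l 2]
  rw [e1, e2, gap2D_succ, gap2D_succ, gap2D_zero, sub_zero]
  rfl

theorem gap2_casc' {k : ℕ} {m R : ℕ → ℝ} (h0 : R 0 = 0) :
    cascade m R (k + 1 + 1) lc = gstep (m 1) (R 1)
      (cascade (fun l => m (1 + l)) (fun l => R (1 + l)) (k + 1) lc) := by
  have hk : k + 1 + 1 = 1 + (k + 1) := by omega
  rw [hk, minb_split, cascade_succ_def, h0, sub_zero]
  rfl

theorem gap2_drop {b K : ℝ} (hb : 0 < b) (hK : 0 ≤ K)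
    (htilt : ∀ (C g g' s₁ : ℝ) (F : ℝ → ℝ), Adm C F → 0 < g →
      g ≤ g' → g' ≤ 1 → s₁ ≤ b ^ 2 → ∀ τ ∈ Icc 0 s₁,
      Rf g' g s₁ F τ ≤ Rf g g s₁ F τ + K * (g' - g) * τ)
    {k : ℕ} {m R : ℕ → ℝ} (hm : Exponents (k + 1) m) (hR : MinbP b (k + 1) R)
    (hmin : ∀ R', MinbP b (k + 1) R' → minbJ b (k + 1) m R ≤ minbJ b (k + 1) m R') :
    minbJ b k (gap2D m) (gap2D R) ≤ minbJ b (k + 1) m R
      + (b ^ 6 + K * b ^ 4) * (m 2 - m 1) * m 2 := by
  obtain ⟨emono, e0, e1⟩ := minb_exp hm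
  have hmonoR : ∀ i j, i ≤ j → j ≤ k + 2 → R i ≤ R j := fun i j h1 h2 => minb_mono hR.2.1 h1 h2
  have hm1 : 0 < m 1 := e0 1 (by omega) (by omega)
  have hm2 : 0 < m 2 := e0 2 (by omega) (by omega)
  have hm12 : m 1 < m 2 := hm.2.2 1 (by omega)
  have hm21 : m 2 ≤ 1 := e1 2 (by omega)
  have hR1 : 0 ≤ R 1 := by
    have := hmonoR 0 1 (by omega) (by omega)
    rwa [hR.1] at this
  have hR1b : R 1 ≤ b ^ 2 := by
    have := hmonoR 1 (k + 2) (by omega) le_rfl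
    rwa [hR.2.2] at this
  have hadmR : ∀ i n : ℕ, i + n ≤ k + 2 → Adm (2 * Real.exp (2 * b ^ 2))
      (cascade (fun l => m (i + l)) (fun l => R (i + l)) n lc) := by
    intro i n hin
    have h1 := good_cascade (c := n) (m := fun l => m (i + l)) (r := fun l => R (i + l)) good_lc
      le_rfl (fun l h1 h2 => e0 _ (by omega) (by omega))
      (fun l h1 h2 => emono _ _ (by omega) (by omega))
      (fun l h1 h2 => e1 _ (by omega)) (fun l hl => hR.2.1 _ (by omega))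
    refine (h1.mono_C ?_).adm
    have h2 := hmonoR (i + n) (k + 2) hin le_rfl
    have h3 := hmonoR 0 (i + 0) (by omega) (by omega)
    have h4 : R (k + 2) = b ^ 2 := hR.2.2
    rw [h4] at h2
    rw [hR.1] at h3
    gcongr
    linarith
  set F := cascade (fun l => m (1 + l)) (fun l => R (1 + l)) (k + 1) lc with hF
  set F₂ := cascade (fun l => m (2 + l)) (fun l => R (2 + l)) k lc with hF₂
  have hadmF : Adm (2 * Real.exp (2 * b ^ 2)) F := hadmR 1 (k + 1) (by omega)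
  have hadmF₂ : Adm (2 * Real.exp (2 * b ^ 2)) F₂ := hadmR 2 k (by omega)
  have hstep2 : F = gstep (m 2) (R 2 - R 1) F₂ := by
    have := gap2_step (p := 2) hm (by omega) (by omega) (R := R) (fun l h1 h2 => by
      have : l = 1 := by omega
      rw [this])
    exact this
  have hcasc2 : gstep (m 2) (R 2) F₂ = gstep (m 2) (R 1) F := by
    have h1 := gstep_add (g := m 2) (v := R 1) (v' := R 2 - R 1) hadmF₂ hm2 hR1
      (sub_nonneg.2 (hR.2.1 1 (by omega)))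
    rw [hstep2, h1]
    congr 1
    ring
  have hJ : minbJ b k (gap2D m) (gap2D R) = minbJ b (k + 1) m R
      + (gstep (m 2) (R 1) F 0 - gstep (m 1) (R 1) F 0 - (m 2 - m 1) * R 1 ^ 2 / (4 * b ^ 2)) := by
    unfold minbJ
    rw [gap2_sum hR.1, gap2_casc hR.1, gap2_casc' hR.1, hcasc2]
    ring
  rw [hJ]
  have hgoal0 : 0 ≤ (b ^ 6 + K * b ^ 4) * (m 2 - m 1) * m 2 := by
    have : 0 ≤ m 2 - m 1 := by linarith
    positivity
  rcases hR1.eq_or_lt with h10 | h10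
  · rw [← h10, gstep_zero hm1.ne', gstep_zero hm2.ne']
    simp only [sub_self]
    have h0 : (m 2 - m 1) * 0 ^ 2 / (4 * b ^ 2) = 0 := by ring
    linarith
  have hend : Rf (m 1) (m 1) (R 1) F (R 1) ≤ R 1 / b ^ 2 := by
    by_cases hjb : R 1 = b ^ 2
    · refine (Rf_le_one hadmF hm1 (hm12.le.trans hm21) hm1 ⟨h10.le, le_rfl⟩).trans (le_of_eq ?_)
      rw [hjb, div_self (by positivity)]
    have hlt : R 1 < R (k + 2) := by
      have h2 : R (k + 2) = b ^ 2 := hR.2.2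
      rw [h2]
      exact lt_of_le_of_ne hR1b hjb
    have hex2 : ∃ l, R 1 < R l := ⟨k + 2, hlt⟩
    classical
    set p := Nat.find hex2 with hp
    have hRp : R 1 < R p := Nat.find_spec hex2
    have hpk : p ≤ k + 2 := Nat.find_min' hex2 hlt
    have hjp : 1 < p := by
      by_contra h
      have := hmonoR p 1 (by omega) (by omega)
      linarith
    have h1 : ∀ l, 1 ≤ l → l < p → R l = R 1 := by
      intro l h1 h2
      have h3 := Nat.find_min hex2 h2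
      have h4 := hmonoR 1 l h1 (by omega)
      linarith [not_lt.1 h3]
    have hmp : m 1 < m p := hm12.trans_le (emono 2 p (by omega) (by omega))
    have hFp := gap2_step (p := p) hm hjp hpk h1
    rw [← hF] at hFp
    rw [hFp]
    refine vari_down hb (hadmR p (k + 2 - p) (by omega)) hm1 hmp (e1 p (by omega)) h10
      (sub_pos.2 hRp) ?_
    intro τ hτ
    have h0 : ∀ l < 1, R l = 0 := fun l hl => by
      have : l = 0 := by omega
      rw [this]; exact hR.1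
    have h2 := minb_comp (p := p) (c := R 1 + τ) hm hR hmin le_rfl hjp hpk h0 h1
      (by linarith [hτ.1]) (by linarith [hτ.2])
    have h3 : R p - (R 1 + τ) = R p - R 1 - τ := by ring
    rw [h3] at h2
    have h5 : (m p - m 1) * ((R 1 + τ) ^ 2 - R 1 ^ 2) / (4 * b ^ 2) =
      (m 1 - m p) * R 1 ^ 2 / (4 * b ^ 2) - (m 1 - m p) * (R 1 + τ) ^ 2 / (4 * b ^ 2) := by ring
    rw [h5] at h2
    have h6 : k + 1 + 1 - p = k + 2 - p := rfl
    rw [h6] at h2
    linarith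
  have hcost := gap2_cost hb hadmF hm1 hm12.le hm21 h10
    (fun τ hτ => htilt _ _ _ _ F hadmF hm1 hm12.le hm21 hR1b τ hτ) hend
  have hd : 0 ≤ m 2 - m 1 := by linarith
  have hb3 : R 1 ^ 3 ≤ b ^ 6 := by
    calc R 1 ^ 3 ≤ (b ^ 2) ^ 3 := pow_le_pow_left₀ hR1 hR1b 3
      _ = b ^ 6 := by ring
  have hb2 : R 1 ^ 2 ≤ b ^ 4 := by
    calc R 1 ^ 2 ≤ (b ^ 2) ^ 2 := pow_le_pow_left₀ hR1 hR1b 2
      _ = b ^ 4 := by ring
  have h7 : m 1 * R 1 ^ 3 / 6 + K * (m 2 - m 1) * R 1 ^ 2 / 2 ≤ (b ^ 6 + K * b ^ 4) * m 2 := by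
    have a1 : m 1 * R 1 ^ 3 ≤ m 2 * b ^ 6 := mul_le_mul hm12.le hb3 (by positivity) hm2.le
    have a2 : K * (m 2 - m 1) * R 1 ^ 2 ≤ K * m 2 * b ^ 4 :=
      mul_le_mul (mul_le_mul_of_nonneg_left (by linarith) hK) hb2 (by positivity) (by positivity)
    have a3 : 0 ≤ m 2 * b ^ 6 := by positivity
    have a4 : 0 ≤ K * m 2 * b ^ 4 := by positivity
    linarith
  have h8 := mul_le_mul_of_nonneg_left h7 (show 0 ≤ 1 / 2 * (m 2 - m 1) by linarith)
  have h9 : 1 / 2 * (m 2 - m 1) * ((b ^ 6 + K * b ^ 4) * m 2) =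
      1 / 2 * ((b ^ 6 + K * b ^ 4) * (m 2 - m 1) * m 2) := by ring
  rw [h9] at h8
  linarith

/-! ### Iteration -/

theorem gap2_iter {b K x η : ℝ} (hb : 0 < b) (hK : 0 ≤ K)
    (htilt : ∀ (C g g' s₁ : ℝ) (F : ℝ → ℝ), Adm C F → 0 < g →
      g ≤ g' → g' ≤ 1 → s₁ ≤ b ^ 2 → ∀ τ ∈ Icc 0 s₁,
      Rf g' g s₁ F τ ≤ Rf g g s₁ F τ + K * (g' - g) * τ)
    (hx : 0 < x) (hx1 : x ≤ 1) (hη : 0 < η) :
    ∀ (k : ℕ) (m : ℕ → ℝ), Exponents k m → (∀ l, 1 ≤ l → l ≤ k → m (l + 1) - m l ≤ η) →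
      m 1 ≤ x + η → ∀ R, MinbP b k R → ∃ (k' : ℕ) (m' R' : ℕ → ℝ), Exponents k' m' ∧ x ≤ m' 1 ∧
        MinbP b k' R' ∧ minbJ b k' m' R' ≤ minbJ b k m R
          + (b ^ 6 + K * b ^ 4) * (x + η) * (x + η - m 1) := by
  intro k
  induction k with
  | zero =>
    intro m hm _ hmx R hR
    refine ⟨0, m, R, hm, ?_, hR, ?_⟩
    · have := hm.2.1
      simp only [Nat.zero_add] at this
      rw [this]; exact hx1
    · have h1 : 0 ≤ x + η - m 1 := by linarith
      have : 0 ≤ (b ^ 6 + K * b ^ 4) * (x + η) * (x + η - m 1) := by positivity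
      linarith
  | succ k ih =>
    intro m hm hmesh hmx R hR
    by_cases hxm : x ≤ m 1
    · refine ⟨k + 1, m, R, hm, hxm, hR, ?_⟩
      have h1 : 0 ≤ x + η - m 1 := by linarith
      have : 0 ≤ (b ^ 6 + K * b ^ 4) * (x + η) * (x + η - m 1) := by positivity
      linarith
    push Not at hxm
    obtain ⟨r, hr, hrmin⟩ := exists_min hb hm
    have hP : MinbP b (k + 1) (minbExt b (k + 1) r) := minb_ext_P hr
    have hPmin : ∀ R', MinbP b (k + 1) R' →
        minbJ b (k + 1) m (minbExt b (k + 1) r) ≤ minbJ b (k + 1) m R' :=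
      fun R' h => minb_min_ext hm hr hrmin h
    have hdrop := gap2_drop hb hK htilt hm hP hPmin
    have h12 : m 2 - m 1 ≤ η := hmesh 1 le_rfl (by omega)
    have hm12 : m 1 < m 2 := hm.2.2 1 (by omega)
    obtain ⟨k', m', R', h1, h2, h3, h4⟩ := ih (gap2D m) (gap2D_exp hm)
      (fun l h1 h2 => by
        obtain ⟨i, rfl⟩ := Nat.exists_eq_add_of_le' h1
        rw [gap2D_succ, gap2D_succ]
        exact hmesh (i + 2) (by omega) (by omega))
      (by rw [gap2D_succ]; simp only [Nat.zero_add]; linarith) _ (gap2D_P hP)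
    refine ⟨k', m', R', h1, h2, h3, h4.trans ?_⟩
    have h5 := hPmin R hR
    have h6 : gap2D m 1 = m 2 := gap2D_succ m 0
    rw [h6]
    have h7 : (b ^ 6 + K * b ^ 4) * (m 2 - m 1) * m 2 ≤
        (b ^ 6 + K * b ^ 4) * (m 2 - m 1) * (x + η) :=
      mul_le_mul_of_nonneg_left (by linarith)
        (mul_nonneg (by positivity) (by linarith))
    have h8 : (b ^ 6 + K * b ^ 4) * (x + η) * (x + η - m 1) =
        (b ^ 6 + K * b ^ 4) * (m 2 - m 1) * (x + η)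
          + (b ^ 6 + K * b ^ 4) * (x + η) * (x + η - m 2) := by ring
    linarith

/-- The Parisi functional with the exponents at least `x`: the cost is at most `C x²`. -/
theorem exp_ge {b : ℝ} (hb : 0 < b) : ∃ C : ℝ, 0 ≤ C ∧ ∀ x : ℝ, 0 < x → x ≤ 1 →
    ∀ (k : ℕ) (m q : ℕ → ℝ), Exponents k m → Path k q → q k ≤ 1 → ∀ e > 0,
      ∃ (k' : ℕ) (m' r' : ℕ → ℝ), Exponents k' m' ∧ x ≤ m' 1 ∧ BPath b k' r' ∧
        SKr b k' m' r' ≤ SKpar b k m q + C * x ^ 2 + e := by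
  obtain ⟨K, hK, htilt⟩ := Rf_tilt (b ^ 2)
  refine ⟨4 * (b ^ 6 + K * b ^ 4), by positivity, ?_⟩
  intro x hx hx1 k m q hm hq hq1 e he
  set η := min x (e / b ^ 2) with hη
  have hη0 : 0 < η := lt_min hx (by positivity)
  have hηx : η ≤ x := min_le_left _ _
  have hηe : η * b ^ 2 ≤ e := by
    have := min_le_right x (e / b ^ 2)
    rw [← hη, le_div_iff₀ (by positivity)] at this
    exact this
  obtain ⟨k₁, m₁, q₁, hm₁, hmesh, hq₁, hq₁1, heq⟩ := refine_exp (b := b) hm hq hq1 hη0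
  obtain ⟨r, hr, hrle⟩ := zero_start hb hm₁ hq₁ hq₁1
  have hm11 : m₁ 1 ≤ η := by
    have h1 := hmesh 0 (by omega)
    rw [hm₁.1] at h1
    simpa using h1
  have hP : MinbP b k₁ (minbExt b k₁ r) := minb_ext_P hr
  obtain ⟨k', m', R', h1, h2, h3, h4⟩ := gap2_iter hb hK htilt hx hx1 hη0 k₁ m₁ hm₁
    (fun l _ h => hmesh l h) (by linarith) _ hP
  refine ⟨k', m', R', h1, h2, h3.bpath, ?_⟩
  rw [minb_SKr_eq h1 h3]
  have h5 : SKr b k₁ m₁ r = SKr b k₁ m₁ (minbExt b k₁ r) :=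
    minb_SKr_congr fun l hl => by simp [minbExt, hl]
  rw [h5, minb_SKr_eq hm₁ hP, heq] at hrle
  have hm1pos : 0 < m₁ 1 := by
    have := hm₁.2.2 0 (by omega)
    rwa [hm₁.1] at this
  have h6 : m₁ 1 * b ^ 2 ≤ e :=
    (mul_le_mul_of_nonneg_right hm11 (by positivity)).trans hηe
  have h7 : (b ^ 6 + K * b ^ 4) * (x + η) * (x + η - m₁ 1) ≤
      4 * (b ^ 6 + K * b ^ 4) * x ^ 2 := by
    have a0 : 0 ≤ b ^ 6 + K * b ^ 4 := by positivity
    have a1 : (x + η) * (x + η - m₁ 1) ≤ (2 * x) * (2 * x) :=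
      mul_le_mul (by linarith) (by linarith) (by linarith) (by linarith)
    have a2 := mul_le_mul_of_nonneg_left a1 a0
    calc _ = (b ^ 6 + K * b ^ 4) * ((x + η) * (x + η - m₁ 1)) := by ring
      _ ≤ _ := a2
      _ = _ := by ring
  linarith

theorem gap2_SKr_eq {b : ℝ} (hb : 0 < b) (k : ℕ) (m r : ℕ → ℝ) :
    SKpar b k m (fun l => r l / b ^ 2) = SKr b k m r := by
  unfold SKpar SKr
  have e1 : (fun l => b ^ 2 * (r l / b ^ 2)) = r := by
    funext l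
    field_simp
  rw [e1]
  have e2 : ∀ l ∈ Finset.range (k + 1), (m (l + 1) - m l) * (r l / b ^ 2) ^ 2 =
      (m (l + 1) - m l) * r l ^ 2 / b ^ 4 := by
    intro l _
    field_simp
  rw [Finset.sum_congr rfl e2, ← Finset.sum_div]
  field_simp
  ring

/-- The same statement for the functional of the overlaps. -/
theorem exp_ge_par {b : ℝ} (hb : 0 < b) : ∃ C : ℝ, 0 ≤ C ∧ ∀ x : ℝ, 0 < x → x ≤ 1 →
    ∀ (k : ℕ) (m q : ℕ → ℝ), Exponents k m → Path k q → q k ≤ 1 → ∀ e > 0,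
      ∃ (k' : ℕ) (m' q' : ℕ → ℝ), Exponents k' m' ∧ x ≤ m' 1 ∧ Path k' q' ∧ q' 0 = 0 ∧
        q' k' ≤ 1 ∧ SKpar b k' m' q' ≤ SKpar b k m q + C * x ^ 2 + e := by
  obtain ⟨C, hC, h⟩ := exp_ge hb
  refine ⟨C, hC, fun x hx hx1 k m q hm hq hq1 e he => ?_⟩
  obtain ⟨k', m', r', h1, h2, ⟨h3, h4, h5⟩, h6⟩ := h x hx hx1 k m q hm hq hq1 e he
  refine ⟨k', m', fun l => r' l / b ^ 2, h1, h2, ⟨?_, fun l hl => ?_⟩, ?_, ?_, ?_⟩
  · exact div_nonneg h4.1 (by positivity)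
  · exact div_le_div_of_nonneg_right (h4.2 l hl) (by positivity)
  · simp only [h3, zero_div]
  · simp only []
    rw [div_le_one (by positivity)]; exact h5
  · rw [gap2_SKr_eq hb]; exact h6

end Vale.Agent.P146.Gap

namespace Vale.Agent.P146.Ub

open Vale.Agent.P157.Par (Path Exponents spinPart)
open Vale.Agent.P146.Gap (SKpar SKr)

/-- Removal of the small exponents. -/
theorem raise {β : ℝ} (hβ : 0 < β) : ∃ C : ℝ, 0 ≤ C ∧ ∀ (K : ℕ) (m q : ℕ → ℝ) (η x : ℝ),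
    Exponents K m → Path K q → q K ≤ 1 → 0 < η → (∀ l ≤ K, m (l + 1) - m l ≤ η) → η ≤ x →
    x < 1 → ∃ (K' : ℕ) (m' q' : ℕ → ℝ), Exponents K' m' ∧ x ≤ m' 1 ∧ Path K' q' ∧ q' 0 = 0 ∧
      q' K' ≤ 1 ∧ SKpar β K' m' q' ≤ SKpar β K m q + C * (x ^ 2 + η) := by
  obtain ⟨C, hC, h⟩ := Vale.Agent.P146.Gap.exp_ge_par hβ
  refine ⟨C + 1, by linarith, fun K m q η x hm hq hq1 hη _ hηx hx => ?_⟩
  obtain ⟨K', m', q', h1, h2, h3, h4, h5, h6⟩ :=
    h x (hη.trans_le hηx) hx.le K m q hm hq hq1 η hη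
  refine ⟨K', m', q', h1, h2, h3, h4, h5, h6.trans ?_⟩
  have h7 : 0 ≤ C * η := mul_nonneg hC hη.le
  nlinarith [sq_nonneg x]

end Vale.Agent.P146.Ub
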