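import Vale.Agent.P146.Ub.Gue
import Vale.Agent.P146.Sk.VarFin
import Vale.Agent.P146.Gap.Defs

/-!
# P146, upper bound of the variance: Guerra's bound for the fractional moments of the partition
function of the problem file
-/

open MeasureTheory ProbabilityTheory Filter Topology Matrix

namespace Vale.Agent.P146.Ub

open Vale.Agent.P157 (spin)
open Vale.Agent.P157.Lv
open Vale.Agent.P157.Par (Path Exponents)
open Vale.Agent.P146.Sk (Ix Wm Ft PSK pN phi integral_disorder cfEquiv qf_cfEquiv)
open Vale.Agent.P146.Sk.Vr (F0 F1 free_phi eg_F0 eg_F1)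

variable {N : ℕ}

lemma F0_eq_Ft (β : ℝ) (z : Ix N → ℝ) : F0 β z = Ft β N z + N * Real.log 2 := by
  unfold F0 Ft
  rw [← Equiv.sum_comp (cfEquiv N)]
  simp only [qf_cfEquiv]
  have h1 : ∀ x : Fin N → Bool, Real.exp (β / 2 * Sk.qf (Wm N z) (spin x)) =
      Real.exp (N * Real.log 2) * Real.exp (β / 2 * Sk.qf (Wm N z) (spin x) - N * Real.log 2) := by
    intro x
    rw [← Real.exp_add]
    congr 1
    ring
  simp only [h1]
  rw [← Finset.mul_sum, Real.log_mul (Real.exp_pos _).ne'
    (Finset.sum_pos (fun x _ => Real.exp_pos _) Finset.univ_nonempty).ne', Real.log_exp]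
  ring

/-- The reflection of the diagonal. -/
def fl (z : Ix N → ℝ) : Ix N → ℝ := fun e => if e.1 = e.2 then -z e else z e

lemma mp_fl : MeasurePreserving (fl (N := N)) (gI (Ix N)) (gI (Ix N)) := by
  have h : ∀ e : Ix N, MeasurePreserving (fun t : ℝ => if e.1 = e.2 then -t else t)
      (gaussianReal 0 1) (gaussianReal 0 1) := by
    intro e
    by_cases he : e.1 = e.2
    · simp only [he, if_true]
      refine ⟨measurable_neg, ?_⟩
      have := gaussianReal_map_neg (μ := 0) (v := 1)
      rwa [neg_zero] at this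
    · simp only [he, if_false]
      exact MeasurePreserving.id _
  exact measurePreserving_pi (fun _ : Ix N => gaussianReal 0 1) (fun _ : Ix N => gaussianReal 0 1) h

lemma phi_fl (z : Ix N → ℝ) : phi (fl z) = phi z := by
  funext p
  have hp := p.2
  have h1 : ¬ (p.1.1 = p.1.2) := hp.ne
  have h2 : ¬ (p.1.2 = p.1.1) := fun h => h1 h.symm
  unfold phi fl
  rw [if_neg h1]
  simp only [h2, if_false]

lemma trace_fl (z : Ix N → ℝ) : (Wm N (fl z)).trace = -(Wm N z).trace := by
  unfold Matrix.trace Wm fl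
  rw [← Finset.sum_neg_distrib]
  refine Finset.sum_congr rfl fun i _ => ?_
  simp only [Matrix.diag_apply, Matrix.of_apply, if_true]
  ring

lemma measurable_free (β : ℝ) : Measurable (freeEnergy N β) := by
  unfold freeEnergy partitionFn hamiltonian
  fun_prop

/-- The free energy is Lipschitz. -/
lemma lip_free (N : ℕ) (β : ℝ) : Lip (freeEnergy N β) := by
  have hl : ∀ σ : Fin N → ℤˣ, Lip fun g : Pair N → ℝ => β * hamiltonian N g σ := by
    intro σ
    unfold hamiltonian
    refine Lip.const_mul (Lip.const_mul (Lip.sum _ fun p _ => ?_) _) _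
    have h := (Lip.coord p).const_mul (((σ p.1.1 : ℤ) : ℝ) * ((σ p.1.2 : ℤ) : ℝ))
    refine (?_ : (fun y : Pair N → ℝ => y p * ((σ p.1.1 : ℤ) : ℝ) * ((σ p.1.2 : ℤ) : ℝ)) =
      fun y => ((σ p.1.1 : ℤ) : ℝ) * ((σ p.1.2 : ℤ) : ℝ) * y p) ▸ h
    funext y
    ring
  let S : Sy (Pair N) (Fin N → ℤˣ) := ⟨fun _ => 0, 0, fun l => if l = 0 then 0 else 1,
    fun g σ => β * hamiltonian N g σ⟩
  have hS : S.Reg :=
    { m0 := by
        show (if (0 : ℕ) = 0 then (0 : ℝ) else 1) = 0
        norm_num
      mK := by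
        show (if (0 + 1 : ℕ) = 0 then (0 : ℝ) else 1) = 1
        norm_num
      mono := fun l hl => by
        have hl0 : l = 0 := Nat.le_zero.1 hl
        subst hl0
        show (if (0 : ℕ) = 0 then (0 : ℝ) else 1) ≤ if 0 + 1 = 0 then 0 else 1
        norm_num
      pos := by
        show (0 : ℝ) < if (1 : ℕ) = 0 then 0 else 1
        norm_num
      lev := fun e => le_rfl
      lip := hl }
  exact hS.lip_top

/-- The exponential moments of the free energy are at most those of the model with the diagonal. -/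
theorem free_moment_le_Ft (hN : 0 < N) (β x : ℝ) :
    ∫ g, Real.exp (x * freeEnergy N β g) ∂(disorder N) ≤
      Real.exp (x * (N * Real.log 2)) * ∫ z, Real.exp (x * Ft β N z) ∂(gI (Ix N)) := by
  rw [integral_disorder (by have := measurable_free (N := N) β; fun_prop)]
  have hint : Integrable (fun z : Ix N → ℝ => Real.exp (x * F0 β z)) (gI (Ix N)) := by
    have h1 : (fun z : Ix N → ℝ => Real.exp (x * F0 β z)) =
        fun z => Real.exp (x * (N * Real.log 2)) * Real.exp (x * Ft β N z) := by
      funext z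
      rw [F0_eq_Ft, ← Real.exp_add]
      congr 1
      ring
    rw [h1]
    exact ((lip_Ft β N).exp_eg x).integrable.const_mul _
  have hint' : Integrable (fun z : Ix N → ℝ => Real.exp (x * F0 β (fl z))) (gI (Ix N)) :=
    (mp_fl (N := N)).integrable_comp_of_integrable hint
  have heq : ∫ z, Real.exp (x * F0 β (fl z)) ∂(gI (Ix N)) = ∫ z, Real.exp (x * F0 β z) ∂(gI (Ix N)) := by
    have h2 : Measurable fun z : Ix N → ℝ => Real.exp (x * F0 β z) := by
      have := (eg_F0 (N := N) β).meas
      fun_prop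
    conv_rhs => rw [← (mp_fl (N := N)).map_eq]
    rw [integral_map (mp_fl (N := N)).measurable.aemeasurable
      h2.aestronglyMeasurable]
  have hpt : ∀ z : Ix N → ℝ, Real.exp (x * freeEnergy N β (phi z)) ≤
      1 / 2 * (Real.exp (x * F0 β z) + Real.exp (x * F0 β (fl z))) := by
    intro z
    have e1 := free_phi hN β z
    have e2 := free_phi hN β (fl z)
    rw [phi_fl, trace_fl] at e2
    have e3 : F0 β z = freeEnergy N β (phi z) + β / 2 * (Wm N z).trace := by linarith
    have e4 : F0 β (fl z) = freeEnergy N β (phi z) - β / 2 * (Wm N z).trace := by linarith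
    rw [e3, e4]
    set G := freeEnergy N β (phi z)
    set t := x * (β / 2 * (Wm N z).trace)
    have e5 : x * (G + β / 2 * (Wm N z).trace) = x * G + t := by ring
    have e6 : x * (G - β / 2 * (Wm N z).trace) = x * G + -t := by ring
    rw [e5, e6, Real.exp_add, Real.exp_add]
    have e7 : 2 ≤ Real.exp t + Real.exp (-t) := by
      have h1 := Real.add_one_le_exp t
      have h2 := Real.add_one_le_exp (-t)
      linarith
    have e8 := Real.exp_pos (x * G)
    nlinarith
  have h3 : ∫ z, Real.exp (x * freeEnergy N β (phi z)) ∂(gI (Ix N)) ≤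
      ∫ z, 1 / 2 * (Real.exp (x * F0 β z) + Real.exp (x * F0 β (fl z))) ∂(gI (Ix N)) :=
    integral_mono_of_nonneg (Filter.Eventually.of_forall fun z => (Real.exp_pos _).le)
      ((hint.add hint').const_mul _) (Filter.Eventually.of_forall hpt)
  refine h3.trans (le_of_eq ?_)
  rw [integral_const_mul, integral_add hint hint', heq]
  have h4 : ∀ z : Ix N → ℝ, Real.exp (x * F0 β z) =
      Real.exp (x * (N * Real.log 2)) * Real.exp (x * Ft β N z) := by
    intro z
    rw [F0_eq_Ft, ← Real.exp_add]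
    congr 1
    ring
  simp only [h4]
  rw [integral_const_mul]
  ring

/-- **Guerra's bound for fractional moments of the partition function.** -/
theorem free_moment_le (hN : 0 < N) {K : ℕ} {m q : ℕ → ℝ} (hm : Exponents K m) (hq : Path K q)
    (hq0 : q 0 = 0) {β : ℝ} (hβ : 0 ≤ β) {x : ℝ} (hx : 0 < x) (hxm : x ≤ m 1) :
    Real.log (∫ g, Real.exp (x * freeEnergy N β g) ∂(disorder N)) ≤
      x * N * (Real.log 2 + PSK β K m q) := by
  have h1 := gue_le hN hm hq hq0 hβ hx hxm
  have h2 := free_moment_le_Ft hN β x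
  have h3 : 0 < ∫ z, Real.exp (x * Ft β N z) ∂(gI (Ix N)) :=
    integral_exp_pos ((lip_Ft β N).exp_eg x).integrable
  have h0 : 0 < ∫ g, Real.exp (x * freeEnergy N β g) ∂(gI (Pair N)) :=
    integral_exp_pos ((lip_free N β).exp_eg x).integrable
  have hmono : Real.log (∫ g, Real.exp (x * freeEnergy N β g) ∂(disorder N)) ≤
      x * (N * Real.log 2) + Real.log (∫ z, Real.exp (x * Ft β N z) ∂(gI (Ix N))) := by
    refine (Real.log_le_log h0 h2).trans (le_of_eq ?_)
    rw [Real.log_mul (Real.exp_pos _).ne' h3.ne', Real.log_exp]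
  refine hmono.trans ?_
  have h4 : Real.log (∫ z, Real.exp (x * Ft β N z) ∂(gI (Ix N))) ≤ x * (N * PSK β K m q) := by
    have h5 := mul_le_mul_of_nonneg_left h1 hx.le
    rwa [← mul_assoc, mul_one_div_cancel hx.ne', one_mul] at h5
  linarith

/-- The same bound for the functional of `Gap`. -/
theorem free_moment_le' (hN : 0 < N) {K : ℕ} {m q : ℕ → ℝ} (hm : Exponents K m) (hq : Path K q)
    (hq0 : q 0 = 0) {β : ℝ} (hβ : 0 ≤ β) {x : ℝ} (hx : 0 < x) (hxm : x ≤ m 1) :
    Real.log (∫ g, Real.exp (x * freeEnergy N β g) ∂(disorder N)) ≤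
      x * N * (Real.log 2 + Gap.SKpar β K m q) := free_moment_le hN hm hq hq0 hβ hx hxm

/-- **Guerra's bound for the moments** (module GUE). -/
theorem guerra {β : ℝ} (hβ : 0 < β) {n K : ℕ} (hn : 1 ≤ n) {m q : ℕ → ℝ} (hm : Exponents K m)
    (hq : Path K q) (hq0 : q 0 = 0) (_hq1 : q K ≤ 1) {x : ℝ} (hx : 0 < x) (hx1 : x ≤ m 1) :
    Real.log (∫ g, Real.exp (x * freeEnergy n β g) ∂(disorder n)) ≤
      x * n * (Real.log 2 + Gap.SKpar β K m q) := free_moment_le' hn hm hq hq0 hβ.le hx hx1

/-- The mean of the free energy. -/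
theorem free_mean (hN : 0 < N) (β : ℝ) :
    ∫ g, freeEnergy N β g ∂(disorder N) = N * (Real.log 2 + pN β N) := by
  have hN' : (0 : ℝ) < N := by exact_mod_cast hN
  rw [integral_disorder (measurable_free β)]
  have htr : EG fun z : Ix N → ℝ => (Wm N z).trace := (Sk.egm_Wm (N := N)).trace
  have h0 : ∫ z : Ix N → ℝ, (Wm N z).trace ∂(gI (Ix N)) = 0 := by
    have h1 : ∫ z : Ix N → ℝ, (Wm N (fl z)).trace ∂(gI (Ix N)) =
        ∫ z : Ix N → ℝ, (Wm N z).trace ∂(gI (Ix N)) := by
      conv_rhs => rw [← (mp_fl (N := N)).map_eq]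
      rw [integral_map (mp_fl (N := N)).measurable.aemeasurable
        htr.meas.aestronglyMeasurable]
    simp only [trace_fl, integral_neg] at h1
    linarith
  have h1 : ∀ z : Ix N → ℝ, freeEnergy N β (phi z) =
      Ft β N z + (N * Real.log 2 - β / 2 * (Wm N z).trace) := by
    intro z
    rw [free_phi hN, F0_eq_Ft]
    ring
  have h2 : ∫ z : Ix N → ℝ, (Ft β N z + (N * Real.log 2 - β / 2 * (Wm N z).trace)) ∂(gI (Ix N)) =
      (∫ z, Ft β N z ∂(gI (Ix N))) + N * Real.log 2 := by
    have i2 : Integrable (fun z : Ix N → ℝ => N * Real.log 2 - β / 2 * (Wm N z).trace)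
        (gI (Ix N)) := (integrable_const _).sub (htr.integrable.const_mul _)
    rw [integral_add (lip_Ft β N).eg.integrable i2,
      integral_sub (integrable_const _) (htr.integrable.const_mul _),
      integral_const_mul (β / 2), h0]
    simp
  simp only [h1]
  rw [h2]
  unfold pN
  field_simp
  ring

end Vale.Agent.P146.Ub
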