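import Vale.Agent.P146.Ub.RRate
import Vale.Agent.P146.Ub.GueF
import Vale.Agent.P146.Ub.Gap2
import Vale.Agent.P146.Ub.Conv0

/-!
# P146 / Ub: the conclusion, a polynomial improvement of the bound of the variance
-/

open MeasureTheory ProbabilityTheory

namespace Vale.Agent.P146.Ub

open Vale.Agent.P157.Par (Path Exponents)
open Vale.Agent.P146.Gap (SKpar)
open Vale.Agent.P146.Sk (PSK)

theorem fin_PSK (β : ℝ) (K : ℕ) (m q : ℕ → ℝ) : PSK β K m q = SKpar β K m q := rfl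

/-- The exponential moment is at most the Parisi value, up to `C x²`. -/
theorem fin_moment {β : ℝ} (hβ : 0 < β) : ∃ C : ℝ, 0 ≤ C ∧ ∀ (n : ℕ), 1 ≤ n → ∀ x : ℝ, 0 < x →
    x ≤ 1 → ∀ (K : ℕ) (m q : ℕ → ℝ), Exponents K m → Path K q → q K ≤ 1 →
      Real.log (∫ g, Real.exp (x * freeEnergy n β g) ∂(disorder n)) / (x * n) -
        Real.log 2 - C * x ^ 2 ≤ PSK β K m q := by
  obtain ⟨C, hC, h⟩ := Gap.exp_ge_par hβ
  refine ⟨C, hC, fun n hn x hx hx1 K m q hm hq hq1 => ?_⟩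
  have hn0 : (0 : ℝ) < n := by exact_mod_cast hn
  refine le_of_forall_pos_le_add fun e he => ?_
  obtain ⟨K', m', q', hm', hxm, hq', hq'0, hq'1, hc⟩ := h x hx hx1 K m q hm hq hq1 e he
  have hG := guerra hβ hn hm' hq' hq'0 hq'1 hx hxm
  have h1 : Real.log (∫ g, Real.exp (x * freeEnergy n β g) ∂(disorder n)) / (x * n) ≤
      Real.log 2 + SKpar β K' m' q' := by
    rw [div_le_iff₀ (by positivity)]
    linarith
  rw [fin_PSK]
  linarith

/-- The upper tail: one small exponential moment of the centred free energy. -/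
theorem exp_moment {β : ℝ} (hβ : 0 < β) : ∃ C : ℝ, 2 ≤ C ∧ ∀ n : ℕ, 1 ≤ n →
    ∫ g, Real.exp ((n : ℝ) ^ (-(1 / 72) : ℝ) * freeEnergy n β g) ∂(disorder n) ≤
      Real.exp ((n : ℝ) ^ (-(1 / 72) : ℝ) * (∫ g, freeEnergy n β g ∂(disorder n)) +
        ((n : ℝ) ^ (-(1 / 72) : ℝ)) ^ 2 * (C * (n : ℝ) ^ (71 / 72 : ℝ)) / 2) := by
  obtain ⟨C₁, hC₁, hlow⟩ := rate_lower' hβ
  obtain ⟨C₂, hC₂, hmom⟩ := fin_moment hβ
  set c : ℝ := 2 * (C₁ + C₂ + 1) with hc
  have hc0 : 2 ≤ c := by rw [hc]; linarith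
  refine ⟨c, hc0, fun n hn => ?_⟩
  have hn1 : (1 : ℝ) ≤ n := by exact_mod_cast hn
  have hn0 : (0 : ℝ) < n := by linarith
  set y : ℝ := (n : ℝ) ^ (1 / 72 : ℝ) with hy
  have hy1 : 1 ≤ y := Real.one_le_rpow hn1 (by norm_num)
  have hy0 : 0 < y := by linarith
  set Y : ℝ := (n : ℝ) ^ (71 / 72 : ℝ) with hY
  have hY1 : 1 ≤ Y := Real.one_le_rpow hn1 (by norm_num)
  have hYy : Y * y = n := by
    rw [hY, hy, ← Real.rpow_add hn0]
    norm_num
  have hy2 : (n : ℝ) ^ (1 - 1 / 36 : ℝ) = Y / y := by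
    rw [hY, hy, ← Real.rpow_sub hn0]
    norm_num
  have hx : (n : ℝ) ^ (-(1 / 72) : ℝ) = 1 / y := by
    rw [hy, Real.rpow_neg hn0.le, inv_eq_one_div]
  rw [hx]
  obtain ⟨x, hxd⟩ : ∃ x : ℝ, x = 1 / y := ⟨_, rfl⟩
  rw [← hxd]
  have hx0 : 0 < x := by rw [hxd]; positivity
  have hx1 : x ≤ 1 := by rw [hxd, div_le_one hy0]; exact hy1
  have h1 := hlow _ (hmom n hn x hx0 hx1) n (by omega)
  set E : ℝ := ∫ g, freeEnergy n β g ∂(disorder n) with hE
  set I : ℝ := ∫ g, Real.exp (x * freeEnergy n β g) ∂(disorder n) with hI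
  have hlog : Real.log I ≤ x * E + x ^ 2 * (c * Y) / 2 := by
    have h2 : (n : ℝ) * (Real.log 2 + (Real.log I / (x * n) - Real.log 2 - C₂ * x ^ 2)) =
        Real.log I / x - n * (C₂ * x ^ 2) := by
      field_simp
      ring
    rw [h2, hy2] at h1
    have h3 : Real.log I / x ≤ E + C₁ * (Y / y) + n * (C₂ * x ^ 2) := by linarith
    rw [div_le_iff₀ hx0] at h3
    refine h3.trans ?_
    have h4 : (E + C₁ * (Y / y) + n * (C₂ * x ^ 2)) * x = x * E + x ^ 2 * (C₁ + C₂) * Y := by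
      have e1 : (n : ℝ) * (C₂ * x ^ 2) = Y * y * (C₂ * x ^ 2) := by rw [hYy]
      have e2 : y * x = 1 := by rw [hxd, mul_one_div_cancel hy0.ne']
      have e3 : Y / y = Y * x := by rw [hxd, mul_one_div]
      rw [e1, e3]
      linear_combination (C₂ * Y * x ^ 2) * e2
    rw [h4, hc]
    have h5 : 0 ≤ x ^ 2 * Y := by positivity
    nlinarith
  rcases le_or_gt I 0 with h0 | h0
  · exact h0.trans (Real.exp_pos _).le
  · rw [← Real.log_le_iff_le_exp h0]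
    exact hlog

/-- **Polynomial upper bound for the variance of the SK free energy.** -/
theorem var_upper {β : ℝ} (hβ : 0 < β) : ∃ C : ℝ, ∀ n : ℕ, 1 ≤ n →
    Var[freeEnergy n β; disorder n] ≤ C * (n : ℝ) ^ (71 / 72 : ℝ) * (1 + Real.log n) := by
  obtain ⟨c, hc0, hexp⟩ := exp_moment hβ
  refine ⟨c + β ^ 2, fun n hn => ?_⟩
  have hn1 : (1 : ℝ) ≤ n := by exact_mod_cast hn
  have hn0 : (0 : ℝ) < n := by linarith
  have hY1 : 1 ≤ (n : ℝ) ^ (71 / 72 : ℝ) := Real.one_le_rpow hn1 (by norm_num)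
  have hV := (Cv.var_freeEnergy_le n β (by positivity) (hexp n hn) (u := 1 / n) (by positivity)
    (by rw [div_le_one hn0]; exact hn1)).2
  refine hV.trans ?_
  have h1 : β ^ 2 * n / 2 * (1 / n) = β ^ 2 / 2 := by field_simp
  have h2 : -Real.log (1 / (n : ℝ)) = Real.log n := by rw [one_div, Real.log_inv, neg_neg]
  have hl0 : 0 ≤ Real.log n := Real.log_nonneg hn1
  rw [h1, h2]
  have hb : 0 ≤ β ^ 2 := sq_nonneg β
  set Y : ℝ := (n : ℝ) ^ (71 / 72 : ℝ) with hY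
  have h3 : β ^ 2 ≤ β ^ 2 * Y := by nlinarith
  have h4 : 0 ≤ c * Y := by positivity
  have h5 : 0 ≤ β ^ 2 * Y * Real.log n := by positivity
  nlinarith

end Vale.Agent.P146.Ub
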