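import Vale.Agent.P157.LvConc

/-!
Concentration of the derivative of the free energy without second derivatives, uniform over
bounded perturbations: module (R1).
-/

open MeasureTheory ProbabilityTheory Filter Topology

namespace Vale.Agent.P146.Ub

open Vale.Agent.P157 Vale.Agent.P157.Lv Vale.Agent.P157.Lv.Sy

variable {ι X : Type} [Fintype ι] [DecidableEq ι] [Fintype X] [DecidableEq X] [Nonempty X]
  {S : Sy ι X}

lemma ub_abs_le_log (v : ℝ) {P : ℝ} (hP : 0 < P) :
    |v| ≤ Real.log P - 1 + (Real.exp v + Real.exp (-v)) / P := by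
  have h0 : 0 < Real.exp v + Real.exp (-v) := by positivity
  have h1 : |v| ≤ Real.log (Real.exp v + Real.exp (-v)) := by
    rw [Real.le_log_iff_exp_le h0]
    rcases abs_cases v with h | h
    · rw [h.1]; linarith [Real.exp_pos (-v)]
    · rw [h.1]; linarith [Real.exp_pos v]
  have h2 : Real.log (Real.exp v + Real.exp (-v)) - Real.log P ≤
      (Real.exp v + Real.exp (-v)) / P - 1 := by
    rw [← Real.log_div h0.ne' hP.ne']
    exact Real.log_le_sub_one_of_pos (by positivity)
  linarith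

/-- The thermal part. -/
theorem ub_thermal (hS : S.Reg) {y : (ι → ℝ) → X → ℝ} (hy : Nh y)
    (hreg : ∀ t, (S.pt y t).Reg) {t : ℝ} (ht : 0 < t) (z : ι → ℝ) :
    S.T 0 (fun z x => |y z x - S.T 0 y z|) z ≤
      1 / t * ((S.pt y t).lg 0 z + (S.pt y (-t)).lg 0 z - 2 * S.lg 0 z) +
        Real.log 2 / (S.m 1 * t) := by
  have hz : (0 : ℕ) ≤ S.K := Nat.zero_le _
  have hm : 0 < S.m 1 := hS.pos
  have hc : 0 < S.m 1 * t := mul_pos hm ht
  obtain ⟨M, hM⟩ : ∃ M, M = S.T 0 y z := ⟨_, rfl⟩
  -- the conditional mean is constant for the conditional average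
  have hdep : S.T 0 (fun z x => |y z x - S.T 0 y z|) z = S.T 0 (fun z x => |y z x - M|) z := by
    have h1 : ∀ w, S.T 0 y (mix S.lev 0 z w) = M := fun w => by rw [hM]; exact dep_T S 0 y z w
    unfold Sy.T J
    refine integral_congr_ae (Filter.Eventually.of_forall fun w => ?_)
    have h2 : (∫ w', S.dn 0 (mix S.lev 0 (mix S.lev 0 z w) w') *
        S.av y (mix S.lev 0 (mix S.lev 0 z w) w') ∂(gI ι)) = M := h1 w
    simp only [Sy.av, Sy.T, J] at h2 ⊢
    rw [h2]
  rw [hdep]
  have hlip := cc_lip hS hreg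
  have hNp : ∀ s : ℝ, Nh fun z x => Real.exp (s * y z x) := fun s x => (hlip x).exp_eg s
  obtain ⟨a, ha⟩ : ∃ a, a = S.T 0 (fun z x => Real.exp (S.m 1 * t * y z x)) z := ⟨_, rfl⟩
  obtain ⟨b, hb⟩ : ∃ b, b = S.T 0 (fun z x => Real.exp (-(S.m 1 * t) * y z x)) z := ⟨_, rfl⟩
  have hTc := fun c : ℝ => hS.T_const (X := X) hz c z
  -- lower bounds for the exponential moments
  have hlow : ∀ s : ℝ, Real.exp (s * M) ≤ S.T 0 (fun z x => Real.exp (s * y z x)) z := by
    intro s
    have h1 := hS.T_mono hz (f := fun z x => Real.exp (s * M) * (1 - s * M) +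
        Real.exp (s * M) * s * y z x)
      (g := fun z x => Real.exp (s * y z x))
      (Nh.add (fun _ => EG.const _) (Nh.const_mul _ hy)) (hNp s) (fun z x => by
        have h2 := Real.add_one_le_exp (s * y z x - s * M)
        have h3 : Real.exp (s * y z x) = Real.exp (s * M) * Real.exp (s * y z x - s * M) := by
          rw [← Real.exp_add]; congr 1; ring
        rw [h3]
        have h4 := mul_le_mul_of_nonneg_left h2 (Real.exp_pos (s * M)).le
        refine le_trans (le_of_eq ?_) h4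
        ring) z
    rw [hS.T_add hz (fun _ => EG.const _) (Nh.const_mul _ hy), hTc, T_const_mul, ← hM] at h1
    refine le_trans (le_of_eq ?_) h1
    ring
  have ha1 := hlow (S.m 1 * t)
  have hb1 := hlow (-(S.m 1 * t))
  rw [← ha] at ha1
  rw [← hb] at hb1
  have ha0 : 0 < a := (Real.exp_pos _).trans_le ha1
  have hb0 : 0 < b := (Real.exp_pos _).trans_le hb1
  -- the normalized moments
  obtain ⟨A, hA⟩ : ∃ A, A = Real.exp (-(S.m 1 * t * M)) * a := ⟨_, rfl⟩
  obtain ⟨B, hB⟩ : ∃ B, B = Real.exp (S.m 1 * t * M) * b := ⟨_, rfl⟩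
  have hA1 : 1 ≤ A := by
    rw [hA, Real.exp_neg, inv_mul_eq_div, one_le_div (Real.exp_pos _)]
    exact ha1
  have hB1 : 1 ≤ B := by
    have h1 := mul_le_mul_of_nonneg_left hb1 (Real.exp_pos (S.m 1 * t * M)).le
    rw [← Real.exp_add] at h1
    have h2 : S.m 1 * t * M + -(S.m 1 * t) * M = 0 := by ring
    rw [h2, Real.exp_zero] at h1
    rw [hB]; exact h1
  have hP : 0 < A + B := by linarith
  -- the main inequality
  have h1 := hS.T_mono hz (f := fun z x => S.m 1 * t * |y z x - M|)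
    (g := fun z x => (Real.log (A + B) - 1) +
      ((Real.exp (-(S.m 1 * t * M)) / (A + B)) * Real.exp (S.m 1 * t * y z x) +
        (Real.exp (S.m 1 * t * M) / (A + B)) * Real.exp (-(S.m 1 * t) * y z x)))
    (Nh.const_mul _ (Nh.abs (Nh.sub hy (fun _ => EG.const _))))
    (Nh.add (fun _ => EG.const _) (Nh.add (Nh.const_mul _ (hNp _)) (Nh.const_mul _ (hNp _))))
    (fun z x => by
      have h2 := ub_abs_le_log (S.m 1 * t * (y z x - M)) hP
      rw [abs_mul, abs_of_pos hc] at h2
      refine h2.trans (le_of_eq ?_)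
      have e1 : Real.exp (S.m 1 * t * (y z x - M)) =
          Real.exp (-(S.m 1 * t * M)) * Real.exp (S.m 1 * t * y z x) := by
        rw [← Real.exp_add]; congr 1; ring
      have e2 : Real.exp (-(S.m 1 * t * (y z x - M))) =
          Real.exp (S.m 1 * t * M) * Real.exp (-(S.m 1 * t) * y z x) := by
        rw [← Real.exp_add]; congr 1; ring
      rw [e1, e2]
      ring) z
  rw [T_const_mul, hS.T_add hz (fun _ => EG.const _)
    (Nh.add (Nh.const_mul _ (hNp _)) (Nh.const_mul _ (hNp _))), hTc,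
    hS.T_add hz (Nh.const_mul _ (hNp _)) (Nh.const_mul _ (hNp _)), T_const_mul, T_const_mul,
    ← ha, ← hb] at h1
  have e3 : Real.exp (-(S.m 1 * t * M)) / (A + B) * a +
      Real.exp (S.m 1 * t * M) / (A + B) * b = 1 := by
    have : Real.exp (-(S.m 1 * t * M)) / (A + B) * a + Real.exp (S.m 1 * t * M) / (A + B) * b =
        (A + B) / (A + B) := by
      rw [hA, hB]; ring
    rw [this, div_self hP.ne']
  have e4 : Real.log (A + B) ≤ Real.log 2 + (Real.log a + Real.log b) := by
    have h2 : A + B ≤ 2 * (A * B) := by nlinarith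
    have h3 : A * B = a * b := by
      rw [hA, hB]
      have : Real.exp (-(S.m 1 * t * M)) * a * (Real.exp (S.m 1 * t * M) * b) =
          (Real.exp (-(S.m 1 * t * M)) * Real.exp (S.m 1 * t * M)) * (a * b) := by ring
      rw [this, ← Real.exp_add]
      simp
    rw [h3] at h2
    refine (Real.log_le_log hP h2).trans (le_of_eq ?_)
    rw [Real.log_mul (by norm_num) (mul_pos ha0 hb0).ne', Real.log_mul ha0.ne' hb0.ne']
  -- the thermal inequalities
  have hth : ∀ s : ℝ, Real.log (S.T 0 (fun z x => Real.exp (S.m 1 * s * y z x)) z) ≤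
      S.m 1 * ((S.pt y s).lg 0 z - S.lg 0 z) := by
    intro s
    have h2 := Reg.thermal hS (hreg s) z
    have e5 : (fun (z : ι → ℝ) (x : X) => Real.exp (S.m 1 * ((S.H z x + s * y z x) - S.H z x))) =
        fun z x => Real.exp (S.m 1 * s * y z x) := by
      funext z x
      congr 1; ring
    rw [e5, one_div, inv_mul_le_iff₀ hm] at h2
    exact h2
  have hth1 := hth t
  have hth2 := hth (-t)
  rw [← ha] at hth1
  have e6 : (fun (z : ι → ℝ) (x : X) => Real.exp (S.m 1 * -t * y z x)) =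
      fun z x => Real.exp (-(S.m 1 * t) * y z x) := by
    funext z x
    congr 1; ring
  rw [e6, ← hb] at hth2
  rw [e3] at h1
  have h4 : S.m 1 * t * S.T 0 (fun z x => |y z x - M|) z ≤
      Real.log 2 + (S.m 1 * ((S.pt y t).lg 0 z - S.lg 0 z) +
        S.m 1 * ((S.pt y (-t)).lg 0 z - S.lg 0 z)) := by linarith
  have h5 : S.T 0 (fun z x => |y z x - M|) z ≤
      (Real.log 2 + (S.m 1 * ((S.pt y t).lg 0 z - S.lg 0 z) +
        S.m 1 * ((S.pt y (-t)).lg 0 z - S.lg 0 z))) / (S.m 1 * t) := by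
    rw [le_div_iff₀ hc]
    linarith
  refine h5.trans (le_of_eq ?_)
  field_simp
  ring

/-- **Concentration (R1).** `F0, Fp, Fm` are the values of the free energy of a reference system at
the strengths `s, s + t, s - t`, and `c₀` is a subgradient at `s`; `S`, `S.pt y t`, `S.pt y (-t)` have
almost the same free energies. -/
theorem conc_abs (hS : S.Reg) {y : (ι → ℝ) → X → ℝ} (hy : Nh y)
    (hreg : ∀ t, (S.pt y t).Reg) {t F0 Fp Fm c₀ B V : ℝ} (ht : 0 < t)
    (h0 : |S.fe - F0| ≤ B) (hp : |(S.pt y t).fe - Fp| ≤ B) (hm : |(S.pt y (-t)).fe - Fm| ≤ B)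
    (cp : F0 + t * c₀ ≤ Fp) (cm : F0 - t * c₀ ≤ Fm)
    (hV : ∀ t' ∈ ({0, t, -t} : Set ℝ),
      ∫ z, ((S.pt y t').lg 0 z - (S.pt y t').fe) ^ 2 ∂(gI ι) ≤ V) :
    S.Ex (fun z x => |y z x - c₀|) ≤
      1 / t * (2 * (Fp + Fm - 2 * F0) + 6 * B + Real.log 2 / S.m 1 + 3 * √V) := by
  have hz : (0 : ℕ) ≤ S.K := Nat.zero_le _
  have hm1 : 0 < S.m 1 := hS.pos
  have hl := fun s => ((hreg s).lip_lg (Nat.zero_le _)).eg
  have hl0 := (hS.lip_lg hz).eg
  have hS0 : S.pt y 0 = S := by
    unfold pt Sy.wH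
    simp
  have hV0 := hV 0 (by simp)
  have hVp := hV t (by simp)
  have hVm := hV (-t) (by simp)
  rw [hS0] at hV0
  obtain ⟨a0, ha0⟩ : ∃ a : (ι → ℝ) → ℝ, a = fun z => S.lg 0 z - S.fe := ⟨_, rfl⟩
  obtain ⟨ap, hap⟩ : ∃ a : (ι → ℝ) → ℝ, a = fun z => (S.pt y t).lg 0 z - (S.pt y t).fe :=
    ⟨_, rfl⟩
  obtain ⟨am, ham⟩ : ∃ a : (ι → ℝ) → ℝ, a = fun z => (S.pt y (-t)).lg 0 z - (S.pt y (-t)).fe :=
    ⟨_, rfl⟩
  have e0 : EG a0 := by rw [ha0]; exact hl0.sub (EG.const _)
  have ep : EG ap := by rw [hap]; exact (hl t).sub (EG.const _)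
  have em : EG am := by rw [ham]; exact (hl (-t)).sub (EG.const _)
  have i0 := cc_abs_le (V := V) e0 (by rw [ha0]; exact hV0)
  have ip := cc_abs_le (V := V) ep (by rw [hap]; exact hVp)
  have im := cc_abs_le (V := V) em (by rw [ham]; exact hVm)
  have hTe := hS.eg_T hz hy
  have hp' := abs_le.1 hp
  have hm' := abs_le.1 hm
  have h0' := abs_le.1 h0
  -- Jensen
  have j1 : ∀ (s : ℝ) (z : ι → ℝ), s * S.T 0 y z ≤ (S.pt y s).lg 0 z - S.lg 0 z := by
    intro s z
    have h1 := Reg.jensen_lg hS (hreg s) hz z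
    have e1 : (fun (z : ι → ℝ) (x : X) => (S.H z x + s * y z x) - S.H z x) =
        fun z x => s * y z x := by
      funext z x
      ring
    rw [e1, T_const_mul] at h1
    exact h1
  -- the disorder part
  have hdis : ∀ z, |S.T 0 y z - c₀| ≤
      1 / t * (Fp + Fm - 2 * F0 + 2 * B) + 1 / t * (|a0 z| + |ap z| + |am z|) := by
    intro z
    have h1 := j1 t z
    have h2 := j1 (-t) z
    have k0 := abs_le.1 (le_refl |a0 z|)
    have kp := abs_le.1 (le_refl |ap z|)
    have km := abs_le.1 (le_refl |am z|)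
    have d0 : a0 z = S.lg 0 z - S.fe := by rw [ha0]
    have dp : ap z = (S.pt y t).lg 0 z - (S.pt y t).fe := by rw [hap]
    have dm : am z = (S.pt y (-t)).lg 0 z - (S.pt y (-t)).fe := by rw [ham]
    have n0 := abs_nonneg (a0 z)
    have np := abs_nonneg (ap z)
    have nm := abs_nonneg (am z)
    have e1 : S.T 0 y z - c₀ = 1 / t * (t * S.T 0 y z - t * c₀) := by
      field_simp
    rw [e1, ← mul_add, abs_mul, abs_of_pos (one_div_pos.2 ht)]
    refine mul_le_mul_of_nonneg_left ?_ (one_div_pos.2 ht).le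
    rw [abs_le]
    constructor
    · linarith
    · linarith
  have hd1 : Dep S.lev 0 fun z => |S.T 0 y z - c₀| := by
    intro z w
    have := dep_T S 0 y z w
    simp only [this]
  have he1 : EG fun z => |S.T 0 y z - c₀| := (hTe.sub (EG.const _)).abs
  have hdis' : S.Ex (fun z _ => |S.T 0 y z - c₀|) ≤
      1 / t * (Fp + Fm - 2 * F0 + 2 * B) + 1 / t * (3 * √V) := by
    rw [hS.Ex_dep hd1 he1]
    refine (integral_mono he1.integrable ((EG.const _).add
      (((e0.abs.add ep.abs).add em.abs).const_mul _)).integrable hdis).trans ?_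
    rw [integral_add (integrable_const _) (((e0.abs.add ep.abs).add em.abs).const_mul _).integrable,
      integral_const, probReal_univ, one_smul, integral_const_mul,
      integral_add (e0.abs.add ep.abs).integrable em.abs.integrable,
      integral_add e0.abs.integrable ep.abs.integrable]
    refine add_le_add le_rfl ?_
    refine mul_le_mul_of_nonneg_left ?_ (one_div_pos.2 ht).le
    linarith
  -- the thermal part
  have n1 : Nh fun z x => |y z x - S.T 0 y z| := Nh.abs (Nh.sub hy (Nh.fst hTe))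
  have hth : S.Ex (fun z x => |y z x - S.T 0 y z|) ≤
      1 / t * (Fp + Fm - 2 * F0 + 4 * B) + Real.log 2 / (S.m 1 * t) := by
    rw [hS.Ex_eq_T n1]
    refine (integral_mono (hS.eg_T hz n1).integrable
      (((((hl t).add (hl (-t))).sub (hl0.const_mul 2)).const_mul (1 / t)).add
        (EG.const (Real.log 2 / (S.m 1 * t)))).integrable
      (fun z => ub_thermal hS hy hreg ht z)).trans ?_
    rw [integral_add ((((hl t).add (hl (-t))).sub (hl0.const_mul 2)).const_mul (1 / t)).integrable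
      (integrable_const _), integral_const, probReal_univ, one_smul, integral_const_mul,
      integral_sub ((hl t).add (hl (-t))).integrable (hl0.const_mul 2).integrable,
      integral_add (hl t).integrable (hl (-t)).integrable, integral_const_mul]
    refine add_le_add ?_ le_rfl
    refine mul_le_mul_of_nonneg_left ?_ (one_div_pos.2 ht).le
    have e1 : ∫ z, (S.pt y t).lg 0 z ∂(gI ι) = (S.pt y t).fe := rfl
    have e2 : ∫ z, (S.pt y (-t)).lg 0 z ∂(gI ι) = (S.pt y (-t)).fe := rfl
    have e3 : ∫ z, S.lg 0 z ∂(gI ι) = S.fe := rfl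
    rw [e1, e2, e3]
    linarith
  have n2 : Nh (X := X) fun z _ => |S.T 0 y z - c₀| := Nh.fst he1
  have h3 : S.Ex (fun z x => |y z x - c₀|) ≤
      S.Ex (fun z x => |y z x - S.T 0 y z| + |S.T 0 y z - c₀|) :=
    hS.Ex_mono (Nh.abs (Nh.sub hy (fun _ => EG.const c₀))) (Nh.add n1 n2) fun z x => by
      have := abs_add_le (y z x - S.T 0 y z) (S.T 0 y z - c₀)
      rwa [sub_add_sub_cancel] at this
  rw [hS.Ex_add n1 n2] at h3
  refine (h3.trans (add_le_add hth hdis')).trans (le_of_eq ?_)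
  field_simp
  ring

end Vale.Agent.P146.Ub
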