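import Vale.Agent.P157.LvBridge

/-!
General facts for the factorization at `θ = 0` (module FACT): systems with the same `top` have
the same free energy, an extra spin in a tree field, a linear tree field.
-/

open MeasureTheory ProbabilityTheory Filter Topology

namespace Vale.Agent.P146.Ub

set_option linter.unusedSectionVars false

open Vale.Agent.P157 Vale.Agent.P157.Lv
open Vale.Agent.P157.Par (incr Path Exponents cascade gstep spinPart)

variable {ι X X' : Type} [Fintype ι] [DecidableEq ι] [Fintype X] [Nonempty X] [Fintype X']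

/-- Systems with the same `top` have the same log-weights. -/
theorem lg_congr_top {S : Sy ι X} {S' : Sy ι X'} (hlev : S.lev = S'.lev) (hK : S.K = S'.K)
    (hm : S.m = S'.m) (htop : S.top = S'.top) (l : ℕ) : S.lg l = S'.lg l := by
  have h : ∀ d l, S.rec' l d = S'.rec' l d := by
    intro d
    induction d with
    | zero => intro l; exact htop
    | succ d ih =>
      intro l
      show S.stp l (S.rec' (l + 1) d) = S'.stp l (S'.rec' (l + 1) d)
      rw [ih (l + 1)]
      unfold Sy.stp
      rw [hlev, hm]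
  unfold Sy.lg
  rw [hK]
  exact h _ _

/-- Systems with the same `top` have the same free energy. -/
theorem fe_congr_top {S : Sy ι X} {S' : Sy ι X'} (hlev : S.lev = S'.lev) (hK : S.K = S'.K)
    (hm : S.m = S'.m) (htop : S.top = S'.top) : S.fe = S'.fe := by
  unfold Sy.fe
  rw [lg_congr_top hlev hK hm htop 0]

/-- The function `log (2 cosh u)`. -/
noncomputable def l2c (u : ℝ) : ℝ := Real.log (Real.exp u + Real.exp (-u))

lemma l2c_eq (u : ℝ) : l2c u = Real.log 2 + Real.log (Real.cosh u) := by
  unfold l2c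
  rw [← Real.log_mul two_ne_zero (Real.cosh_pos u).ne', Real.cosh_eq]
  congr 1
  ring

lemma l2c_lip (x y : ℝ) : |l2c x - l2c y| ≤ 1 * |x - y| := by
  have key : ∀ x y : ℝ, l2c x ≤ l2c y + |x - y| := by
    intro x y
    unfold l2c
    have h1 : Real.exp x + Real.exp (-x) ≤ (Real.exp y + Real.exp (-y)) * Real.exp |x - y| := by
      rw [add_mul, ← Real.exp_add, ← Real.exp_add]
      have a := neg_abs_le (x - y)
      have b := le_abs_self (x - y)
      gcongr
      · linarith
      · linarith
    have h2 := Real.log_le_log (by positivity) h1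
    rwa [Real.log_mul (by positivity) (by positivity), Real.log_exp] at h2
  rw [one_mul, abs_le]
  have a := key x y
  have b := key y x
  rw [abs_sub_comm y x] at b
  constructor <;> linarith

/-- Adding a constant commutes with a step. -/
lemma gstep_add_const {m v : ℝ} (hm : 0 < m) {F : ℝ → ℝ} (hF : Par.Lip1 F) (c : ℝ) :
    gstep m v (fun x => c + F x) = fun x => c + gstep m v F x := by
  funext x
  unfold gstep
  have h1 : ∀ z : ℝ, Real.exp (m * (c + F (x + √v * z))) =
      Real.exp (m * c) * Real.exp (m * F (x + √v * z)) := by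
    intro z
    rw [← Real.exp_add]
    congr 1
    ring
  simp only [h1]
  rw [integral_const_mul, Real.log_mul (Real.exp_pos _).ne' (hF.int_exp_pos m x (√v)).ne',
    Real.log_exp]
  field_simp

/-- Adding a constant commutes with the cascade. -/
lemma cascade_add_const {m q : ℕ → ℝ} (c : ℝ) : ∀ (l : ℕ), (∀ j < l, 0 < m (j + 1)) →
    ∀ {F : ℝ → ℝ}, Par.Lip1 F →
    cascade m q l (fun x => c + F x) = fun x => c + cascade m q l F x := by
  intro l
  induction l with
  | zero => intro _ F _; rfl
  | succ l ih =>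
    intro hm F hF
    rw [Par.cascade_succ_def, Par.cascade_succ_def, gstep_add_const (hm l (Nat.lt_succ_self l)) hF]
    exact ih (fun j hj => hm j (by omega)) (hF.gstep (hm l (Nat.lt_succ_self l)) _)

/-- A step of a linear function. -/
lemma gstep_linear {m v : ℝ} (hm : 0 < m) (hv : 0 ≤ v) (c : ℝ) :
    gstep m v (fun x => x + c) = fun x => x + (c + m * v / 2) := by
  funext x
  unfold gstep
  have h1 : ∀ z : ℝ, Real.exp (m * (x + √v * z + c)) =
      Real.exp (m * (x + c)) * Real.exp (m * √v * z) := by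
    intro z
    rw [← Real.exp_add]
    congr 1
    ring
  simp only [h1]
  have h2 : ∫ z, Real.exp (m * √v * z) ∂(gaussianReal 0 1) = Real.exp ((m * √v) ^ 2 / 2) := by
    have h := mgf_gaussianReal (p := gaussianReal 0 1) (X := id) (μ := 0) (v := 1) (by simp) (m * √v)
    simp only [mgf, id] at h
    rw [h]
    congr 1
    push_cast
    ring
  rw [integral_const_mul, h2, ← Real.exp_add, Real.log_exp, mul_pow, Real.sq_sqrt hv]
  field_simp
  ring

/-- The cascade of a linear function. -/
lemma cascade_linear {m q : ℕ → ℝ} : ∀ (l : ℕ), (∀ j < l, 0 < m (j + 1)) →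
    (∀ j < l, q j ≤ q (j + 1)) → ∀ c : ℝ,
    cascade m q l (fun x => x + c) =
      fun x => x + (c + 1 / 2 * ∑ j ∈ Finset.range l, m (j + 1) * (q (j + 1) - q j)) := by
  intro l
  induction l with
  | zero => intro _ _ c; funext x; simp [cascade]
  | succ l ih =>
    intro hm hq c
    rw [Par.cascade_succ_def, gstep_linear (hm l (Nat.lt_succ_self l))
      (sub_nonneg.2 (hq l (Nat.lt_succ_self l))),
      ih (fun j hj => hm j (by omega)) (fun j hj => hq j (by omega)), Finset.sum_range_succ]
    funext x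
    ring

/-! ### Free coordinates -/

variable {S : Sy ι X} {D : ι → (ι → ℝ) → X → ℝ}

/-- A coordinate on which the energy does not depend has tilted mean zero. -/
theorem ex_free (hS : S.RegD D) {e : ι} (he : ∀ z x, D e z x = 0) (c : X → ℝ) :
    S.Ex (fun z x => z e * c x) = 0 := by
  have hT : ∀ l z, S.T l (D e) z = 0 := by
    intro l z
    have h1 : D e = fun _ _ => 0 := by funext z x; exact he z x
    rw [h1]
    unfold Sy.T Lv.J Sy.av
    simp
  have h1 := hS.ibp e (h := fun _ x => c x) (h' := fun _ _ => 0) (fun x => PD.const (c x))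
    (Sy.Nh.snd c) (Sy.Nh.snd fun _ => 0)
  rw [h1]
  have h2 : (fun (z : ι → ℝ) (x : X) => (0 : ℝ) + c x * (D e z x -
      ∑ l ∈ Finset.Ico (S.lev e) (S.K + 1), S.p l * S.T l (D e) z)) = fun _ _ => 0 := by
    funext z x
    rw [he z x, Finset.sum_eq_zero fun l _ => by rw [hT l z, mul_zero]]
    ring
  rw [h2, hS.toReg.Ex_const]

/-- Adding a linear field on free coordinates keeps the system regular. -/
theorem reg_add_free (hS : S.Reg) (s : Finset ι) (c : ι → X → ℝ) :
    (S.wH fun z x => S.H z x + ∑ e ∈ s, z e * c e x).Reg :=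
  ⟨hS.m0, hS.mK, hS.mono, hS.pos, hS.lev, fun x => (hS.lip x).add
    (Lip.sum _ fun e _ => by
      have h := (Lip.coord (ι := ι) e).const_mul (c e x)
      simpa only [mul_comm] using h)⟩

/-- Adding a linear field on free coordinates does not decrease the free energy. -/
theorem fe_le_add_free (hS : S.RegD D) (s : Finset ι) (he : ∀ e ∈ s, ∀ z x, D e z x = 0)
    (c : ι → X → ℝ) :
    S.fe ≤ (S.wH fun z x => S.H z x + ∑ e ∈ s, z e * c e x).fe := by
  have h1 := hS.toReg.jensen (reg_add_free hS.toReg s c)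
  have h2 : (fun z x => S.H z x + ∑ e ∈ s, z e * c e x - S.H z x) =
      fun (z : ι → ℝ) (x : X) => ∑ e ∈ s, z e * c e x := by
    funext z x; ring
  rw [h2] at h1
  have h3 : S.Ex (fun z x => ∑ e ∈ s, z e * c e x) = ∑ e ∈ s, S.Ex (fun z x => z e * c e x) :=
    hS.toReg.Ex_sum s fun e _ => Sy.Nh.mul (Sy.Nh.fst (EG.coord e)) (Sy.Nh.snd (c e))
  rw [h3, Finset.sum_eq_zero fun e h => ex_free hS (he e h) (c e)] at h1
  linarith

/-! ### A spin in a tree field -/

/-- Symmetrization of a spin: if the energy is invariant under the flip of the spin `ε`, then the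
field `u` on this spin can be replaced by the potential `log cosh u`. -/
theorem top_spin (H : (ι → ℝ) → X → ℝ) (φ : X ≃ X) (ε : X → ℝ) (h1 : ∀ x, ε x = 1 ∨ ε x = -1)
    (h2 : ∀ x, ε (φ x) = -ε x) (h3 : ∀ z x, H z (φ x) = H z x) (u : (ι → ℝ) → ℝ) :
    (S.wH fun z x => H z x + ε x * u z).top =
      (S.wH fun z x => H z x + Real.log (Real.cosh (u z))).top := by
  funext z
  show Real.log (∑ x, Real.exp (H z x + ε x * u z)) =
    Real.log (∑ x, Real.exp (H z x + Real.log (Real.cosh (u z))))
  congr 1
  have e1 : ∑ x, Real.exp (H z x + ε x * u z) = ∑ x, Real.exp (H z x + -ε x * u z) := by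
    rw [← Equiv.sum_comp φ fun x => Real.exp (H z x + ε x * u z)]
    refine Finset.sum_congr rfl fun x _ => ?_
    rw [h2, h3]
  have e2 : ∑ x, Real.exp (H z x + Real.log (Real.cosh (u z))) =
      (∑ x, Real.exp (H z x + ε x * u z) + ∑ x, Real.exp (H z x + -ε x * u z)) / 2 := by
    rw [← Finset.sum_add_distrib, Finset.sum_div]
    refine Finset.sum_congr rfl fun x _ => ?_
    rw [Real.exp_add, Real.exp_log (Real.cosh_pos _), Real.exp_add, Real.exp_add, Real.cosh_eq]
    rcases h1 x with h | h
    · rw [h, one_mul, neg_mul, one_mul]; ring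
    · rw [h, neg_neg, one_mul, neg_mul, one_mul]; ring
  rw [e2, ← e1]
  ring

lemma log_cosh_lip (x y : ℝ) :
    |Real.log (Real.cosh x) - Real.log (Real.cosh y)| ≤ 1 * |x - y| := by
  have h := l2c_lip x y
  rw [l2c_eq, l2c_eq] at h
  simpa using h

/-- A spin in a tree field whose coordinates do not occur in the energy. -/
theorem fe_spin_tree (hS : S.RegD D) (φ : X ≃ X) (ε : X → ℝ) (h1 : ∀ x, ε x = 1 ∨ ε x = -1)
    (h2 : ∀ x, ε (φ x) = -ε x) (h3 : ∀ z x, S.H z (φ x) = S.H z x)
    {y : ℕ → ι} (hy : ∀ l ≤ S.K, S.lev (y l) = l) (hD : ∀ l ≤ S.K, ∀ z x, D (y l) z x = 0)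
    {R : ℕ → ℝ} (hR : Path S.K R) :
    (S.wH fun z x => S.H z x + ε x * tf y S.K R z).fe =
      S.fe + (spinPart S.K S.m R + R S.K / 2) := by
  have e1 : (S.wH fun z x => S.H z x + ε x * tf y S.K R z).fe =
      (S.wH fun z x => S.H z x + Real.log (Real.cosh (tf y S.K R z))).fe :=
    fe_congr_top rfl rfl rfl (top_spin S.H φ ε h1 h2 h3 _)
  rw [e1, fe_add_tree hS hy hD hR (F := fun x => Real.log (Real.cosh x)) log_cosh_lip]
  unfold spinPart
  ring

/-- Scaling of the tree field. -/
lemma tf_scale {y : ℕ → ι} {K : ℕ} {R : ℕ → ℝ} {b : ℝ} (hb : 0 ≤ b) (z : ι → ℝ) :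
    tf y K (fun l => b ^ 2 * R l) z = b * tf y K R z := by
  unfold tf
  rw [Finset.mul_sum]
  refine Finset.sum_congr rfl fun l _ => ?_
  have e : incr (fun l => b ^ 2 * R l) l = b ^ 2 * incr R l := by
    cases l with
    | zero => rfl
    | succ l =>
      show b ^ 2 * R (l + 1) - b ^ 2 * R l = b ^ 2 * (R (l + 1) - R l)
      ring
  rw [e, Real.sqrt_mul (sq_nonneg b), Real.sqrt_sq hb]
  ring

/-- A linear tree field whose coordinates do not occur in the energy. -/
theorem fe_linear_tree (hS : S.RegD D) {y : ℕ → ι} (hy : ∀ l ≤ S.K, S.lev (y l) = l)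
    (hD : ∀ l ≤ S.K, ∀ z x, D (y l) z x = 0) {R : ℕ → ℝ} (hR : Path S.K R) :
    (S.wH fun z x => S.H z x + tf y S.K R z).fe =
      S.fe + 1 / 2 * ∑ j ∈ Finset.range S.K, S.m (j + 1) * (R (j + 1) - R j) := by
  have h := fe_add_tree hS hy hD hR (F := fun x => x) (L := 1) fun x x' => by rw [one_mul]
  rw [h]
  congr 1
  have e1 : (fun x : ℝ => x) = fun x => x + 0 := by funext x; ring
  rw [e1, cascade_linear S.K (fun j hj => hS.toReg.m_pos (by omega) (by omega)) hR.2 0]
  simp only [zero_add]
  rw [integral_add, integral_const_mul, integral_id_gaussianReal]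
  · simp
  · exact ((memLp_id_gaussianReal (μ := 0) (v := 1) 1).integrable le_rfl).const_mul _
  · exact integrable_const _

end Vale.Agent.P146.Ub
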