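import Vale.Agent.P146.Sk.LowBridge
import Vale.Agent.P157.LvInt2
import Vale.Agent.P157.LvPair
import Vale.Agent.P157.LvField
import Vale.Agent.P157.ParUTens

/-!
# P146, upper bound of the variance: Guerra's bound for fractional moments

For exponents `0 = m 0 < m 1 < ⋯` and a path `q` with `q 0 = 0`, the moment of order `m 1` of the
partition function of the SK model satisfies `(1 / m 1) log E Z ^ (m 1) ≤ N P(m, q)`: the whole
disorder of the SK model is put at the level one.
-/

open MeasureTheory ProbabilityTheory Filter Topology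

namespace Vale.Agent.P146.Ub

set_option linter.unusedSectionVars false

open Vale.Agent.P157 (spin)
open Vale.Agent.P157.Lv
open Vale.Agent.P157.Lv.Sy
open Vale.Agent.P157.Par (Path Exponents spinPart topN lw incr)
open Vale.Agent.P146.Sk (Ix Wm qf Ft PSK)
open Vale.Agent.P146.Sk.Gen (GI gz r0)

variable {N K : ℕ}

/-- The levels: the disorder of the SK model is at the level one. -/
def ul : GI (Ix N) N K → ℕ
  | Sum.inl _ => 1
  | Sum.inr p => p.1

/-- The coefficients of the energy of the SK model. -/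
noncomputable def ua (β : ℝ) (x : Fin N → Bool) : GI (Ix N) N K → ℝ
  | Sum.inl p => β / √(2 * (N : ℝ)) * (spin x p.1 * spin x p.2)
  | Sum.inr _ => 0

/-- The coefficients of the fields. -/
noncomputable def ub (β : ℝ) (q : ℕ → ℝ) (x : Fin N → Bool) : GI (Ix N) N K → ℝ
  | Sum.inl _ => 0
  | Sum.inr p => β * √(incr q p.1) * spin x p.2

/-- The trivial system. -/
noncomputable def uS (N K : ℕ) (m : ℕ → ℝ) : Sy (GI (Ix N) N K) (Fin N → Bool) :=
  ⟨ul, K, m, fun _ _ => -(N * Real.log 2)⟩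

lemma uS_regD (hK : 1 ≤ K) {m : ℕ → ℝ} (hm : Exponents K m) :
    (uS N K m).RegD (fun _ _ _ => 0) where
  m0 := hm.1
  mK := hm.2.1
  mono := fun l hl => (hm.2.2 l hl).le
  pos := by
    have := hm.2.2 0 (Nat.zero_le _)
    rw [hm.1] at this
    exact this
  lev := by
    rintro (e | p)
    · exact hK
    · exact Nat.le_of_lt_succ p.1.2
  lip := fun x => Lip.const _
  pd := fun e x => PD.const _
  md := fun e x => measurable_const
  bd := ⟨0, fun e z x => by simp⟩

lemma pot_id : Pot (fun x => x) (fun _ => 1) (fun _ => 0) 1 0 where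
  d1 := fun x => hasDerivAt_id x
  d2 := fun x => hasDerivAt_const x 1
  b1 := fun x => by simp
  b2 := fun x => by simp

lemma sep_u (β : ℝ) (q : ℕ → ℝ) : Sep (ι := GI (Ix N) N K) (fun _ _ _ => 0) (ua β) (ub β q) where
  disj := by
    rintro (e | p) x x'
    · exact mul_zero _
    · exact zero_mul _
  indep := fun e x _ z y => rfl

/-- Summation over the coordinates. -/
lemma sum_GI (f : GI (Ix N) N K → ℝ) : ∑ e, f e =
    (∑ p : Ix N, f (Sum.inl p)) + ∑ l ∈ Finset.range (K + 1), ∑ i : Fin N, f (gz l i) := by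
  rw [Fintype.sum_sum_type]
  congr 1
  rw [Fintype.sum_prod_type, Finset.sum_range (fun l => ∑ i : Fin N, f (gz l i))]
  refine Finset.sum_congr rfl fun l _ => Finset.sum_congr rfl fun i _ => ?_
  unfold gz
  rw [Fin.ofNat_val_eq_self]

lemma lin_ua (β : ℝ) (x : Fin N → Bool) (z : GI (Ix N) N K → ℝ) :
    lin (ua β x) z = β / 2 * qf (Wm N (r0 z)) (spin x) := by
  unfold lin
  rw [sum_GI]
  have h0 : ∀ l ∈ Finset.range (K + 1),
      ∑ i : Fin N, ua β x (gz l i : GI (Ix N) N K) * z (gz l i) = 0 :=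
    fun l _ => Finset.sum_eq_zero fun i _ => by
      show 0 * z (gz l i) = 0
      rw [zero_mul]
  rw [Finset.sum_eq_zero h0, add_zero, Sk.qf_Wm, Fintype.sum_prod_type]
  simp only [ua, Finset.mul_sum, r0]
  refine Finset.sum_congr rfl fun i _ => Finset.sum_congr rfl fun j _ => ?_
  ring

lemma lin_ub (β : ℝ) (q : ℕ → ℝ) (x : Fin N → Bool) (z : GI (Ix N) N K → ℝ) :
    lin (ub β q x) z =
      ∑ l ∈ Finset.range (K + 1), β * √(incr q l) * ∑ i, z (gz l i) * spin x i := by
  unfold lin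
  rw [sum_GI]
  have h0 : ∀ p ∈ (Finset.univ : Finset (Ix N)),
      ub (K := K) β q x (Sum.inl p) * z (Sum.inl p) = 0 := fun p _ => by
    show 0 * _ = (0 : ℝ)
    rw [zero_mul]
  rw [Finset.sum_eq_zero h0, zero_add]
  refine Finset.sum_congr rfl fun l hl => ?_
  rw [Finset.mul_sum]
  refine Finset.sum_congr rfl fun i _ => ?_
  have h1 : ((Fin.ofNat (K + 1) l : Fin (K + 1)) : ℕ) = l := by
    simp only [Fin.ofNat, Nat.mod_eq_of_lt (Finset.mem_range.1 hl)]
  show β * √(incr q ((Fin.ofNat (K + 1) l : Fin (K + 1)) : ℕ)) * spin x i * z (gz l i) = _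
  rw [h1]
  ring

lemma spin_sq' (x : Fin N → Bool) (i : Fin N) : spin x i ^ 2 = 1 := by
  rw [sq]; exact Vale.Agent.P157.spin_sq x i

/-- The variance of the energy of the SK model. -/
lemma sum_ua_sq (hN : 0 < N) (β : ℝ) (x : Fin N → Bool) :
    ∑ e : GI (Ix N) N K, ua β x e ^ 2 = β ^ 2 / 2 * N := by
  have hN' : (0 : ℝ) < N := by exact_mod_cast hN
  rw [sum_GI]
  have h0 : ∀ l ∈ Finset.range (K + 1), ∑ i : Fin N, (ua β x (gz l i : GI (Ix N) N K)) ^ 2 = 0 :=
    fun l _ => Finset.sum_eq_zero fun i _ => by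
      show (0 : ℝ) ^ 2 = 0
      norm_num
  rw [Finset.sum_eq_zero h0, add_zero]
  have h1 : ∀ p : Ix N, ua (K := K) β x (Sum.inl p) ^ 2 = β ^ 2 / (2 * N) := by
    intro p
    show (β / √(2 * (N : ℝ)) * (spin x p.1 * spin x p.2)) ^ 2 = _
    rw [mul_pow, mul_pow, spin_sq', spin_sq', div_pow, Real.sq_sqrt (by positivity)]
    ring
  simp only [h1, Finset.sum_const, Finset.card_univ, Fintype.card_prod, Fintype.card_fin,
    nsmul_eq_mul]
  push_cast
  field_simp

lemma sum_incr' (q : ℕ → ℝ) (l : ℕ) : ∑ j ∈ Finset.range (l + 1), incr q j = q l := by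
  induction l with
  | zero => rw [Finset.sum_range_one]; rfl
  | succ l ih => rw [Finset.sum_range_succ, ih]; exact add_sub_cancel _ _

lemma incr_nonneg' {q : ℕ → ℝ} (hq : Path K q) {l : ℕ} (hl : l ≤ K) : 0 ≤ incr q l := by
  cases l with
  | zero => exact hq.1
  | succ l => exact sub_nonneg.2 (hq.2 l (by omega))

lemma ub_gz (β : ℝ) (q : ℕ → ℝ) (x : Fin N → Bool) {l : ℕ} (hl : l ≤ K) (i : Fin N) :
    ub β q x (gz l i : GI (Ix N) N K) = β * √(incr q l) * spin x i := by
  have h1 : ((Fin.ofNat (K + 1) l : Fin (K + 1)) : ℕ) = l := by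
    simp only [Fin.ofNat, Nat.mod_eq_of_lt (Nat.lt_succ_of_le hl)]
  show β * √(incr q ((Fin.ofNat (K + 1) l : Fin (K + 1)) : ℕ)) * spin x i = _
  rw [h1]

/-- The variance of the fields. -/
lemma sum_ub_sq (β : ℝ) {q : ℕ → ℝ} (hq : Path K q) (x : Fin N → Bool) :
    ∑ e : GI (Ix N) N K, ub β q x e ^ 2 = β ^ 2 * N * q K := by
  rw [sum_GI]
  have h0 : ∀ p ∈ (Finset.univ : Finset (Ix N)),
      ub (K := K) β q x (Sum.inl p) ^ 2 = 0 := fun p _ => by
    show (0 : ℝ) ^ 2 = 0
    norm_num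
  rw [Finset.sum_eq_zero h0, zero_add, ← sum_incr' q K, Finset.mul_sum]
  refine Finset.sum_congr rfl fun l hl => ?_
  have hl' : l ≤ K := Nat.le_of_lt_succ (Finset.mem_range.1 hl)
  have h1 : ∀ i : Fin N, ub β q x (gz l i : GI (Ix N) N K) ^ 2 = β ^ 2 * incr q l := by
    intro i
    rw [ub_gz β q x hl' i, mul_pow, mul_pow, spin_sq', Real.sq_sqrt (incr_nonneg' hq hl')]
    ring
  simp only [h1, Finset.sum_const, Finset.card_univ, Fintype.card_fin, nsmul_eq_mul]
  ring

/-- The second moment of the overlap. -/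
lemma alg_sq {X : Type} [Fintype X] {w : X → ℝ} (hw : ∀ x, 0 ≤ w x) (h1 : ∑ x, w x = 1)
    (v : X → Fin N → ℝ) (c : ℝ) :
    2 * c * ∑ i, (∑ x, w x * v x i) ^ 2 - c ^ 2 ≤
      ∑ p : Ix N, (∑ x, w x * (v x p.1 * v x p.2)) ^ 2 := by
  have e0 : 0 ≤ ∑ x, ∑ x', w x * w x' * ((∑ i, v x i * v x' i) - c) ^ 2 :=
    Finset.sum_nonneg fun x _ => Finset.sum_nonneg fun x' _ =>
      mul_nonneg (mul_nonneg (hw x) (hw x')) (sq_nonneg _)
  have eB : ∑ i, (∑ x, w x * v x i) ^ 2 = ∑ x, ∑ x', w x * w x' * ∑ i, v x i * v x' i := by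
    simp_rw [sq, Finset.sum_mul_sum, Finset.mul_sum]
    rw [Finset.sum_comm]
    refine Finset.sum_congr rfl fun x _ => ?_
    rw [Finset.sum_comm]
    refine Finset.sum_congr rfl fun x' _ => Finset.sum_congr rfl fun i _ => ?_
    ring
  have eA : ∑ p : Ix N, (∑ x, w x * (v x p.1 * v x p.2)) ^ 2 =
      ∑ x, ∑ x', w x * w x' * (∑ i, v x i * v x' i) ^ 2 := by
    have h2 : ∀ x x', (∑ i, v x i * v x' i) ^ 2 =
        ∑ p : Ix N, (v x p.1 * v x p.2) * (v x' p.1 * v x' p.2) := by
      intro x x'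
      rw [sq, Finset.sum_mul_sum, Fintype.sum_prod_type]
      refine Finset.sum_congr rfl fun i _ => Finset.sum_congr rfl fun j _ => ?_
      ring
    simp_rw [h2, sq, Finset.sum_mul_sum, Finset.mul_sum]
    rw [Finset.sum_comm]
    refine Finset.sum_congr rfl fun x _ => ?_
    rw [Finset.sum_comm]
    refine Finset.sum_congr rfl fun x' _ => Finset.sum_congr rfl fun i _ => ?_
    ring
  have eC : c ^ 2 = ∑ x, ∑ x', w x * w x' * c ^ 2 := by
    simp_rw [← Finset.sum_mul, ← Finset.mul_sum, h1]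
    simp [h1]
  have e1 : ∑ x, ∑ x', w x * w x' * ((∑ i, v x i * v x' i) - c) ^ 2 =
      (∑ x, ∑ x', w x * w x' * (∑ i, v x i * v x' i) ^ 2) -
        2 * c * (∑ x, ∑ x', w x * w x' * ∑ i, v x i * v x' i) +
        ∑ x, ∑ x', w x * w x' * c ^ 2 := by
    rw [Finset.mul_sum, ← Finset.sum_sub_distrib, ← Finset.sum_add_distrib]
    refine Finset.sum_congr rfl fun x _ => ?_
    rw [Finset.mul_sum, ← Finset.sum_sub_distrib, ← Finset.sum_add_distrib]
    refine Finset.sum_congr rfl fun x' _ => ?_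
    ring
  rw [eA, eB]
  rw [e1, ← eC] at e0
  linarith

/-- The free energy is Lipschitz. -/
lemma lip_Ft (β : ℝ) (N : ℕ) : Lip (Ft β N) := by
  have hl : ∀ x : Fin N → Bool, Lip fun g : Ix N → ℝ =>
      β / 2 * qf (Wm N g) (spin x) - N * Real.log 2 := by
    intro x
    have h1 : Lip fun g : Ix N → ℝ => β / 2 * qf (Wm N g) (spin x) := by
      have e : (fun g : Ix N → ℝ => β / 2 * qf (Wm N g) (spin x)) =
          fun g => β / 2 * (2 / √(2 * (N : ℝ)) * ∑ i, ∑ j, spin x i * spin x j * g (i, j)) := by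
        funext g
        rw [Sk.qf_Wm]
        congr 2
        refine Finset.sum_congr rfl fun i _ => Finset.sum_congr rfl fun j _ => ?_
        ring
      rw [e]
      exact Lip.const_mul (Lip.const_mul (Lip.sum _ fun i _ => Lip.sum _ fun j _ =>
        Lip.const_mul (Lip.coord (i, j)) _) _) _
    have h2 := h1.add (Lip.const (-(N * Real.log 2)))
    simpa only [← sub_eq_add_neg] using h2
  let S : Sy (Ix N) (Fin N → Bool) := ⟨fun _ => 0, 0, fun l => if l = 0 then 0 else 1,
    fun g x => β / 2 * qf (Wm N g) (spin x) - N * Real.log 2⟩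
  have hS : S.Reg :=
    { m0 := by
        show (if (0 : ℕ) = 0 then (0 : ℝ) else 1) = 0
        norm_num
      mK := by
        show (if (0 + 1 : ℕ) = 0 then (0 : ℝ) else 1) = 1
        norm_num
      mono := fun l hl => by
        have hl0 : l = 0 := Nat.le_zero.1 hl
        subst hl0
        show (if (0 : ℕ) = 0 then (0 : ℝ) else 1) ≤ if 0 + 1 = 0 then 0 else 1
        norm_num
      pos := by
        show (0 : ℝ) < if (1 : ℕ) = 0 then 0 else 1
        norm_num
      lev := fun e => le_rfl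
      lip := hl }
  exact hS.lip_top

/-- One level of the bracket. -/
lemma level_ge (hN : 0 < N) {R : Sy (GI (Ix N) N K) (Fin N → Bool)} (hR : R.Reg)
    (hlev : R.lev = ul) (hRK : R.K = K) (β : ℝ) {q : ℕ → ℝ} (hq : Path K q) (hq0 : q 0 = 0)
    {l : ℕ} (hl : l ≤ K) :
    -(β ^ 2 / 2 * N * q l ^ 2) ≤ ∑ e, if R.lev e ≤ l then
      (R.Ex (fun z _ => R.T l (fun _ x => 1 * ua β x e) z ^ 2) -
        R.Ex (fun z _ => R.T l (fun _ x => 1 * ub β q x e) z ^ 2)) else 0 := by
  have hN' : (0 : ℝ) < N := by exact_mod_cast hN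
  have hlK : l ≤ R.K := by omega
  rw [sum_GI, hlev]
  have hgz : ∀ j ≤ K, ∀ i : Fin N, ul (gz j i : GI (Ix N) N K) = j := by
    intro j hj i
    show ((Fin.ofNat (K + 1) j : Fin (K + 1)) : ℕ) = j
    simp only [Fin.ofNat, Nat.mod_eq_of_lt (Nat.lt_succ_of_le hj)]
  -- the magnetizations
  set B : ℝ := ∑ i : Fin N, R.Ex (fun z _ => R.T l (fun _ x => spin x i) z ^ 2) with hB
  have hf : ∀ j ∈ Finset.range (K + 1), (∑ i : Fin N, if ul (gz j i : GI (Ix N) N K) ≤ l then
      (R.Ex (fun z _ => R.T l (fun _ x => 1 * ua (K := K) β x (gz j i)) z ^ 2) -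
        R.Ex (fun z _ => R.T l (fun _ x => 1 * ub (K := K) β q x (gz j i)) z ^ 2)) else 0) =
      if j ≤ l then -(β ^ 2 * incr q j * B) else 0 := by
    intro j hj
    have hj' : j ≤ K := Nat.le_of_lt_succ (Finset.mem_range.1 hj)
    by_cases hjl : j ≤ l
    · rw [if_pos hjl, hB, Finset.mul_sum, ← Finset.sum_neg_distrib]
      refine Finset.sum_congr rfl fun i _ => ?_
      rw [if_pos (by rw [hgz j hj' i]; exact hjl)]
      have e1 : (fun (z : GI (Ix N) N K → ℝ) (_ : Fin N → Bool) =>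
          R.T l (fun _ x => 1 * ua (K := K) β x (gz j i)) z ^ 2) = fun _ _ => 0 := by
        funext z _
        have : R.T l (fun _ x => 1 * ua (K := K) β x (gz j i)) z = 0 := by
          rw [← hR.T_const hlK 0 z]
          congr 1
          funext z x
          show 1 * (0 : ℝ) = 0
          norm_num
        rw [this]
        norm_num
      have e2 : (fun (z : GI (Ix N) N K → ℝ) (_ : Fin N → Bool) =>
          R.T l (fun _ x => 1 * ub (K := K) β q x (gz j i)) z ^ 2) =
          fun z _ => β ^ 2 * incr q j * R.T l (fun _ x => spin x i) z ^ 2 := by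
        funext z _
        have : R.T l (fun _ x => 1 * ub (K := K) β q x (gz j i)) z =
            β * √(incr q j) * R.T l (fun _ x => spin x i) z := by
          rw [← Sy.T_const_mul]
          congr 1
          funext z x
          rw [ub_gz β q x hj' i, one_mul]
        rw [this, mul_pow, mul_pow, Real.sq_sqrt (incr_nonneg' hq hj')]
      rw [e1, e2, hR.Ex_const, Sy.Ex_const_mul]
      ring
    · rw [if_neg hjl]
      refine Finset.sum_eq_zero fun i _ => ?_
      rw [if_neg (by rw [hgz j hj' i]; exact hjl)]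
  have hfil : (Finset.range (K + 1)).filter (fun j => j ≤ l) = Finset.range (l + 1) := by
    ext j
    simp only [Finset.mem_filter, Finset.mem_range]
    omega
  have hsum : (∑ j ∈ Finset.range (K + 1), if j ≤ l then -(β ^ 2 * incr q j * B) else 0) =
      -(β ^ 2 * q l * B) := by
    rw [← Finset.sum_filter, hfil, Finset.sum_neg_distrib, ← Finset.sum_mul, ← Finset.mul_sum,
      sum_incr' q l]
  rw [Finset.sum_congr rfl hf, hsum]
  by_cases hl0 : l = 0
  · subst hl0
    rw [hq0]
    have h0 : ∀ p ∈ (Finset.univ : Finset (Ix N)), (if ul (Sum.inl p : GI (Ix N) N K) ≤ 0 then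
      (R.Ex (fun z _ => R.T 0 (fun _ x => 1 * ua (K := K) β x (Sum.inl p)) z ^ 2) -
        R.Ex (fun z _ => R.T 0 (fun _ x => 1 * ub (K := K) β q x (Sum.inl p)) z ^ 2)) else 0) = 0 := by
      intro p _
      exact if_neg (by show ¬ (1 ≤ 0); omega)
    rw [Finset.sum_eq_zero h0]
    simp
  · have hl1 : 1 ≤ l := by omega
    have h1 : ∀ p ∈ (Finset.univ : Finset (Ix N)), (if ul (Sum.inl p : GI (Ix N) N K) ≤ l then
      (R.Ex (fun z _ => R.T l (fun _ x => 1 * ua (K := K) β x (Sum.inl p)) z ^ 2) -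
        R.Ex (fun z _ => R.T l (fun _ x => 1 * ub (K := K) β q x (Sum.inl p)) z ^ 2)) else 0) =
        R.Ex (fun z _ => β ^ 2 / (2 * N) *
          R.T l (fun _ x => spin x p.1 * spin x p.2) z ^ 2) := by
      intro p _
      rw [if_pos (by show 1 ≤ l; exact hl1)]
      have e2 : (fun (z : GI (Ix N) N K → ℝ) (_ : Fin N → Bool) =>
          R.T l (fun _ x => 1 * ub (K := K) β q x (Sum.inl p)) z ^ 2) = fun _ _ => 0 := by
        funext z _
        have : R.T l (fun _ x => 1 * ub (K := K) β q x (Sum.inl p)) z = 0 := by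
          rw [← hR.T_const hlK 0 z]
          congr 1
          funext z x
          show 1 * (0 : ℝ) = 0
          norm_num
        rw [this]
        norm_num
      rw [e2, hR.Ex_const, sub_zero]
      congr 1
      funext z _
      have : R.T l (fun _ x => 1 * ua (K := K) β x (Sum.inl p)) z =
          β / √(2 * (N : ℝ)) * R.T l (fun _ x => spin x p.1 * spin x p.2) z := by
        rw [← Sy.T_const_mul]
        congr 1
        funext z x
        show 1 * (β / √(2 * (N : ℝ)) * (spin x p.1 * spin x p.2)) = _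
        rw [one_mul]
      rw [this, mul_pow, div_pow, Real.sq_sqrt (by positivity)]
    rw [Finset.sum_congr rfl h1]
    have hNs : ∀ i : Fin N, EG fun z => R.T l (fun _ x => spin x i) z ^ 2 := fun i =>
      (hR.eg_T hlK (Nh.snd fun x => spin x i)).pow 2
    have hNp : ∀ p : Ix N, EG fun z => R.T l (fun _ x => spin x p.1 * spin x p.2) z ^ 2 := fun p =>
      (hR.eg_T hlK (Nh.snd fun x => spin x p.1 * spin x p.2)).pow 2
    have h2 : ∑ p : Ix N, R.Ex (fun z _ => β ^ 2 / (2 * N) *
          R.T l (fun _ x => spin x p.1 * spin x p.2) z ^ 2) - β ^ 2 * q l * B =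
        R.Ex (fun z _ => β ^ 2 / (2 * N) * (∑ p : Ix N,
          R.T l (fun _ x => spin x p.1 * spin x p.2) z ^ 2) -
          β ^ 2 * q l * ∑ i : Fin N, R.T l (fun _ x => spin x i) z ^ 2) := by
      have e : ∑ p : Ix N, R.Ex (fun z _ => β ^ 2 / (2 * N) *
          R.T l (fun _ x => spin x p.1 * spin x p.2) z ^ 2) = β ^ 2 / (2 * N) *
          ∑ p : Ix N, R.Ex (fun z _ => R.T l (fun _ x => spin x p.1 * spin x p.2) z ^ 2) := by
        rw [Finset.mul_sum]
        exact Finset.sum_congr rfl fun p _ => Sy.Ex_const_mul R _ _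
      rw [hR.Ex_sub (Nh.const_mul _ (Nh.fst (EG.sum _ fun p _ => hNp p)))
        (Nh.const_mul _ (Nh.fst (EG.sum _ fun i _ => hNs i))), Sy.Ex_const_mul, Sy.Ex_const_mul,
        hR.Ex_sum _ (fun p _ => Nh.fst (hNp p)), hR.Ex_sum _ (fun i _ => Nh.fst (hNs i)), e]
    have h3 : -(β ^ 2 / 2 * N * q l ^ 2) ≤ R.Ex (fun z _ => β ^ 2 / (2 * N) * (∑ p : Ix N,
          R.T l (fun _ x => spin x p.1 * spin x p.2) z ^ 2) -
          β ^ 2 * q l * ∑ i : Fin N, R.T l (fun _ x => spin x i) z ^ 2) := by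
      rw [← hR.Ex_const (-(β ^ 2 / 2 * N * q l ^ 2))]
      refine hR.Ex_mono (Nh.snd fun _ => _)
        (Nh.sub (Nh.const_mul _ (Nh.fst (EG.sum _ fun p _ => hNp p)))
        (Nh.const_mul _ (Nh.fst (EG.sum _ fun i _ => hNs i)))) fun z _ => ?_
      have h4 := alg_sq (w := fun x => R.pr l z x) (fun x => hR.pr_nonneg hlK z x)
        (hR.sum_pr hlK z) (fun x => spin x) (N * q l)
      have h5 : ∀ i : Fin N, R.T l (fun _ x => spin x i) z = ∑ x, R.pr l z x * spin x i :=
        fun i => hR.T_pr hlK (fun x => spin x i) z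
      have h6 : ∀ p : Ix N, R.T l (fun _ x => spin x p.1 * spin x p.2) z =
          ∑ x, R.pr l z x * (spin x p.1 * spin x p.2) :=
        fun p => hR.T_pr hlK (fun x => spin x p.1 * spin x p.2) z
      simp only [h5, h6]
      have h7 := mul_le_mul_of_nonneg_left h4 (show 0 ≤ β ^ 2 / (2 * N) by positivity)
      have h8 : β ^ 2 / (2 * N) * (2 * (N * q l) * (∑ i, (∑ x, R.pr l z x * spin x i) ^ 2) -
          (N * q l) ^ 2) = β ^ 2 * q l * (∑ i, (∑ x, R.pr l z x * spin x i) ^ 2) -
          β ^ 2 / 2 * N * q l ^ 2 := by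
        field_simp
      rw [h8] at h7
      linarith
    linarith

/-- The bound of the bracket. -/
lemma brk_le (hN : 0 < N) (hK : 1 ≤ K) {m : ℕ → ℝ} (hm : Exponents K m) (β : ℝ) {q : ℕ → ℝ}
    (hq : Path K q) (hq0 : q 0 = 0) (θ : ℝ) :
    brk (uS N K m) (fun x => x) (fun _ => 1) (fun _ => 0) (ua β) (ub β q) θ ≤
      β ^ 2 / 2 * N - β ^ 2 * N * q K +
        ∑ l ∈ Finset.range (K + 1), (m (l + 1) - m l) * (β ^ 2 / 2 * N * q l ^ 2) := by
  have hS := uS_regD (N := N) hK hm
  have hR := (regD_it (α := ua β) (β := ub β q) hS pot_id θ).toReg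
  unfold brk
  have e1 : (fun (z : GI (Ix N) N K → ℝ) (x : Fin N → Bool) => ((0 : ℝ) + 1 ^ 2) *
      (∑ e : GI (Ix N) N K, ua β x e ^ 2 - ∑ e : GI (Ix N) N K, ub β q x e ^ 2)) =
      fun _ _ => β ^ 2 / 2 * N - β ^ 2 * N * q K := by
    funext z x
    rw [sum_ua_sq hN, sum_ub_sq β hq]
    ring
  simp only []
  rw [e1, hR.Ex_const]
  have h2 : ∑ l ∈ Finset.range (K + 1), (m (l + 1) - m l) * (-(β ^ 2 / 2 * N * q l ^ 2)) ≤
      ∑ l ∈ Finset.range ((uS N K m).K + 1), (uS N K m).p l *
        ∑ e, if (uS N K m).lev e ≤ l then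
      (((uS N K m).wH (it (uS N K m).H (fun x => x) (ua β) (ub β q) θ)).Ex (fun z _ =>
        ((uS N K m).wH (it (uS N K m).H (fun x => x) (ua β) (ub β q) θ)).T l
          (fun _ x => 1 * ua β x e) z ^ 2) -
        ((uS N K m).wH (it (uS N K m).H (fun x => x) (ua β) (ub β q) θ)).Ex (fun z _ =>
        ((uS N K m).wH (it (uS N K m).H (fun x => x) (ua β) (ub β q) θ)).T l
          (fun _ x => 1 * ub β q x e) z ^ 2)) else 0 := by
    refine Finset.sum_le_sum fun l hl => ?_
    have hl' : l ≤ K := Nat.le_of_lt_succ (Finset.mem_range.1 hl)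
    exact mul_le_mul_of_nonneg_left (level_ge hN hR rfl rfl β hq hq0 hl')
      (by linarith [hm.2.2 l hl'])
  have h3 : ∑ l ∈ Finset.range (K + 1), (m (l + 1) - m l) * (-(β ^ 2 / 2 * N * q l ^ 2)) =
      -∑ l ∈ Finset.range (K + 1), (m (l + 1) - m l) * (β ^ 2 / 2 * N * q l ^ 2) := by
    rw [← Finset.sum_neg_distrib]
    exact Finset.sum_congr rfl fun l _ => by ring
  rw [h3] at h2
  linarith

/-- The value at the end: the fields alone. -/
lemma fe_zero (hK : 1 ≤ K) {m : ℕ → ℝ} (hm : Exponents K m) {β : ℝ} (hβ : 0 ≤ β)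
    {q : ℕ → ℝ} (hq : Path K q) :
    ((uS N K m).wH (it (uS N K m).H (fun x => x) (ua β) (ub β q) 0)).fe =
      N * (spinPart K m (fun l => β ^ 2 * q l) + β ^ 2 * q K / 2) := by
  have hS := uS_regD (N := N) hK hm
  have hR := regD_it (α := ua β) (β := ub β q) hS pot_id 0
  have key := fe_field (S := (uS N K m).wH (it (uS N K m).H (fun x => x) (ua β) (ub β q) 0)) hR
    (φ := spin) (u := fun _ => -(N * Real.log 2)) (zc := gz)
    (s := fun l => β * √(incr q l)) ?_ ?_ ?_ ?_
  · rw [key]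
    have h1 := Vale.Agent.P157.Par.topN_spin hm N (r := fun l =>
      ∑ j ∈ Finset.range (l + 1), (β * √(incr q j)) ^ 2)
    refine h1.trans ?_
    have h2 : ∀ l ≤ K, ∑ j ∈ Finset.range (l + 1), (β * √(incr q j)) ^ 2 = β ^ 2 * q l := by
      intro l hl
      rw [← sum_incr' q l, Finset.mul_sum]
      refine Finset.sum_congr rfl fun j hj => ?_
      have hj' : j ≤ K := by
        have := Finset.mem_range.1 hj
        omega
      rw [mul_pow, Real.sq_sqrt (incr_nonneg' hq hj')]
    have h3 : spinPart K m (fun l => ∑ j ∈ Finset.range (l + 1), (β * √(incr q j)) ^ 2) =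
        spinPart K m (fun l => β ^ 2 * q l) := by
      unfold spinPart
      rw [br_cascade_congr (m := m) (q := fun l => ∑ j ∈ Finset.range (l + 1),
        (β * √(incr q j)) ^ 2) (q' := fun l => β ^ 2 * q l) h2]
      simp only [h2 0 (Nat.zero_le _), h2 K le_rfl]
    rw [h3, h2 K le_rfl]
  · intro l hl i
    have hl' : l ≤ K := hl
    show ((Fin.ofNat (K + 1) l : Fin (K + 1)) : ℕ) = l
    simp only [Fin.ofNat, Nat.mod_eq_of_lt (Nat.lt_succ_of_le hl')]
  · intro l hl i j hij
    exact (Prod.ext_iff.1 (Sum.inr_injective hij)).2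
  · intro l hl
    positivity
  · intro z x
    show -(N * Real.log 2) + itU (ua β) (ub β q) 0 z x = _
    unfold itU
    rw [Real.sin_zero, Real.cos_zero, zero_mul, one_mul, zero_add, lin_ub]
    rfl

/-- The value at the beginning: the moment of the partition function. -/
lemma fe_one (hK : 1 ≤ K) {m : ℕ → ℝ} (hm : Exponents K m) (β : ℝ)
    {q : ℕ → ℝ} :
    ((uS N K m).wH (it (uS N K m).H (fun x => x) (ua β) (ub β q) (Real.pi / 2))).fe =
      1 / m 1 * Real.log (∫ g, Real.exp (m 1 * Ft β N g) ∂(gI (Ix N))) := by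
  have hS := uS_regD (N := N) hK hm
  have hR := (regD_it (α := ua β) (β := ub β q) hS pot_id (Real.pi / 2)).toReg
  set R := (uS N K m).wH (it (uS N K m).H (fun x => x) (ua β) (ub β q) (Real.pi / 2)) with hRdef
  have hH : ∀ z x, R.H z x = -(N * Real.log 2) + β / 2 * qf (Wm N (r0 z)) (spin x) := by
    intro z x
    show -(N * Real.log 2) + itU (ua β) (ub β q) (Real.pi / 2) z x = _
    unfold itU
    rw [Real.sin_pi_div_two, Real.cos_pi_div_two, zero_mul, one_mul, add_zero, lin_ua]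
  have htop : ∀ z, R.top z = Ft β N (r0 z) := by
    intro z
    unfold Sy.top Ft
    congr 1
    refine Finset.sum_congr rfl fun x _ => ?_
    rw [hH]
    congr 1
    ring
  have hdep : Dep R.lev 1 R.top := by
    intro z w
    rw [htop, htop]
    have h1 : r0 (mix R.lev 1 z w) = r0 z := by
      funext e
      unfold r0 mix
      exact if_pos (le_refl 1)
    rw [h1]
  have key : ∀ l ≤ R.K, 1 ≤ l → R.lg l = R.top := by
    intro l hl
    refine Sy.down_ind (P := fun l => 1 ≤ l → R.lg l = R.top) (fun _ => Sy.lg_top R)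
      (fun l hl ih hl1 => ?_) l hl
    rw [Sy.lg_step R hl, ih (by omega)]
    funext z
    have hd : Dep R.lev l (fun z => Real.exp (R.m (l + 1) * R.top z)) := by
      intro z w
      simp only [hdep.mono hl1 z w]
    have hm' : R.m (l + 1) ≠ 0 := (hR.m_pos (by omega) (by omega)).ne'
    unfold Sy.stp
    rw [hd.J_eq, Real.log_exp]
    field_simp
  have hRK : R.K = K := rfl
  have hm1 : R.m (0 + 1) = m 1 := rfl
  have h0 : R.lg 0 = fun _ => 1 / m 1 * Real.log (∫ g, Real.exp (m 1 * Ft β N g) ∂(gI (Ix N))) := by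
    rw [Sy.lg_step R (by omega), key (0 + 1) (by omega) le_rfl]
    funext z
    unfold Sy.stp
    rw [hm1]
    congr 2
    have hEG : EG fun g : Ix N → ℝ => Real.exp (m 1 * Ft β N g) := (lip_Ft β N).exp_eg (m 1)
    rw [← Sk.Gen.J_dep_zero_int (N := N) (K := K) hEG]
    unfold J
    refine integral_congr_ae (Filter.Eventually.of_forall fun w => ?_)
    simp only
    have h1 : r0 (mix R.lev 0 z w) = r0 w := by
      funext e
      unfold r0 mix
      exact if_neg (by show ¬ (1 ≤ 0); omega)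
    rw [htop, h1]
  unfold Sy.fe
  rw [h0]
  simp

/-- **Guerra's bound for fractional moments.** -/
theorem gue (hN : 0 < N) (hK : 1 ≤ K) {m q : ℕ → ℝ} (hm : Exponents K m) (hq : Path K q)
    (hq0 : q 0 = 0) {β : ℝ} (hβ : 0 ≤ β) :
    1 / m 1 * Real.log (∫ g, Real.exp (m 1 * Ft β N g) ∂(gI (Ix N))) ≤ N * PSK β K m q := by
  have hS := uS_regD (N := N) hK hm
  have h := int_le hS pot_id (sep_u β q) (fun θ _ _ => brk_le hN hK hm β hq hq0 θ)
  rw [fe_zero hK hm hβ hq, fe_one hK hm β] at h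
  unfold PSK
  have e : ∑ l ∈ Finset.range (K + 1), (m (l + 1) - m l) * (β ^ 2 / 2 * N * q l ^ 2) =
      β ^ 2 / 2 * N * ∑ l ∈ Finset.range (K + 1), (m (l + 1) - m l) * q l ^ 2 := by
    rw [Finset.mul_sum]
    exact Finset.sum_congr rfl fun l _ => by ring
  rw [e] at h
  linarith

/-- The normalized moments increase. -/
lemma log_moment_mono {ι : Type} [Fintype ι] {F : (ι → ℝ) → ℝ} (hF : Lip F) {x y : ℝ} (hx : 0 < x)
    (hxy : x ≤ y) : 1 / x * Real.log (∫ g, Real.exp (x * F g) ∂(gI ι)) ≤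
      1 / y * Real.log (∫ g, Real.exp (y * F g) ∂(gI ι)) := by
  have hy : 0 < y := hx.trans_le hxy
  have hix := (hF.exp_eg x).integrable
  have hiy := (hF.exp_eg y).integrable
  have hpx : 0 < ∫ g, Real.exp (x * F g) ∂(gI ι) := integral_exp_pos hix
  have hpy : 0 < ∫ g, Real.exp (y * F g) ∂(gI ι) := integral_exp_pos hiy
  set a := Real.log (∫ g, Real.exp (y * F g) ∂(gI ι)) with ha
  have hexpa : Real.exp a = ∫ g, Real.exp (y * F g) ∂(gI ι) := Real.exp_log hpy
  set w := x / y with hw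
  have hw0 : 0 ≤ w := by positivity
  have hw1 : w ≤ 1 := (div_le_one hy).2 hxy
  have hpt : ∀ g, Real.exp (x * F g) ≤ Real.exp (w * a) * (w * Real.exp (-a) * Real.exp (y * F g) +
      (1 - w)) := by
    intro g
    have h1 := convexOn_exp.2 (Set.mem_univ (y * F g - a)) (Set.mem_univ 0) hw0
      (sub_nonneg.2 hw1) (by ring)
    simp only [smul_eq_mul, mul_zero, add_zero, Real.exp_zero, mul_one] at h1
    have h2 : Real.exp (x * F g) = Real.exp (w * a) * Real.exp (w * (y * F g - a)) := by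
      rw [← Real.exp_add]
      congr 1
      rw [hw]
      field_simp
      ring
    have h3 : Real.exp (y * F g - a) = Real.exp (-a) * Real.exp (y * F g) := by
      rw [← Real.exp_add]
      congr 1
      ring
    rw [h2]
    refine mul_le_mul_of_nonneg_left ?_ (Real.exp_pos _).le
    rw [h3] at h1
    linarith
  have h4 : ∫ g, Real.exp (x * F g) ∂(gI ι) ≤ Real.exp (w * a) := by
    have hi : Integrable (fun g => Real.exp (w * a) * (w * Real.exp (-a) * Real.exp (y * F g) +
        (1 - w))) (gI ι) := ((hiy.const_mul (w * Real.exp (-a))).add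
      (integrable_const (1 - w))).const_mul (Real.exp (w * a))
    refine (integral_mono hix hi hpt).trans (le_of_eq ?_)
    rw [integral_const_mul, integral_add (hiy.const_mul _) (integrable_const _),
      integral_const_mul, ← hexpa, mul_assoc, ← Real.exp_add]
    simp
  have h8 : Real.log (∫ g, Real.exp (x * F g) ∂(gI ι)) ≤ w * a :=
    (Real.log_le_iff_le_exp hpx).2 h4
  calc 1 / x * Real.log (∫ g, Real.exp (x * F g) ∂(gI ι)) ≤ 1 / x * (w * a) :=
        mul_le_mul_of_nonneg_left h8 (by positivity)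
    _ = 1 / y * a := by
        rw [hw]
        field_simp

/-- The first moment. -/
lemma log_first_moment (hN : 0 < N) (β : ℝ) :
    Real.log (∫ g, Real.exp (Ft β N g) ∂(gI (Ix N))) = N * (β ^ 2 / 4) := by
  have hN' : (0 : ℝ) < N := by exact_mod_cast hN
  have h1 : ∀ g, Real.exp (Ft β N g) = ∑ x : Fin N → Bool, Real.exp (-(N * Real.log 2)) *
      Real.exp (Sk.Low.lf (fun p : Ix N => β / √(2 * (N : ℝ)) * (spin x p.1 * spin x p.2)) g) := by
    intro g
    unfold Ft
    rw [Real.exp_log (Finset.sum_pos (fun x _ => Real.exp_pos _) Finset.univ_nonempty)]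
    refine Finset.sum_congr rfl fun x _ => ?_
    rw [← Real.exp_add, Sk.qf_Wm]
    congr 1
    unfold Sk.Low.lf
    rw [Fintype.sum_prod_type]
    have : ∑ i, ∑ j, β / √(2 * (N : ℝ)) * (spin x i * spin x j) * g (i, j) =
        β / √(2 * (N : ℝ)) * ∑ i, ∑ j, g (i, j) * (spin x i * spin x j) := by
      rw [Finset.mul_sum]
      refine Finset.sum_congr rfl fun i _ => ?_
      rw [Finset.mul_sum]
      exact Finset.sum_congr rfl fun j _ => by ring
    rw [this]
    ring
  simp only [h1]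
  rw [integral_finsetSum _ fun x _ => (Sk.Low.exp_lf_integrable _).const_mul _]
  have h2 : ∀ x : Fin N → Bool, ∑ p : Ix N, (β / √(2 * (N : ℝ)) *
      (spin x p.1 * spin x p.2)) ^ 2 = β ^ 2 / 2 * N := by
    intro x
    have h3 : ∀ p : Ix N, (β / √(2 * (N : ℝ)) * (spin x p.1 * spin x p.2)) ^ 2 =
        β ^ 2 / (2 * N) := by
      intro p
      rw [mul_pow, mul_pow, spin_sq', spin_sq', div_pow, Real.sq_sqrt (by positivity)]
      ring
    simp only [h3, Finset.sum_const, Finset.card_univ, Fintype.card_prod, Fintype.card_fin,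
      nsmul_eq_mul]
    push_cast
    field_simp
  simp only [integral_const_mul, Sk.Low.int_exp_lf, h2]
  rw [Finset.sum_const, Finset.card_univ, nsmul_eq_mul, Fintype.card_fun, Fintype.card_bool,
    Fintype.card_fin]
  push_cast
  rw [Real.log_mul (by positivity) (by positivity), Real.log_mul (Real.exp_ne_zero _)
    (Real.exp_ne_zero _), Real.log_exp, Real.log_exp, Real.log_pow]
  ring

/-- **Guerra's bound for fractional moments**, for every order at most `m 1`. -/
theorem gue_le (hN : 0 < N) {m q : ℕ → ℝ} (hm : Exponents K m) (hq : Path K q)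
    (hq0 : q 0 = 0) {β : ℝ} (hβ : 0 ≤ β) {x : ℝ} (hx : 0 < x) (hxm : x ≤ m 1) :
    1 / x * Real.log (∫ g, Real.exp (x * Ft β N g) ∂(gI (Ix N))) ≤ N * PSK β K m q := by
  refine (log_moment_mono (lip_Ft β N) hx hxm).trans ?_
  rcases Nat.eq_zero_or_pos K with hK | hK
  · subst hK
    have hm1 : m 1 = 1 := hm.2.1
    rw [hm1]
    have h1 := log_first_moment hN β
    simp only [one_mul]
    rw [h1]
    refine le_of_eq ?_
    unfold PSK spinPart
    simp [hq0, Vale.Agent.P157.Par.cascade]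
  · exact gue hN hK hm hq hq0 hβ

end Vale.Agent.P146.Ub
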