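import Vale.Agent.P157.LvInt3
import Vale.Agent.P157.LvStep

/-!
LIN: linear Gaussian systems. The energy is `∑ a x e * z e + c`.
-/

open MeasureTheory ProbabilityTheory Filter Topology

namespace Vale.Agent.P146.Ub

set_option linter.unusedSectionVars false

open Vale.Agent.P157 Vale.Agent.P157.Lv Vale.Agent.P157.Lv.Sy
open Vale.Agent.P157.Par (Path Exponents incr)

variable {ι X : Type} [Fintype ι] [DecidableEq ι] [Fintype X] [DecidableEq X] [Nonempty X]

/-- The linear system with the coefficients `a`. -/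
noncomputable def ls (lev : ι → ℕ) (K : ℕ) (m : ℕ → ℝ) (c : ℝ) (a : X → ι → ℝ) : Sy ι X :=
  ⟨lev, K, m, fun z x => lin (a x) z + c⟩

/-- The covariance of two linear fields at the level `l`. -/
noncomputable def cv (lev : ι → ℕ) (l : ℕ) (a b : X → ι → ℝ) (x x' : X) : ℝ :=
  ∑ e, if lev e ≤ l then a x e * b x' e else 0

variable {lev : ι → ℕ} {K : ℕ} {m : ℕ → ℝ} {c : ℝ} {a b α β : X → ι → ℝ}

theorem ls_regD (hm : Exponents K m) (hl : ∀ e, lev e ≤ K) (c : ℝ) (a : X → ι → ℝ) :
    (ls lev K m c a).RegD (fun e _ x => a x e) where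
  m0 := hm.1
  mK := hm.2.1
  mono := fun l hl => (hm.2.2 l hl).le
  pos := by
    have h := hm.2.2 0 (Nat.zero_le _)
    rw [hm.1] at h
    exact h
  lev := hl
  lip := fun x => by
    refine ⟨∑ e, |a x e|, Finset.sum_nonneg fun e _ => abs_nonneg _, fun y y' => ?_⟩
    show |lin (a x) y + c - (lin (a x) y' + c)| ≤ _
    rw [add_sub_add_right_eq_sub, li2_lin_sub]
    exact li2_lin (a x) (y - y')
  pd := fun e x => by
    have h := (lin_pd (a x) e).add (PD.const (e := e) c)
    exact h.congr fun _ => add_zero _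
  md := fun e x => measurable_const
  bd := ⟨∑ x, ∑ e, |a x e|, fun e z x => by
    have h1 : |a x e| ≤ ∑ e, |a x e| :=
      Finset.single_le_sum (f := fun e => |a x e|) (fun e _ => abs_nonneg _) (Finset.mem_univ e)
    exact h1.trans (Finset.single_le_sum (f := fun x => ∑ e, |a x e|)
      (fun x _ => Finset.sum_nonneg fun e _ => abs_nonneg _) (Finset.mem_univ x))⟩

/-- Two replicas. -/
theorem ls_pair {R : Sy ι X} (hR : R.Reg) {l : ℕ} (hl : l ≤ R.K) (u v : X → ℝ) :
    R.Ex (fun z x => u x * R.T l (fun _ x => v x) z) = R.pairEx l (fun x x' => u x * v x') := by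
  have h1 : R.Ex (fun z x => u x * R.T l (fun _ x => v x) z) =
      R.Ex (fun z _ => R.T l (fun _ x => v x) z * R.T l (fun _ x => u x) z) := by
    rw [hR.Ex_mul_T hl (R.dep_T l _) (hR.eg_T hl (Nh.snd v)) (Nh.snd u)]
    congr 1
    funext z x
    ring
  rw [h1, pairEx]
  congr 1
  funext z _
  rw [hR.T_pr hl, hR.T_pr hl, Finset.sum_mul_sum, Finset.sum_comm]
  refine Finset.sum_congr rfl fun x _ => Finset.sum_congr rfl fun x' _ => ?_
  ring

theorem ls_T_sq {R : Sy ι X} (hR : R.Reg) {l : ℕ} (hl : l ≤ R.K) (v : X → ℝ) :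
    R.Ex (fun z _ => R.T l (fun _ x => v x) z ^ 2) = R.pairEx l (fun x x' => v x * v x') := by
  rw [← ls_pair hR hl]
  have h := hR.Ex_mul_T hl (R.dep_T l (fun _ x => v x)) (hR.eg_T hl (Nh.snd v)) (Nh.snd v)
  have e1 : (fun (z : ι → ℝ) (_ : X) => R.T l (fun _ x => v x) z ^ 2) =
      fun z _ => R.T l (fun _ x => v x) z * R.T l (fun _ x => v x) z := by
    funext z _
    rw [pow_two]
  have e2 : (fun (z : ι → ℝ) (x : X) => v x * R.T l (fun _ x => v x) z) =
      fun z x => R.T l (fun _ x => v x) z * v x := by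
    funext z x
    rw [mul_comm]
  rw [e1, e2, h]

theorem ls_pair_sum {R : Sy ι X} (hR : R.Reg) {l : ℕ} (hl : l ≤ R.K) {κ : Type} (s : Finset κ)
    (ψ : κ → X → X → ℝ) :
    R.pairEx l (fun x x' => ∑ i ∈ s, ψ i x x') = ∑ i ∈ s, R.pairEx l (ψ i) := by
  classical
  induction s using Finset.induction_on with
  | empty => simpa using hR.pairEx_const hl 0
  | insert i s hi ih =>
    rw [Finset.sum_insert hi, ← ih, ← hR.pairEx_add hl]
    simp only [Finset.sum_insert hi]

/-- Integration by parts: the mean of a linear observable. -/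
theorem ls_Ex_lin (hm : Exponents K m) (hl : ∀ e, lev e ≤ K) (c : ℝ) (a b : X → ι → ℝ) :
    (ls lev K m c a).Ex (fun z x => lin (b x) z) =
      (ls lev K m c a).Ex (fun _ x => ∑ e, b x e * a x e) -
      ∑ l ∈ Finset.range (K + 1), (m (l + 1) - m l) *
        (ls lev K m c a).pairEx l (cv lev l b a) := by
  have hR := ls_regD hm hl c a
  obtain ⟨R, hRd⟩ : ∃ R, R = ls lev K m c a := ⟨_, rfl⟩
  rw [← hRd] at hR ⊢
  have hK : R.K = K := by rw [hRd]; rfl
  have hlv : R.lev = lev := by rw [hRd]; rfl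
  have hp : ∀ l, R.p l = m (l + 1) - m l := fun l => by rw [hRd]; rfl
  have hT : ∀ e, ∀ l ∈ Finset.Ico (R.lev e) (R.K + 1),
      Nh fun (z : ι → ℝ) (x : X) => R.p l * (b x e * R.T l (fun _ x => a x e) z) := by
    intro e l hl'
    have := (Finset.mem_Ico.1 hl').2
    exact Nh.const_mul _ (Nh.mul (Nh.snd fun x => b x e)
      (Nh.fst (hR.toReg.eg_T (by omega) (Nh.snd fun x => a x e))))
  have h1 : ∀ e, R.Ex (fun z x => z e * b x e) = R.Ex (fun _ x => b x e * a x e) -
      ∑ l ∈ Finset.range (K + 1), if lev e ≤ l then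
        (m (l + 1) - m l) * R.pairEx l (fun x x' => b x e * a x' e) else 0 := by
    intro e
    rw [hR.ibp e (h := fun _ x => b x e) (h' := fun _ _ => 0) (fun x => PD.const _)
      (Nh.snd fun x => b x e) (fun _ => EG.const 0)]
    have e1 : (fun (z : ι → ℝ) (x : X) => (0 : ℝ) + b x e * (a x e -
        ∑ l ∈ Finset.Ico (R.lev e) (R.K + 1), R.p l * R.T l (fun _ x => a x e) z)) =
        fun z x => b x e * a x e - ∑ l ∈ Finset.Ico (R.lev e) (R.K + 1),
          R.p l * (b x e * R.T l (fun _ x => a x e) z) := by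
      funext z x
      rw [zero_add, mul_sub, Finset.mul_sum]
      congr 1
      refine Finset.sum_congr rfl fun l _ => ?_
      ring
    rw [e1, hR.toReg.Ex_sub (Nh.snd fun x => b x e * a x e) (Nh.sum _ (hT e)),
      hR.toReg.Ex_sum _ (hT e)]
    congr 1
    have e3 : Finset.Ico (R.lev e) (R.K + 1) =
        (Finset.range (K + 1)).filter fun l => lev e ≤ l := by
      ext l
      simp only [Finset.mem_Ico, Finset.mem_filter, Finset.mem_range, hK, hlv]
      omega
    rw [← Finset.sum_filter, ← e3]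
    refine Finset.sum_congr rfl fun l hl' => ?_
    have := (Finset.mem_Ico.1 hl').2
    rw [R.Ex_const_mul, hp, ls_pair hR.toReg (by omega) (fun x => b x e) (fun x => a x e)]
  have h2 : (fun (z : ι → ℝ) (x : X) => lin (b x) z) = fun z x => ∑ e, z e * b x e := by
    funext z x
    exact Finset.sum_congr rfl fun e _ => mul_comm _ _
  have h3 : ∀ e ∈ (Finset.univ : Finset ι), Nh fun (z : ι → ℝ) (x : X) => z e * b x e :=
    fun e _ => Nh.mul (Nh.fst (EG.coord e)) (Nh.snd fun x => b x e)
  rw [h2, hR.toReg.Ex_sum _ h3]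
  simp only [h1]
  rw [Finset.sum_sub_distrib, ← hR.toReg.Ex_sum _ (fun e _ => Nh.snd fun x => b x e * a x e),
    Finset.sum_comm]
  congr 1
  refine Finset.sum_congr rfl fun l hl' => ?_
  have hl'' : l ≤ R.K := by
    have := Finset.mem_range.1 hl'
    omega
  unfold cv
  rw [ls_pair_sum hR.toReg hl'', Finset.mul_sum]
  refine Finset.sum_congr rfl fun e _ => ?_
  split_ifs
  · rfl
  · rw [hR.toReg.pairEx_const hl'', mul_zero]

theorem ls_wH (lev : ι → ℕ) (K : ℕ) (m : ℕ → ℝ) (c : ℝ) (a : X → ι → ℝ)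
    (H : (ι → ℝ) → X → ℝ) (a' : X → ι → ℝ) (h : ∀ z x, H z x = lin (a' x) z + c) :
    (ls lev K m c a).wH H = ls lev K m c a' := by
  unfold Sy.wH ls
  congr 1
  funext z x
  exact h z x

theorem lin_add' (a b : ι → ℝ) (z : ι → ℝ) : lin (fun e => a e + b e) z = lin a z + lin b z := by
  unfold lin
  rw [← Finset.sum_add_distrib]
  refine Finset.sum_congr rfl fun e _ => ?_
  ring

theorem lin_smul' (r : ℝ) (a : ι → ℝ) (z : ι → ℝ) : lin (fun e => r * a e) z = r * lin a z := by
  unfold lin
  rw [Finset.mul_sum]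
  refine Finset.sum_congr rfl fun e _ => ?_
  ring

/-- Jensen. -/
theorem ls_jensen (hm : Exponents K m) (hl : ∀ e, lev e ≤ K) (c : ℝ) (a b : X → ι → ℝ) :
    (ls lev K m c a).Ex (fun z x => lin (b x) z) ≤
      (ls lev K m c (a + b)).fe - (ls lev K m c a).fe := by
  have hR := ls_regD hm hl c a
  have hR' := ls_regD hm hl c (a + b)
  have e : (ls lev K m c a).wH (fun z x => lin ((a + b) x) z + c) = ls lev K m c (a + b) := rfl
  have h := hR.toReg.jensen (H' := fun z x => lin ((a + b) x) z + c) (by rw [e]; exact hR'.toReg)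
  rw [e] at h
  have e1 : (fun (z : ι → ℝ) (x : X) => lin ((a + b) x) z + c - (ls lev K m c a).H z x) =
      fun z x => lin (b x) z := by
    funext z x
    show lin (fun e => a x e + b x e) z + c - (lin (a x) z + c) = _
    rw [lin_add']
    ring
  rwa [e1] at h

/-- An independent field increases the free energy. -/
theorem ls_le_add (hm : Exponents K m) (hl : ∀ e, lev e ≤ K) (c : ℝ)
    (hab : ∀ e x x', b x e * a x' e = 0) :
    (ls lev K m c a).fe ≤ (ls lev K m c (a + b)).fe := by
  have hR := ls_regD hm hl c a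
  have h := ls_jensen hm hl c a b
  rw [ls_Ex_lin hm hl c a b] at h
  have e1 : (fun (_ : ι → ℝ) (x : X) => ∑ e, b x e * a x e) = fun _ _ => 0 := by
    funext z x
    exact Finset.sum_eq_zero fun e _ => hab e x x
  have e2 : ∀ l, cv lev l b a = fun _ _ => 0 := by
    intro l
    funext x x'
    unfold cv
    refine Finset.sum_eq_zero fun e _ => ?_
    rw [hab, ite_self]
  have e3 : ∑ l ∈ Finset.range (K + 1), (m (l + 1) - m l) *
        (ls lev K m c a).pairEx l (cv lev l b a) = 0 := by
    refine Finset.sum_eq_zero fun l hl' => ?_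
    have hl'' : l ≤ (ls lev K m c a).K := by
      have := Finset.mem_range.1 hl'
      show l ≤ K
      omega
    rw [e2, hR.toReg.pairEx_const hl'', mul_zero]
  rw [e1, hR.toReg.Ex_const, e3, sub_zero] at h
  linarith

/-- The interpolated coefficients. -/
noncomputable def ith (a α β : X → ι → ℝ) (θ : ℝ) : X → ι → ℝ :=
  fun x e => a x e + (Real.sin θ * α x e + Real.cos θ * β x e)

theorem lin_ith (a α β : X → ι → ℝ) (θ : ℝ) (x : X) (z : ι → ℝ) :
    lin (ith a α β θ x) z = lin (a x) z + itU α β θ z x := by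
  unfold ith itU
  rw [lin_add', lin_add', lin_smul', lin_smul']

/-- **Interpolation** (`int_le` with `f = id`). -/
theorem ls_interp (hm : Exponents K m) (hl : ∀ e, lev e ≤ K) (c : ℝ)
    (hαβ : ∀ e x x', α x e * β x' e = 0) (hαa : ∀ e x x', α x e * a x' e = 0)
    (hβa : ∀ e x x', β x e * a x' e = 0) {B : ℝ}
    (hB : ∀ θ, 0 ≤ θ → θ ≤ Real.pi / 2 →
      (ls lev K m c (ith a α β θ)).Ex (fun _ x => ∑ e, (α x e ^ 2 - β x e ^ 2)) -
        ∑ l ∈ Finset.range (K + 1), (m (l + 1) - m l) *
          (ls lev K m c (ith a α β θ)).pairEx l (fun x x' => cv lev l α α x x' - cv lev l β β x x')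
      ≤ B) :
    (ls lev K m c (a + α)).fe - (ls lev K m c (a + β)).fe ≤ B / 2 := by
  have hR := ls_regD hm hl c a
  have hf : Pot (fun x : ℝ => x) (fun _ => 1) (fun _ => 0) 1 0 :=
    ⟨fun x => hasDerivAt_id x, fun x => hasDerivAt_const x 1, fun _ => by simp, fun _ => by simp⟩
  have hs : Lv.Sep (fun e (_ : ι → ℝ) x => a x e) α β := by
    refine ⟨hαβ, fun e x h z y => ?_⟩
    rcases h with h | h
    · exact (mul_eq_zero.mp (hαa e x y)).resolve_left h
    · exact (mul_eq_zero.mp (hβa e x y)).resolve_left h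
  have hw : ∀ θ, (ls lev K m c a).wH (it (ls lev K m c a).H (fun x : ℝ => x) α β θ) =
      ls lev K m c (ith a α β θ) := by
    intro θ
    refine ls_wH _ _ _ _ _ _ _ fun z x => ?_
    rw [lin_ith]
    show lin (a x) z + c + itU α β θ z x = _
    ring
  have hb : ∀ θ, 0 ≤ θ → θ ≤ Real.pi / 2 →
      brk (ls lev K m c a) (fun x : ℝ => x) (fun _ => 1) (fun _ => 0) α β θ ≤ B := by
    intro θ h0 h1
    refine le_trans (le_of_eq ?_) (hB θ h0 h1)
    unfold brk
    rw [hw θ]
    have hRθ := ls_regD hm hl c (ith a α β θ)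
    obtain ⟨R, hRd⟩ : ∃ R, R = ls lev K m c (ith a α β θ) := ⟨_, rfl⟩
    rw [← hRd] at hRθ ⊢
    have hK : R.K = K := by rw [hRd]; rfl
    congr 1
    · congr 1
      funext z x
      rw [Finset.sum_sub_distrib]
      ring
    · show ∑ l ∈ Finset.range (K + 1), (m (l + 1) - m l) * _ = _
      refine Finset.sum_congr rfl fun l hl' => ?_
      have hl'' : l ≤ R.K := by
        have := Finset.mem_range.1 hl'
        omega
      congr 1
      have e1 : (fun x x' => cv lev l α α x x' - cv lev l β β x x') =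
          fun x x' => ∑ e, if lev e ≤ l then α x e * α x' e - β x e * β x' e else 0 := by
        funext x x'
        unfold cv
        rw [← Finset.sum_sub_distrib]
        refine Finset.sum_congr rfl fun e _ => ?_
        split_ifs
        · rfl
        · rw [sub_zero]
      rw [e1, ls_pair_sum hRθ.toReg hl'']
      refine Finset.sum_congr rfl fun e _ => ?_
      show (if lev e ≤ l then _ else (0 : ℝ)) = _
      split_ifs
      · simp only [one_mul]
        rw [ls_T_sq hRθ.toReg hl'' (fun x => α x e), ls_T_sq hRθ.toReg hl'' (fun x => β x e)]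
        have h5 := hRθ.toReg.pairEx_add hl'' (fun x x' => α x e * α x' e)
          (fun x x' => -1 * (β x e * β x' e))
        rw [hRθ.toReg.pairEx_const_mul l (-1)] at h5
        have e2 : (fun x x' => α x e * α x' e + -1 * (β x e * β x' e)) =
            fun x x' => α x e * α x' e - β x e * β x' e := by
          funext x x'
          ring
        rw [e2] at h5
        rw [h5]
        ring
      · rw [hRθ.toReg.pairEx_const hl'']
  have h := int_le hR hf hs hb
  rw [hw, hw] at h
  have e3 : ith a α β (Real.pi / 2) = a + α := by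
    funext x e
    simp [ith]
  have e4 : ith a α β 0 = a + β := by
    funext x e
    simp [ith]
  rwa [e3, e4] at h

/-- The upper bound for an independent field. -/
theorem ls_add_le (hm : Exponents K m) (hl : ∀ e, lev e ≤ K) (c : ℝ)
    (hab : ∀ e x x', b x e * a x' e = 0) {V : ℝ} (hV : ∀ x, ∑ e, b x e ^ 2 ≤ V) :
    (ls lev K m c (a + b)).fe ≤ (ls lev K m c a).fe + V / 2 := by
  have h := ls_interp (α := b) (β := 0) (a := a) (B := V) hm hl c (fun e x x' => by simp)
    hab (fun e x x' => by simp) ?_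
  · rw [add_zero] at h
    linarith
  · intro θ h0 h1
    have hRθ := (ls_regD hm hl c (ith a b 0 θ)).toReg
    have hK : (ls lev K m c (ith a b 0 θ)).K = K := rfl
    have e1 : (ls lev K m c (ith a b 0 θ)).Ex (fun _ x => ∑ e, (b x e ^ 2 -
        (0 : X → ι → ℝ) x e ^ 2)) ≤ V := by
      rw [← hRθ.Ex_const V]
      refine hRθ.Ex_mono (Nh.snd fun x => ∑ e, (b x e ^ 2 - (0 : X → ι → ℝ) x e ^ 2))
        (fun _ => EG.const V) fun z x => ?_
      simpa using hV x
    have e2 : 0 ≤ ∑ l ∈ Finset.range (K + 1), (m (l + 1) - m l) *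
          (ls lev K m c (ith a b 0 θ)).pairEx l (fun x x' => cv lev l b b x x' -
            cv lev l (0 : X → ι → ℝ) 0 x x') := by
      refine Finset.sum_nonneg fun l hl' => ?_
      have hl1 : l ≤ K := by
        have := Finset.mem_range.1 hl'
        omega
      refine mul_nonneg (by linarith [hm.2.2 l hl1]) ?_
      have e3 : (fun x x' => cv lev l b b x x' - cv lev l (0 : X → ι → ℝ) 0 x x') =
          fun x x' => ∑ e, if lev e ≤ l then b x e * b x' e else 0 := by
        funext x x'
        simp [cv]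
      rw [e3, ls_pair_sum hRθ (by rw [hK]; exact hl1)]
      refine Finset.sum_nonneg fun e _ => ?_
      split_ifs
      · rw [← ls_T_sq hRθ (by rw [hK]; exact hl1) (fun x => b x e), ← hRθ.Ex_const 0]
        exact hRθ.Ex_mono (fun _ => EG.const 0)
          (Nh.pow (Nh.fst (hRθ.eg_T (by rw [hK]; exact hl1) (Nh.snd fun x => b x e))) 2)
          fun z x => sq_nonneg _
      · rw [hRθ.pairEx_const (by rw [hK]; exact hl1)]
    linarith

/-- The variance of the free energy. -/
theorem ls_var (hm : Exponents K m) (hl : ∀ e, lev e ≤ K) (c : ℝ) {V : ℝ}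
    (hV : ∀ x, ∑ e, (if lev e = 0 then a x e ^ 2 else 0) ≤ V) :
    ∫ z, ((ls lev K m c a).lg 0 z - (ls lev K m c a).fe) ^ 2 ∂(gI ι) ≤ 2 * V :=
  (ls_regD hm hl c a).var_lg_zero fun _ x => hV x

end Vale.Agent.P146.Ub
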