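import Mathlib

/-!
(R), module AVG: averages of second differences over a grid (finite sums, no probability).
-/

open Finset

namespace Vale.Agent.P146.Ub

/-- The grid points `σ + k_j t`, `j ≤ K`. -/
noncomputable def gp {K M : ℕ} (σ t : ℝ) (k : Fin (K + 1) → Fin M) : ℕ → ℝ := fun j =>
  if h : j < K + 1 then σ + ((k ⟨j, h⟩ : ℕ) : ℝ) * t else 0

theorem gp_mem {K M : ℕ} {σ t : ℝ} (ht : 0 ≤ t) (k : Fin (K + 1) → Fin M) {j : ℕ} (hj : j ≤ K) :
    σ ≤ gp σ t k j ∧ gp σ t k j ≤ σ + M * t := by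
  have h : j < K + 1 := Nat.lt_succ_of_le hj
  unfold gp
  rw [dif_pos h]
  have h1 : (((k ⟨j, h⟩ : Fin M) : ℕ) : ℝ) ≤ M := by exact_mod_cast (k ⟨j, h⟩).2.le
  have h2 : (0 : ℝ) ≤ (((k ⟨j, h⟩ : Fin M) : ℕ) : ℝ) := Nat.cast_nonneg _
  have h3 := mul_nonneg h2 ht
  have h4 := mul_le_mul_of_nonneg_right h1 ht
  constructor
  · linarith
  · linarith

theorem gp_update {K M : ℕ} (σ t : ℝ) (k : Fin (K + 1) → Fin M) {j : ℕ} (hj : j < K + 1)
    (i : Fin M) :
    gp σ t (Function.update k ⟨j, hj⟩ i) = Function.update (gp σ t k) j (σ + ((i : ℕ) : ℝ) * t) := by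
  funext a
  by_cases h : a = j
  · subst h
    rw [Function.update_self]
    unfold gp
    rw [dif_pos hj, Function.update_self]
  · rw [Function.update_of_ne h]
    unfold gp
    by_cases ha : a < K + 1
    · rw [dif_pos ha, dif_pos ha, Function.update_of_ne]
      intro h'
      exact h (congrArg Fin.val h')
    · rw [dif_neg ha, dif_neg ha]

/-- Resampling one coordinate. -/
theorem avg_resample {I Y : Type} [Fintype I] [DecidableEq I] [Fintype Y] (j : I)
    (h : (I → Y) → ℝ) :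
    ∑ k : I → Y, ∑ i : Y, h (Function.update k j i) = (Fintype.card Y : ℝ) * ∑ k : I → Y, h k := by
  have e : ∑ k : I → Y, ∑ i : Y, h (Function.update k j i) = ∑ k : I → Y, ∑ _i : Y, h k := by
    rw [← Finset.sum_product', ← Finset.sum_product']
    refine Finset.sum_nbij' (fun q => (Function.update q.1 j q.2, q.1 j))
      (fun q => (Function.update q.1 j q.2, q.1 j)) ?_ ?_ ?_ ?_ ?_
    · rintro ⟨k, i⟩ -; simp
    · rintro ⟨k, i⟩ -; simp
    · rintro ⟨k, i⟩ -; simp
    · rintro ⟨k, i⟩ -; simp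
    · rintro ⟨k, i⟩ -; rfl
  rw [e]
  simp only [Finset.sum_const, Finset.card_univ, nsmul_eq_mul]
  rw [Finset.mul_sum]

/-- Telescoping of second differences. -/
theorem avg_tele (f : ℕ → ℝ) (M : ℕ) :
    ∑ i ∈ range M, (f (i + 2) + f i - 2 * f (i + 1)) = (f (M + 1) - f M) - (f 1 - f 0) := by
  induction M with
  | zero => simp
  | succ M ih => rw [sum_range_succ, ih]; ring

/-- The sum of the second differences over the grid telescopes. `A` has the tangents
`C j s ∈ [0, B s_j]` (no convexity other than this is used). -/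
theorem avg_dl {K M : ℕ} {σ t B : ℝ} (hM : 0 < M) (ht : 0 < t) (hσ : t ≤ σ) (hB : 0 ≤ B)
    {A : (ℕ → ℝ) → ℝ} {C : ℕ → (ℕ → ℝ) → ℝ}
    (hT : ∀ (s : ℕ → ℝ) (j : ℕ), j ≤ K → ∀ x, A s + x * C j s ≤ A (Function.update s j (s j + x)))
    (hC : ∀ s : ℕ → ℝ, (∀ l ≤ K, 0 ≤ s l) → ∀ j ≤ K, 0 ≤ C j s ∧ C j s ≤ B * s j)
    {j : ℕ} (hj : j ≤ K) :
    ∑ k : Fin (K + 1) → Fin M, (A (Function.update (gp σ t k) j (gp σ t k j + t)) +
        A (Function.update (gp σ t k) j (gp σ t k j - t)) - 2 * A (gp σ t k)) ≤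
      (M : ℝ) ^ K * (t * (B * (σ + M * t))) := by
  have hjK : j < K + 1 := Nat.lt_succ_of_le hj
  have hM' : (0 : ℝ) < M := by exact_mod_cast hM
  -- the sum along a line
  have line : ∀ k : Fin (K + 1) → Fin M,
      ∑ i : Fin M, (fun k : Fin (K + 1) → Fin M =>
        A (Function.update (gp σ t k) j (gp σ t k j + t)) +
        A (Function.update (gp σ t k) j (gp σ t k j - t)) - 2 * A (gp σ t k))
          (Function.update k ⟨j, hjK⟩ i) ≤ t * (B * (σ + M * t)) := by
    intro k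
    have e1 : ∀ i : Fin M, (fun k : Fin (K + 1) → Fin M =>
        A (Function.update (gp σ t k) j (gp σ t k j + t)) +
        A (Function.update (gp σ t k) j (gp σ t k j - t)) - 2 * A (gp σ t k))
          (Function.update k ⟨j, hjK⟩ i) =
        (fun i : ℕ => (fun i : ℕ => A (Function.update (gp σ t k) j (σ + (i : ℝ) * t - t))) (i + 2)
          + (fun i : ℕ => A (Function.update (gp σ t k) j (σ + (i : ℝ) * t - t))) i
          - 2 * (fun i : ℕ => A (Function.update (gp σ t k) j (σ + (i : ℝ) * t - t))) (i + 1))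
            (i : ℕ) := by
      intro i
      simp only [gp_update, Function.update_idem, Function.update_self]
      have e1 : σ + (((i : ℕ) + 2 : ℕ) : ℝ) * t - t = σ + ((i : ℕ) : ℝ) * t + t := by
        push_cast; ring
      have e2 : σ + (((i : ℕ) + 1 : ℕ) : ℝ) * t - t = σ + ((i : ℕ) : ℝ) * t := by
        push_cast; ring
      rw [e1, e2]
    rw [Finset.sum_congr rfl fun i _ => e1 i]
    rw [Fin.sum_univ_eq_sum_range (fun i : ℕ =>
      (fun i : ℕ => A (Function.update (gp σ t k) j (σ + (i : ℝ) * t - t))) (i + 2)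
          + (fun i : ℕ => A (Function.update (gp σ t k) j (σ + (i : ℝ) * t - t))) i
          - 2 * (fun i : ℕ => A (Function.update (gp σ t k) j (σ + (i : ℝ) * t - t))) (i + 1)) M,
      avg_tele (fun i : ℕ => A (Function.update (gp σ t k) j (σ + (i : ℝ) * t - t)))]
    have e3 : σ + ((M + 1 : ℕ) : ℝ) * t - t = σ + M * t := by push_cast; ring
    have e4 : σ + ((1 : ℕ) : ℝ) * t - t = σ := by push_cast; ring
    have e5 : σ + ((0 : ℕ) : ℝ) * t - t = σ - t := by push_cast; ring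
    simp only [e3, e4, e5]
    have hpos : ∀ x, 0 ≤ x → ∀ l ≤ K, 0 ≤ Function.update (gp σ t k) j x l := by
      intro x hx l hl
      by_cases h : l = j
      · subst h; rw [Function.update_self]; exact hx
      · rw [Function.update_of_ne h]
        have := (gp_mem (σ := σ) ht.le k hl).1
        linarith
    -- the upper end
    have h1 := hT (Function.update (gp σ t k) j (σ + M * t)) j hj (-t)
    rw [Function.update_idem, Function.update_self] at h1
    have e6 : σ + M * t + -t = σ + M * t - t := by ring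
    rw [e6] at h1
    have h0 : 0 ≤ σ + M * t := by
      have := mul_nonneg hM'.le ht.le
      linarith
    have h2 := (hC (Function.update (gp σ t k) j (σ + M * t)) (hpos _ h0) j hj).2
    rw [Function.update_self] at h2
    have h3 := mul_le_mul_of_nonneg_left h2 ht.le
    -- the lower end
    have h4 := hT (Function.update (gp σ t k) j (σ - t)) j hj t
    rw [Function.update_idem, Function.update_self] at h4
    have e7 : σ - t + t = σ := by ring
    rw [e7] at h4
    have h5 := (hC (Function.update (gp σ t k) j (σ - t)) (hpos _ (by linarith)) j hj).1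
    have h6 := mul_nonneg ht.le h5
    have e8 : σ + (M : ℝ) * t - t = σ + M * t - t := rfl
    linarith
  have h1 := avg_resample (Y := Fin M) (⟨j, hjK⟩ : Fin (K + 1))
    (fun k : Fin (K + 1) → Fin M => A (Function.update (gp σ t k) j (gp σ t k j + t)) +
        A (Function.update (gp σ t k) j (gp σ t k j - t)) - 2 * A (gp σ t k))
  have h2 := Finset.sum_le_sum fun k (_ : k ∈ (Finset.univ : Finset (Fin (K + 1) → Fin M))) =>
    line k
  rw [h1, Finset.sum_const, Finset.card_univ, nsmul_eq_mul, Fintype.card_pi_const,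
    Fintype.card_fin, Nat.cast_pow] at h2
  rw [pow_succ, mul_comm ((M : ℝ) ^ K) (M : ℝ), mul_assoc] at h2
  exact le_of_mul_le_mul_left h2 hM'

/-- Averages and square roots. -/
theorem avg_sqrt {ι : Type} [Fintype ι] [Nonempty ι] (f : ι → ℝ) :
    1 / (Fintype.card ι : ℝ) * ∑ i, √(f i) ≤ √(1 / (Fintype.card ι : ℝ) * ∑ i, |f i|) := by
  have hc : (0 : ℝ) < Fintype.card ι := by exact_mod_cast Fintype.card_pos
  refine Real.le_sqrt_of_sq_le ?_
  have h1 : (∑ i, √(f i)) ^ 2 ≤ (Fintype.card ι : ℝ) * ∑ i, √(f i) ^ 2 :=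
    sq_sum_le_card_mul_sum_sq
  have h2 : ∑ i, √(f i) ^ 2 ≤ ∑ i, |f i| := by
    refine Finset.sum_le_sum fun i _ => ?_
    rcases le_total 0 (f i) with h | h
    · rw [Real.sq_sqrt h]; exact le_abs_self _
    · rw [Real.sqrt_eq_zero_of_nonpos h]
      simp
  have h3 := h1.trans (mul_le_mul_of_nonneg_left h2 hc.le)
  rw [mul_pow]
  have h4 := mul_le_mul_of_nonneg_left h3 (sq_nonneg (1 / (Fintype.card ι : ℝ)))
  refine h4.trans (le_of_eq ?_)
  field_simp

/-- Sums of powers. -/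
theorem sum_rpow_quarter (n : ℕ) :
    ∑ N ∈ Finset.range n, ((N + 1 : ℕ) : ℝ) ^ (-(1 / 4) : ℝ) ≤ 2 * (n : ℝ) ^ (3 / 4 : ℝ) := by
  induction n with
  | zero => simp
  | succ n ih =>
    rw [sum_range_succ]
    have hy : (0 : ℝ) < ((n + 1 : ℕ) : ℝ) := by positivity
    have hn : (n : ℝ) = ((n + 1 : ℕ) : ℝ) - 1 := by push_cast; ring
    have h1 : (n : ℝ) ^ (3 / 4 : ℝ) ≤
        ((n + 1 : ℕ) : ℝ) ^ (3 / 4 : ℝ) - 3 / 4 * ((n + 1 : ℕ) : ℝ) ^ (-(1 / 4) : ℝ) := by
      have e : (n : ℝ) = ((n + 1 : ℕ) : ℝ) * (1 + -(1 / ((n + 1 : ℕ) : ℝ))) := by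
        rw [mul_add, mul_neg, mul_one_div_cancel hy.ne']
        push_cast; ring
      have h0 : -1 ≤ -(1 / ((n + 1 : ℕ) : ℝ)) := by
        have : 1 / ((n + 1 : ℕ) : ℝ) ≤ 1 := by
          rw [div_le_one hy]; push_cast; linarith [Nat.cast_nonneg (α := ℝ) n]
        linarith
      have h2 := _root_.rpow_one_add_le_one_add_mul_self h0 (p := 3 / 4) (by norm_num) (by norm_num)
      conv_lhs => rw [e]
      rw [Real.mul_rpow hy.le (by linarith)]
      have h3 := mul_le_mul_of_nonneg_left h2 (Real.rpow_nonneg hy.le (3 / 4 : ℝ))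
      refine h3.trans (le_of_eq ?_)
      have e2 : ((n + 1 : ℕ) : ℝ) ^ (-(1 / 4) : ℝ) =
          ((n + 1 : ℕ) : ℝ) ^ (3 / 4 : ℝ) * (1 / ((n + 1 : ℕ) : ℝ)) := by
        rw [show (-(1 / 4) : ℝ) = 3 / 4 - 1 by norm_num, Real.rpow_sub hy, Real.rpow_one]
        ring
      rw [e2]
      ring
    have h4 : 0 ≤ ((n + 1 : ℕ) : ℝ) ^ (-(1 / 4) : ℝ) := Real.rpow_nonneg hy.le _
    linarith

theorem sum_inv_sqrt (n : ℕ) :
    ∑ N ∈ Finset.range n, 1 / √((N + 1 : ℕ) : ℝ) ≤ 2 * √n := by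
  induction n with
  | zero => simp
  | succ n ih =>
    rw [sum_range_succ]
    have hy : (0 : ℝ) < ((n + 1 : ℕ) : ℝ) := by positivity
    obtain ⟨a, ha⟩ : ∃ a, a = √(n : ℝ) := ⟨_, rfl⟩
    obtain ⟨b, hb⟩ : ∃ b, b = √((n + 1 : ℕ) : ℝ) := ⟨_, rfl⟩
    have hb0 : 0 < b := by rw [hb]; exact Real.sqrt_pos.2 hy
    have ha2 : a ^ 2 = n := by rw [ha]; exact Real.sq_sqrt (Nat.cast_nonneg _)
    have hb2 : b ^ 2 = (n : ℝ) + 1 := by
      rw [hb, Real.sq_sqrt hy.le]; push_cast; ring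
    rw [← ha] at ih
    rw [← hb]
    have h1 : 1 / b ≤ 2 * b - 2 * a := by
      rw [div_le_iff₀ hb0]
      nlinarith [sq_nonneg (a - b)]
    linarith

end Vale.Agent.P146.Ub
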