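import Vale.Agent.P146.Ub.RDefs

/-!
(R), module REG, second half: covariances and disjointness of the coordinates.
-/

open MeasureTheory ProbabilityTheory Filter Topology

namespace Vale.Agent.P146.Ub

set_option linter.all false

open Vale.Agent.P157 Vale.Agent.P157.Lv Vale.Agent.P157.Lv.Sy
open Vale.Agent.P157.Par (Path Exponents incr)
open Vale.Agent.P146 (Pair)

variable {n K N : ℕ} {m s R : ℕ → ℝ} {β θ : ℝ}

theorem rc_spin_sq (x : Fin n → Bool) (i : Fin n) : spin x i * spin x i = 1 := by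
  unfold spin
  split_ifs <;> norm_num

theorem rc_sum_lt (hN : N ≤ n) (f : Fin n → ℝ) :
    ∑ i : Fin n, (if (i : ℕ) < N then f i else 0) = ∑ i : Fin N, f (Fin.castLE hN i) := by
  obtain ⟨k, rfl⟩ := Nat.exists_eq_add_of_le hN
  rw [Fin.sum_univ_add]
  have h1 : ∀ i : Fin N, (if ((Fin.castAdd k i : Fin (N + k)) : ℕ) < N then f (Fin.castAdd k i)
      else 0) = f (Fin.castLE hN i) := by
    intro i
    rw [if_pos (by simp)]
    rfl
  have h2 : ∀ i : Fin k, (if ((Fin.natAdd N i : Fin (N + k)) : ℕ) < N then f (Fin.natAdd N i)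
      else 0) = 0 := by
    intro i
    rw [if_neg (by simp)]
  simp only [h1, h2, Finset.sum_const_zero, add_zero]

theorem rc_pair (F : Fin n → Fin n → ℝ) :
    ∑ p : Pair n, F p.1.1 p.1.2 = ∑ i, ∑ j, if i < j then F i j else 0 := by
  rw [← Fintype.sum_prod_type' (f := fun i j : Fin n => if i < j then F i j else 0),
    ← Finset.sum_filter]
  symm
  exact Finset.sum_subtype _ (fun q => by simp) (fun q : Fin n × Fin n => F q.1 q.2)

theorem rc_pair_sq (U : Fin n → ℝ) :
    ∑ p : Pair n, U p.1.1 * U p.1.2 = ((∑ i, U i) ^ 2 - ∑ i, U i * U i) / 2 := by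
  rw [rc_pair fun i j => U i * U j]
  have h1 : (∑ i, U i) ^ 2 = ∑ i, ∑ j, U i * U j := by
    rw [sq, Finset.sum_mul_sum]
  have h2 : ∑ i, ∑ j, U i * U j = (∑ i, ∑ j, if i < j then U i * U j else 0) +
      (∑ i, ∑ j, if j < i then U i * U j else 0) + ∑ i, U i * U i := by
    rw [← Finset.sum_add_distrib, ← Finset.sum_add_distrib]
    apply Finset.sum_congr rfl
    intro i _
    have h3 : U i * U i = ∑ j, if i = j then U i * U j else 0 := by
      rw [Finset.sum_ite_eq]
      simp
    rw [h3, ← Finset.sum_add_distrib, ← Finset.sum_add_distrib]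
    apply Finset.sum_congr rfl
    intro j _
    rcases lt_trichotomy i j with h | h | h
    · rw [if_pos h, if_neg h.not_gt, if_neg h.ne]
      ring
    · subst h
      simp
    · rw [if_neg h.not_gt, if_pos h, if_neg h.ne']
      ring
  have h4 : (∑ i, ∑ j, if j < i then U i * U j else 0) =
      ∑ i, ∑ j, if i < j then U i * U j else 0 := by
    rw [Finset.sum_comm]
    apply Finset.sum_congr rfl
    intro i _
    apply Finset.sum_congr rfl
    intro j _
    rw [mul_comm]
  rw [h1, h2, h4]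
  ring

theorem rc_NRov (hN : N ≤ n) (x x' : Fin n → Bool) :
    (N : ℝ) * Rov (ph hN) x x' =
      ∑ i : Fin n, (if (i : ℕ) < N then spin x i * spin x' i else 0) := by
  rw [rc_sum_lt hN fun i => spin x i * spin x' i]
  unfold Rov ph
  rcases Nat.eq_zero_or_pos N with h | h
  · subst h
    simp
  · have : (N : ℝ) ≠ 0 := by positivity
    field_simp

theorem rc_NRov_self (hN : N ≤ n) (x : Fin n → Bool) : (N : ℝ) * Rov (ph hN) x x = N := by
  rw [rc_NRov hN x x, rc_sum_lt hN fun i => spin x i * spin x i]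
  simp only [rc_spin_sq]
  simp

theorem rc_sum_eq_cv (a b : (Fin n → Bool) → RI n K → ℝ) (x : Fin n → Bool) :
    ∑ e, a x e * b x e = cv rlev K a b x x := by
  unfold cv
  apply Finset.sum_congr rfl
  intro e _
  rw [if_pos (rlev_le e)]

theorem cv_dsk (hN : N ≤ n) (l : ℕ) (γ γ' : ℝ) (x x' : Fin n → Bool) :
    cv rlev l (dsk (K := K) N γ) (dsk N γ') x x' =
      γ * γ' * ((N * Rov (ph hN) x x') ^ 2 - N) / 2 := by
  unfold cv
  rw [Fintype.sum_sum_type]
  have h0 : ∑ e : (Fin (K + 1) × Fin n) ⊕ Fin (K + 1),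
      (if rlev (Sum.inr e : RI n K) ≤ l then dsk N γ x (Sum.inr e) * dsk N γ' x' (Sum.inr e)
        else 0) = 0 := by
    apply Finset.sum_eq_zero
    intro e _
    simp [dsk_a, dsk_b]
  rw [h0, add_zero]
  set U : Fin n → ℝ := fun i => if (i : ℕ) < N then spin x i * spin x' i else 0 with hU
  have h1 : ∀ p : Pair n, (if rlev (Sum.inl p : RI n K) ≤ l then
      dsk N γ x (Sum.inl p : RI n K) * dsk N γ' x' (Sum.inl p : RI n K) else 0) =
      γ * γ' * (U p.1.1 * U p.1.2) := by
    intro p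
    rw [if_pos (show rlev (Sum.inl p : RI n K) ≤ l from Nat.zero_le _)]
    have hp : (p.1.1 : ℕ) < p.1.2 := p.2
    simp only [dsk_a, dsk_b, hU]
    by_cases h : (p.1.2 : ℕ) < N
    · rw [if_pos h, if_pos h, if_pos (hp.trans h), if_pos h]
      ring
    · rw [if_neg h, if_neg h, if_neg h]
      ring
  simp only [h1]
  rw [← Finset.mul_sum, rc_pair_sq, rc_NRov hN x x']
  have h2 : ∑ i, U i * U i = N := by
    have : ∀ i, U i * U i = if (i : ℕ) < N then (1 : ℝ) else 0 := by
      intro i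
      simp only [hU]
      split_ifs
      · have e1 := rc_spin_sq x i
        have e2 := rc_spin_sq x' i
        calc spin x i * spin x' i * (spin x i * spin x' i) =
            (spin x i * spin x i) * (spin x' i * spin x' i) := by ring
          _ = 1 := by rw [e1, e2, one_mul]
      · ring
    simp only [this]
    rw [rc_sum_lt hN fun _ => (1 : ℝ)]
    simp
  rw [h2]
  ring

theorem sum_dsk (hN : N ≤ n) (γ γ' : ℝ) (x : Fin n → Bool) :
    ∑ e, dsk (K := K) N γ x e * dsk N γ' x e = γ * γ' * ((N : ℝ) ^ 2 - N) / 2 := by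
  rw [rc_sum_eq_cv (dsk (K := K) N γ) (dsk N γ') x, cv_dsk hN, rc_NRov_self hN]

theorem sp_eq (hN : N < n) (x : Fin n → Bool) : sp N x = spin x ⟨N, hN⟩ := by
  unfold sp
  rw [dif_pos hN]

theorem sp_sq (hN : N < n) (x : Fin n → Bool) : sp N x ^ 2 = 1 := by
  rw [sp_eq hN, sq, rc_spin_sq]

theorem cv_cav (hN : N < n) (l : ℕ) (γ : ℝ) (x x' : Fin n → Bool) :
    cv rlev l (cav (K := K) N γ) (cav N γ) x x' =
      γ ^ 2 * (sp N x * sp N x') * (N * Rov (ph hN.le) x x') := by
  unfold cv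
  rw [Fintype.sum_sum_type]
  have h0 : ∑ e : (Fin (K + 1) × Fin n) ⊕ Fin (K + 1),
      (if rlev (Sum.inr e : RI n K) ≤ l then cav N γ x (Sum.inr e) * cav N γ x' (Sum.inr e)
        else 0) = 0 := by
    apply Finset.sum_eq_zero
    intro e _
    simp [cav_a, cav_b]
  rw [h0, add_zero]
  set G : Fin n → Fin n → ℝ := fun i j => if (j : ℕ) = N then
    γ ^ 2 * ((spin x i * spin x' i) * (spin x j * spin x' j)) else 0 with hG
  have h1 : ∀ p : Pair n, (if rlev (Sum.inl p : RI n K) ≤ l then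
      cav N γ x (Sum.inl p : RI n K) * cav N γ x' (Sum.inl p : RI n K) else 0) =
      G p.1.1 p.1.2 := by
    intro p
    rw [if_pos (show rlev (Sum.inl p : RI n K) ≤ l from Nat.zero_le _)]
    simp only [cav_a, cav_b, hG]
    by_cases h : (p.1.2 : ℕ) = N
    · rw [if_pos h, if_pos h, if_pos h]
      ring
    · rw [if_neg h, if_neg h, if_neg h]
      ring
  simp only [h1]
  rw [rc_pair G, rc_NRov hN.le x x', Finset.mul_sum, sp_eq hN, sp_eq hN]
  apply Finset.sum_congr rfl
  intro i _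
  rw [Finset.sum_eq_single (⟨N, hN⟩ : Fin n)]
  · by_cases h : (i : ℕ) < N
    · rw [if_pos (show i < ⟨N, hN⟩ from h), if_pos h]
      simp only [hG]
      rw [if_pos trivial]
      ring
    · rw [if_neg (show ¬ i < ⟨N, hN⟩ from h), if_neg h, mul_zero]
  · intro j _ hj
    have hj' : (j : ℕ) ≠ N := fun h => hj (Fin.ext h)
    simp only [hG]
    rw [if_neg hj']
    simp
  · intro h
    exact absurd (Finset.mem_univ _) h

theorem sum_cav (hN : N < n) (γ : ℝ) (x : Fin n → Bool) :
    ∑ e, cav (K := K) N γ x e ^ 2 = γ ^ 2 * N := by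
  have h := rc_sum_eq_cv (cav (K := K) N γ) (cav N γ) x
  simp only [sq]
  rw [h, cv_cav hN, rc_NRov_self hN.le]
  have := sp_sq hN x
  rw [sq] at this
  rw [this]
  ring

theorem rc_incr_nonneg (hR : Path K R) {l : ℕ} (hl : l ≤ K) : 0 ≤ incr R l := by
  cases l with
  | zero => exact hR.1
  | succ l =>
    have := hR.2 l (by omega)
    show 0 ≤ R (l + 1) - R l
    linarith

theorem rc_sum_incr (R : ℕ → ℝ) (l : ℕ) : ∑ i ∈ Finset.range (l + 1), incr R i = R l := by
  induction l with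
  | zero => rw [Finset.sum_range_one]; rfl
  | succ l ih =>
    rw [Finset.sum_range_succ, ih]
    show R l + (R (l + 1) - R l) = R (l + 1)
    ring

theorem cv_tre (hN : N < n) {l : ℕ} (hl : l ≤ K) (γ : ℝ) (hR : Path K R) (x x' : Fin n → Bool) :
    cv rlev l (tre (K := K) N γ R) (tre N γ R) x x' = γ ^ 2 * (sp N x * sp N x') * R l := by
  unfold cv
  rw [Fintype.sum_sum_type, Fintype.sum_sum_type]
  have h0 : ∑ e : Pair n,
      (if rlev (Sum.inl e : RI n K) ≤ l then tre (K := K) N γ R x (Sum.inl e) *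
        tre (K := K) N γ R x' (Sum.inl e) else 0) = 0 := by
    apply Finset.sum_eq_zero
    intro e _
    simp [tre_a, tre_b, tre_c]
  have h1 : ∑ e : Fin (K + 1) × Fin n,
      (if rlev (Sum.inr (Sum.inl e) : RI n K) ≤ l then tre (K := K) N γ R x (Sum.inr (Sum.inl e)) *
        tre (K := K) N γ R x' (Sum.inr (Sum.inl e)) else 0) = 0 := by
    apply Finset.sum_eq_zero
    intro e _
    simp [tre_a, tre_b, tre_c]
  rw [h0, h1, zero_add, zero_add]
  have h2 : ∀ i : Fin (K + 1), (if rlev (Sum.inr (Sum.inr i) : RI n K) ≤ l then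
      tre N γ R x (Sum.inr (Sum.inr i) : RI n K) * tre N γ R x' (Sum.inr (Sum.inr i) : RI n K)
      else 0) = (fun i : ℕ => if i ≤ l then γ ^ 2 * (sp N x * sp N x') * incr R i else 0) i := by
    intro i
    by_cases h : (i : ℕ) ≤ l
    · rw [if_pos (show rlev (Sum.inr (Sum.inr i) : RI n K) ≤ l from h)]
      simp only [tre_a, tre_b, tre_c]
      rw [if_pos h]
      have hi := rc_incr_nonneg hR (h.trans hl)
      have hs := Real.mul_self_sqrt hi
      calc γ * √(incr R ↑i) * sp N x * (γ * √(incr R ↑i) * sp N x') =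
          γ ^ 2 * (sp N x * sp N x') * (√(incr R ↑i) * √(incr R ↑i)) := by ring
        _ = _ := by rw [hs]
    · rw [if_neg (show ¬ rlev (Sum.inr (Sum.inr i) : RI n K) ≤ l from h)]
      simp only
      rw [if_neg h]
  simp only [h2]
  rw [Fin.sum_univ_eq_sum_range
    (fun i : ℕ => if i ≤ l then γ ^ 2 * (sp N x * sp N x') * incr R i else 0) (K + 1),
    ← Finset.sum_filter]
  have h3 : (Finset.range (K + 1)).filter (fun i => i ≤ l) = Finset.range (l + 1) := by
    ext i
    simp only [Finset.mem_filter, Finset.mem_range]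
    omega
  rw [h3, ← Finset.mul_sum, rc_sum_incr]

theorem sum_tre (hN : N < n) (γ : ℝ) (hR : Path K R) (x : Fin n → Bool) :
    ∑ e, tre (K := K) N γ R x e ^ 2 = γ ^ 2 * R K := by
  have h := rc_sum_eq_cv (tre (K := K) N γ R) (tre N γ R) x
  simp only [sq]
  rw [h, cv_tre hN le_rfl γ hR]
  have := sp_sq hN x
  rw [sq] at this
  rw [this]
  ring

/-! ### Disjointness of the coordinates -/

theorem dj_dsk_fd (γ : ℝ) (M : ℕ) (e : RI n K) (x x' : Fin n → Bool) :
    dsk M γ x e * fd N s x' e = 0 := by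
  rcases e with p | p | l <;> simp [dsk_a, dsk_b, fd_a, fd_b, fd_c]

theorem dj_tre_cav (γ γ' : ℝ) (e : RI n K) (x x' : Fin n → Bool) :
    tre N γ R x e * cav N γ' x' e = 0 := by
  rcases e with p | p | l <;> simp [tre_a, tre_b, tre_c, cav_a, cav_b]

theorem dj_tre_sc (γ : ℝ) (e : RI n K) (x x' : Fin n → Bool) :
    tre N γ R x e * sc β N s x' e = 0 := by
  rcases e with p | p | l <;> simp [tre_a, tre_b, tre_c, sc, dsk_a, dsk_b, fd_a, fd_b, fd_c]

theorem dj_cav_sc (γ : ℝ) (e : RI n K) (x x' : Fin n → Bool) :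
    cav N γ x e * sc β N s x' e = 0 := by
  rcases e with p | p | l
  · by_cases h : (p.1.2 : ℕ) = N
    · have h2 : ¬ (p.1.2 : ℕ) < N := by omega
      simp [sc, dsk_a, dsk_b, fd_a, fd_b, fd_c, h2]
    · simp [cav_a, cav_b, h]
  · simp [cav_a, cav_b]
  · simp [cav_a, cav_b]

end Vale.Agent.P146.Ub
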