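import Vale.Agent.P146.Defs
import Vale.Agent.P146.Sk.HDefs
import Vale.Agent.P146.Ub.Lin
import Vale.Agent.P157.SpinDefs

/-!
(R): the SK systems with tree fields, all on the same Gaussian coordinates and the same
configurations `Fin n → Bool`. The stage `N ≤ n` uses the pairs `i < j < N` and the fields of the
sites `i < N`.
-/

open MeasureTheory ProbabilityTheory Filter Topology

namespace Vale.Agent.P146.Ub

open Vale.Agent.P157 Vale.Agent.P157.Lv Vale.Agent.P157.Lv.Sy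
open Vale.Agent.P157.Par (Path Exponents incr)
open Vale.Agent.P146 (Pair)

/-- The coordinates: the disorder, the fields and the cavity tree. -/
abbrev RI (n K : ℕ) : Type := Pair n ⊕ ((Fin (K + 1) × Fin n) ⊕ Fin (K + 1))

variable {n K : ℕ}

/-- The levels. -/
def rlev : RI n K → ℕ
  | Sum.inl _ => 0
  | Sum.inr (Sum.inl p) => p.1
  | Sum.inr (Sum.inr l) => l

/-- The spin at the site `N`. -/
noncomputable def sp (N : ℕ) (x : Fin n → Bool) : ℝ := if h : N < n then spin x ⟨N, h⟩ else 0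

/-- The disorder of the pairs `i < j < M`, with the factor `γ`. -/
noncomputable def dsk (M : ℕ) (γ : ℝ) : (Fin n → Bool) → RI n K → ℝ
  | x, Sum.inl p => if (p.1.2 : ℕ) < M then γ * (spin x p.1.1 * spin x p.1.2) else 0
  | _, Sum.inr _ => 0

/-- The fields of the sites `i < N`. -/
noncomputable def fd (N : ℕ) (s : ℕ → ℝ) : (Fin n → Bool) → RI n K → ℝ
  | _, Sum.inl _ => 0
  | x, Sum.inr (Sum.inl p) => if (p.2 : ℕ) < N then s p.1 * spin x p.2 else 0
  | _, Sum.inr (Sum.inr _) => 0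

/-- The field of the site `N`. -/
noncomputable def nfd (N : ℕ) (s : ℕ → ℝ) : (Fin n → Bool) → RI n K → ℝ
  | _, Sum.inl _ => 0
  | x, Sum.inr (Sum.inl p) => if (p.2 : ℕ) = N then s p.1 * spin x p.2 else 0
  | _, Sum.inr (Sum.inr _) => 0

/-- The disorder of the pairs `i < N`, `j = N`, with the factor `γ`. -/
noncomputable def cav (N : ℕ) (γ : ℝ) : (Fin n → Bool) → RI n K → ℝ
  | x, Sum.inl p => if (p.1.2 : ℕ) = N then γ * (spin x p.1.1 * spin x p.1.2) else 0
  | _, Sum.inr _ => 0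

/-- The tree field with the path `R` acting on the spin `N`, with the factor `γ`. -/
noncomputable def tre (N : ℕ) (γ : ℝ) (R : ℕ → ℝ) : (Fin n → Bool) → RI n K → ℝ
  | _, Sum.inl _ => 0
  | _, Sum.inr (Sum.inl _) => 0
  | x, Sum.inr (Sum.inr l) => γ * √(incr R l) * sp N x

section eqs

variable (M N : ℕ) (γ : ℝ) (s R : ℕ → ℝ) (x : Fin n → Bool)

theorem dsk_a (p : Pair n) : dsk (K := K) M γ x (Sum.inl p) =
    if (p.1.2 : ℕ) < M then γ * (spin x p.1.1 * spin x p.1.2) else 0 := rfl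

theorem dsk_b (e : (Fin (K + 1) × Fin n) ⊕ Fin (K + 1)) : dsk M γ x (Sum.inr e) = 0 := rfl

theorem fd_a (p : Pair n) : fd (K := K) N s x (Sum.inl p) = 0 := rfl

theorem fd_b (p : Fin (K + 1) × Fin n) : fd N s x (Sum.inr (Sum.inl p)) =
    if (p.2 : ℕ) < N then s p.1 * spin x p.2 else 0 := rfl

theorem fd_c (l : Fin (K + 1)) : fd N s x (Sum.inr (Sum.inr l)) = 0 := rfl

theorem nfd_a (p : Pair n) : nfd (K := K) N s x (Sum.inl p) = 0 := rfl

theorem nfd_b (p : Fin (K + 1) × Fin n) : nfd N s x (Sum.inr (Sum.inl p)) =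
    if (p.2 : ℕ) = N then s p.1 * spin x p.2 else 0 := rfl

theorem nfd_c (l : Fin (K + 1)) : nfd N s x (Sum.inr (Sum.inr l)) = 0 := rfl

theorem cav_a (p : Pair n) : cav (K := K) N γ x (Sum.inl p) =
    if (p.1.2 : ℕ) = N then γ * (spin x p.1.1 * spin x p.1.2) else 0 := rfl

theorem cav_b (e : (Fin (K + 1) × Fin n) ⊕ Fin (K + 1)) : cav N γ x (Sum.inr e) = 0 := rfl

theorem tre_a (p : Pair n) : tre (K := K) N γ R x (Sum.inl p) = 0 := rfl

theorem tre_b (p : Fin (K + 1) × Fin n) : tre N γ R x (Sum.inr (Sum.inl p)) = 0 := rfl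

theorem tre_c (l : Fin (K + 1)) : tre N γ R x (Sum.inr (Sum.inr l)) =
    γ * √(incr R l) * sp N x := rfl

end eqs

/-- The additive constant. -/
noncomputable def lc (n : ℕ) : ℝ := -(n * Real.log 2)

/-- The coefficients of the stage `N` with the fields `s`. -/
noncomputable def st (β : ℝ) (N : ℕ) (s : ℕ → ℝ) : (Fin n → Bool) → RI n K → ℝ :=
  dsk N (β / √N) + fd N s

/-- The same with the temperature of the stage `N + 1`. -/
noncomputable def sc (β : ℝ) (N : ℕ) (s : ℕ → ℝ) : (Fin n → Bool) → RI n K → ℝ :=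
  dsk N (β / √((N + 1 : ℕ) : ℝ)) + fd N s

/-- The systems. -/
noncomputable def SN (n : ℕ) (K : ℕ) (m : ℕ → ℝ) (β : ℝ) (N : ℕ) (s : ℕ → ℝ) :
    Sy (RI n K) (Fin n → Bool) := ls rlev K m (lc n) (st β N s)

/-- The coefficients of the interpolating systems. -/
noncomputable def tc (β : ℝ) (N : ℕ) (s R : ℕ → ℝ) (θ : ℝ) : (Fin n → Bool) → RI n K → ℝ :=
  ith (sc β N s) (tre N β R) (cav N (β / √((N + 1 : ℕ) : ℝ))) θ

noncomputable def SC (n : ℕ) (K : ℕ) (m : ℕ → ℝ) (β : ℝ) (N : ℕ) (s : ℕ → ℝ) :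
    Sy (RI n K) (Fin n → Bool) := ls rlev K m (lc n) (sc β N s)

/-- The interpolating systems: tree field at `θ = π / 2`, cavity field at `θ = 0`. -/
noncomputable def ST (n : ℕ) (K : ℕ) (m : ℕ → ℝ) (β : ℝ) (N : ℕ) (s R : ℕ → ℝ) (θ : ℝ) :
    Sy (RI n K) (Fin n → Bool) := ls rlev K m (lc n) (tc β N s R θ)

/-- The free energy of the stage `N`. -/
noncomputable def AN (n : ℕ) (K : ℕ) (m : ℕ → ℝ) (β : ℝ) (N : ℕ) (s : ℕ → ℝ) : ℝ :=
  (SN n K m β N s).fe

/-- The spins of the first `N` sites. -/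
noncomputable def ph {N : ℕ} (hN : N ≤ n) (x : Fin n → Bool) (i : Fin N) : ℝ :=
  spin x (Fin.castLE hN i)

/-- The coordinates of the fields. -/
def zc {N : ℕ} (hN : N ≤ n) (l : ℕ) (i : Fin N) : RI n K :=
  Sum.inr (Sum.inl (Fin.ofNat (K + 1) l, Fin.castLE hN i))

/-- The second differences of the free energy in the strength `j`. -/
noncomputable def dl (n : ℕ) (K : ℕ) (m : ℕ → ℝ) (β : ℝ) (N : ℕ) (s : ℕ → ℝ) (t : ℝ) (j : ℕ) : ℝ :=
  AN n K m β N (Function.update s j (s j + t)) + AN n K m β N (Function.update s j (s j - t)) -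
    2 * AN n K m β N s

/-- The error of the concentration of the field `j`. -/
noncomputable def ej (n : ℕ) (K : ℕ) (m : ℕ → ℝ) (β : ℝ) (N : ℕ) (s : ℕ → ℝ) (t : ℝ) (j : ℕ) : ℝ :=
  1 / (N * t) * (2 * dl n K m β N s t j + 3 * β ^ 2 + Real.log 2 / m 1 +
    3 * √(2 * ((2 * β ^ 2 + 4) * N)))

/-- The sum of the errors. -/
noncomputable def ee (n : ℕ) (K : ℕ) (m : ℕ → ℝ) (β : ℝ) (N : ℕ) (s : ℕ → ℝ) (t : ℝ) : ℝ :=
  ∑ j ∈ Finset.range (K + 1), ej n K m β N s t j

/-- The exponents `l / (K + 1)`. -/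
noncomputable def me (K : ℕ) : ℕ → ℝ := fun l => l / (K + 1 : ℕ)

/-- The total error of the overlaps as a function of `ε = ee`, at the strengths at least `σ`. -/
noncomputable def wE (K : ℕ) (σ ε : ℝ) : ℝ :=
  √(2 / (K + 1 : ℕ)) + 2 / (K + 1 : ℕ) + √(20 * ε * (K + 1 : ℕ) / σ) + 2 * (K + 1 : ℕ) * ε / σ

theorem me_exp (K : ℕ) : Exponents K (me K) := by
  refine ⟨by simp [me], ?_, fun l _ => ?_⟩
  · unfold me
    exact div_self (by positivity)
  · unfold me
    have : (0 : ℝ) < ((K + 1 : ℕ) : ℝ) := by positivity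
    push_cast
    gcongr
    linarith

theorem rlev_le (e : RI n K) : rlev e ≤ K := by
  rcases e with p | p | l
  · exact Nat.zero_le _
  · exact Nat.le_of_lt_succ p.1.2
  · exact Nat.le_of_lt_succ l.2

end Vale.Agent.P146.Ub
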