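import Vale.Agent.P146.Ub.RDefs
import Vale.Agent.P146.Ub.FactPre
import Vale.Agent.P157.LvBridge
import Vale.Agent.P157.LvField
import Vale.Agent.P146.Chi

/-!
(R), module FACT: dropping the field of the new spin, the factorization of the tree field, and the
free energy without fields.
-/

open MeasureTheory ProbabilityTheory Filter Topology

namespace Vale.Agent.P146.Ub

set_option linter.unusedSectionVars false

open Vale.Agent.P157 Vale.Agent.P157.Lv Vale.Agent.P157.Lv.Sy
open Vale.Agent.P157.Par (Path Exponents incr spinPart)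
open Vale.Agent.P146 (Pair freeEnergy disorder)

variable {n K N : ℕ} {m s R : ℕ → ℝ} {β : ℝ}

/-- The decomposition of the stage `N + 1`. -/
theorem st_succ (hN : N + 1 ≤ n) (β : ℝ) (s : ℕ → ℝ) :
    (st β (N + 1) s : (Fin n → Bool) → RI n K → ℝ) =
      (sc β N s + cav N (β / √((N + 1 : ℕ) : ℝ))) + nfd N s := by
  funext x e
  rcases e with p | p | l
  · simp only [st, sc, dsk_a, dsk_b, fd_a, fd_b, fd_c, cav_a, cav_b, nfd_a, nfd_b, nfd_c, Pi.add_apply]
    by_cases h1 : (p.1.2 : ℕ) < N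
    · rw [if_pos (Nat.lt_succ_of_lt h1), if_pos h1, if_neg h1.ne]
      ring
    · by_cases h2 : (p.1.2 : ℕ) = N
      · rw [if_pos (by omega), if_neg h1, if_pos h2]
        ring
      · rw [if_neg (by omega), if_neg h1, if_neg h2]
        ring
  · simp only [st, sc, dsk_a, dsk_b, fd_a, fd_b, fd_c, cav_a, cav_b, nfd_a, nfd_b, nfd_c, Pi.add_apply]
    by_cases h1 : (p.2 : ℕ) < N
    · rw [if_pos (Nat.lt_succ_of_lt h1), if_pos h1, if_neg h1.ne]
      ring
    · by_cases h2 : (p.2 : ℕ) = N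
      · rw [if_pos (by omega), if_neg h1, if_pos h2]
        ring
      · rw [if_neg (by omega), if_neg h1, if_neg h2]
        ring
  · simp only [st, sc, dsk_a, dsk_b, fd_a, fd_b, fd_c, cav_a, cav_b, nfd_a, nfd_b, nfd_c, Pi.add_apply]
    ring

/-- (G1) The field of the new spin can be dropped (`ls_le_add`). -/
theorem AN_succ_ge (hN : N + 1 ≤ n) (hm : Exponents K m) (β : ℝ) (s : ℕ → ℝ) :
    (ls rlev K m (lc n) (sc β N s + cav N (β / √((N + 1 : ℕ) : ℝ))) :
      Sy (RI n K) (Fin n → Bool)).fe ≤ AN n K m β (N + 1) s := by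
  unfold AN SN
  rw [st_succ hN]
  refine ls_le_add hm rlev_le (lc n) ?_
  intro e x x'
  rcases e with p | p | l
  · simp only [nfd_a, nfd_b, nfd_c, zero_mul]
  · simp only [nfd_a, nfd_b, nfd_c, sc, dsk_a, dsk_b, fd_a, fd_b, fd_c, cav_a, cav_b, Pi.add_apply]
    by_cases h : (p.2 : ℕ) = N
    · rw [if_pos h, if_neg (by omega)]
      ring
    · rw [if_neg h, zero_mul]
  · simp only [nfd_a, nfd_b, nfd_c, zero_mul]

/-- The coordinates of the cavity tree. -/
def yt (n K : ℕ) (l : ℕ) : RI n K := Sum.inr (Sum.inr (Fin.ofNat (K + 1) l))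

lemma rf_lin (a : RI n K → ℝ) (z : RI n K → ℝ) :
    lin a z = ∑ p, a (Sum.inl p) * z (Sum.inl p) +
      (∑ p, a (Sum.inr (Sum.inl p)) * z (Sum.inr (Sum.inl p)) +
        ∑ l, a (Sum.inr (Sum.inr l)) * z (Sum.inr (Sum.inr l))) := by
  unfold lin
  rw [Fintype.sum_sum_type, Fintype.sum_sum_type]

lemma rf_lin_add (a b : RI n K → ℝ) (z : RI n K → ℝ) : lin (a + b) z = lin a z + lin b z := by
  unfold lin
  rw [← Finset.sum_add_distrib]
  refine Finset.sum_congr rfl fun e _ => ?_
  rw [Pi.add_apply]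
  ring

lemma rf_lin_tre (hβ : 0 ≤ β) (R : ℕ → ℝ) (x : Fin n → Bool) (z : RI n K → ℝ) :
    lin (tre N β R x) z = sp N x * tf (yt n K) K (fun l => β ^ 2 * R l) z := by
  rw [tf_scale hβ, rf_lin]
  have e1 : ∑ p : Pair n, (tre N β R x : RI n K → ℝ) (Sum.inl p) * z (Sum.inl p) = 0 :=
    Finset.sum_eq_zero fun p _ => by simp only [tre_a, tre_b, tre_c, zero_mul]
  have e2 : ∑ p : Fin (K + 1) × Fin n, (tre N β R x : RI n K → ℝ) (Sum.inr (Sum.inl p)) *
      z (Sum.inr (Sum.inl p)) = 0 :=
    Finset.sum_eq_zero fun p _ => by simp only [tre_a, tre_b, tre_c, zero_mul]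
  rw [e1, e2, zero_add, zero_add]
  unfold tf
  rw [Finset.sum_range, Finset.mul_sum, Finset.mul_sum]
  refine Finset.sum_congr rfl fun l _ => ?_
  have e3 : yt n K (l : ℕ) = Sum.inr (Sum.inr l) := by
    unfold yt
    congr 2
    exact Fin.ext (Nat.mod_eq_of_lt l.2)
  rw [e3]
  simp only [tre_a, tre_b, tre_c]
  ring

/-- The flip of the spin at the site `N`. -/
def rflip (hN : N < n) : (Fin n → Bool) ≃ (Fin n → Bool) where
  toFun x := Function.update x ⟨N, hN⟩ (!(x ⟨N, hN⟩))
  invFun x := Function.update x ⟨N, hN⟩ (!(x ⟨N, hN⟩))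
  left_inv x := by simp
  right_inv x := by simp

lemma sp_pm (hN : N < n) (x : Fin n → Bool) : sp N x = 1 ∨ sp N x = -1 := by
  unfold sp spin
  rw [dif_pos hN]
  by_cases h : x ⟨N, hN⟩
  · left; simp [h]
  · right; simp [h]

lemma sp_flip (hN : N < n) (x : Fin n → Bool) : sp N (rflip hN x) = -sp N x := by
  unfold sp spin
  rw [dif_pos hN, dif_pos hN]
  by_cases h : x ⟨N, hN⟩
  · simp [rflip, h]
  · simp [rflip, h]

lemma spin_flip (hN : N < n) (x : Fin n → Bool) {i : Fin n} (hi : (i : ℕ) ≠ N) :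
    spin (rflip hN x) i = spin x i := by
  unfold spin
  have h : (rflip hN x) i = x i := by
    show Function.update x ⟨N, hN⟩ (!(x ⟨N, hN⟩)) i = x i
    rw [Function.update_of_ne]
    intro h
    exact hi (by rw [h])
  rw [h]

lemma sc_flip (hN : N < n) (β : ℝ) (s : ℕ → ℝ) (x : Fin n → Bool) :
    (sc β N s (rflip hN x) : RI n K → ℝ) = sc β N s x := by
  funext e
  rcases e with p | p | l
  · simp only [sc, dsk_a, dsk_b, fd_a, fd_b, fd_c, Pi.add_apply]
    by_cases h : (p.1.2 : ℕ) < N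
    · have h1 : (p.1.1 : ℕ) < (p.1.2 : ℕ) := p.2
      rw [if_pos h, if_pos h, spin_flip hN x (by omega), spin_flip hN x (by omega)]
    · rw [if_neg h, if_neg h]
  · simp only [sc, dsk_a, dsk_b, fd_a, fd_b, fd_c, Pi.add_apply]
    by_cases h : (p.2 : ℕ) < N
    · rw [if_pos h, if_pos h, spin_flip hN x (by omega)]
    · rw [if_neg h, if_neg h]
  · simp only [sc, dsk_a, dsk_b, fd_a, fd_b, fd_c, Pi.add_apply]

/-- (G2) The tree field (flip of the spin `N`: the energy `sc β N s` does not depend on it, so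
`top` does not change when `x_N u` is replaced by `log cosh u`; then `fe_add_tree` with
`F x = log cosh (β x)` and the scaling of the cascade). -/
theorem fe_tre (hN : N < n) (hm : Exponents K m) (hβ : 0 ≤ β) (hR : Path K R) (s : ℕ → ℝ) :
    (ls rlev K m (lc n) (sc β N s + tre N β R) : Sy (RI n K) (Fin n → Bool)).fe =
      (SC n K m β N s).fe + (spinPart K m (fun l => β ^ 2 * R l) + β ^ 2 * R K / 2) := by
  have hS := ls_regD (X := Fin n → Bool) hm (rlev_le (n := n)) (lc n) (sc β N s)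
  have hR' : Path K (fun l => β ^ 2 * R l) :=
    ⟨mul_nonneg (sq_nonneg β) hR.1, fun l hl => mul_le_mul_of_nonneg_left (hR.2 l hl) (sq_nonneg β)⟩
  have hy : ∀ l ≤ K, (rlev (yt n K l) : ℕ) = l := by
    intro l hl
    show ((Fin.ofNat (K + 1) l : Fin (K + 1)) : ℕ) = l
    exact Nat.mod_eq_of_lt (by omega)
  have hD : ∀ l ≤ K, ∀ (z : RI n K → ℝ) (x : Fin n → Bool), sc β N s x (yt n K l) = 0 := by
    intro l _ z x
    simp only [yt, sc, dsk_a, dsk_b, fd_a, fd_b, fd_c, Pi.add_apply, add_zero]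
  have hH : ∀ z x, (ls rlev K m (lc n) (sc β N s) : Sy (RI n K) (Fin n → Bool)).H z (rflip hN x) =
      (ls rlev K m (lc n) (sc β N s) : Sy (RI n K) (Fin n → Bool)).H z x := by
    intro z x
    show lin (sc β N s (rflip hN x)) z + lc n = lin (sc β N s x) z + lc n
    rw [sc_flip]
  have key := fe_spin_tree hS (rflip hN) (sp N) (sp_pm hN) (sp_flip hN) hH (y := yt n K) hy hD hR'
  have e : (ls rlev K m (lc n) (sc β N s + tre N β R) : Sy (RI n K) (Fin n → Bool)) =
      (ls rlev K m (lc n) (sc β N s) : Sy (RI n K) (Fin n → Bool)).wH (fun z x =>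
        (ls rlev K m (lc n) (sc β N s) : Sy (RI n K) (Fin n → Bool)).H z x +
          sp N x * tf (yt n K) K (fun l => β ^ 2 * R l) z) := by
    have e1 : (fun (z : RI n K → ℝ) (x : Fin n → Bool) =>
        lin ((sc β N s + tre N β R : (Fin n → Bool) → RI n K → ℝ) x) z + lc n) =
        fun z x => lin (sc β N s x) z + lc n +
          sp N x * tf (yt n K) K (fun l => β ^ 2 * R l) z := by
      funext z x
      rw [Pi.add_apply, rf_lin_add, rf_lin_tre hβ]
      ring
    show (⟨rlev, K, m, fun (z : RI n K → ℝ) (x : Fin n → Bool) =>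
      lin ((sc β N s + tre N β R : (Fin n → Bool) → RI n K → ℝ) x) z + lc n⟩ :
        Sy (RI n K) (Fin n → Bool)) = _
    rw [e1]
    rfl
  rw [e]
  exact key

/-- The marginal of the first coordinates. -/
lemma rf_marginal {A B : Type} [Fintype A] [Fintype B] (f : (A → ℝ) → ℝ)
    (hf : AEStronglyMeasurable f (Measure.pi fun _ : A => gaussianReal 0 1)) :
    ∫ z, f (fun p => z (Sum.inl p)) ∂(gI (A ⊕ B)) =
      ∫ g, f g ∂(Measure.pi fun _ : A => gaussianReal 0 1) := by
  have h1 := measurePreserving_sumPiEquivProdPi (ι := A) (ι' := B)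
    (X := fun _ => ℝ) (fun _ => gaussianReal 0 1)
  have h2 : MeasurePreserving (Prod.fst : (A → ℝ) × (B → ℝ) → (A → ℝ))
      ((Measure.pi fun _ : A => gaussianReal 0 1).prod (Measure.pi fun _ : B => gaussianReal 0 1))
      (Measure.pi fun _ : A => gaussianReal 0 1) := measurePreserving_fst
  have h3 := h2.comp h1
  have h4 : (Prod.fst ∘ (MeasurableEquiv.sumPiEquivProdPi fun _ : A ⊕ B => ℝ)) =
      fun (z : A ⊕ B → ℝ) (p : A) => z (Sum.inl p) := rfl
  rw [h4] at h3
  rw [← h3.map_eq, integral_map h3.measurable.aemeasurable (by rw [h3.map_eq]; exact hf)]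

/-- The signs as units. -/
def bu : Bool ≃ ℤˣ where
  toFun b := if b then 1 else -1
  invFun u := decide (u = 1)
  left_inv b := by cases b <;> simp
  right_inv u := by
    rcases Int.units_eq_one_or u with h | h
    · simp [h]
    · simp [h]

lemma bu_cast (b : Bool) : (((bu b : ℤˣ) : ℤ) : ℝ) = if b then 1 else -1 := by
  cases b <;> simp [bu]

/-- (K) Without fields: the mean free energy of the problem. -/
theorem AN_zero (hn : 0 < n) (hm : Exponents K m) (β : ℝ) :
    AN n K m β n (fun _ => 0) = ∫ g, freeEnergy n β g ∂(disorder n) - n * Real.log 2 := by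
  have hS := ls_regD (X := Fin n → Bool) hm (rlev_le (n := n)) (lc n)
    (st β n (fun _ => 0))
  have hst : ∀ (x : Fin n → Bool) (z : RI n K → ℝ), lin (st β n (fun _ => 0) x) z =
      ∑ p : Pair n, β / √n * (spin x p.1.1 * spin x p.1.2) * z (Sum.inl p) := by
    intro x z
    rw [rf_lin]
    have e1 : ∑ p : Fin (K + 1) × Fin n, st β n (fun _ => 0) x (Sum.inr (Sum.inl p)) *
        z (Sum.inr (Sum.inl p)) = 0 :=
      Finset.sum_eq_zero fun p _ => by
        simp only [st, dsk_a, dsk_b, fd_a, fd_b, fd_c, Pi.add_apply, zero_mul, ite_self, add_zero]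
    have e2 : ∑ l : Fin (K + 1), st β n (fun _ => 0) x (Sum.inr (Sum.inr l)) *
        z (Sum.inr (Sum.inr l)) = 0 :=
      Finset.sum_eq_zero fun p _ => by
        simp only [st, dsk_a, dsk_b, fd_a, fd_b, fd_c, Pi.add_apply, zero_mul, add_zero]
    rw [e1, e2, add_zero, add_zero]
    refine Finset.sum_congr rfl fun p _ => ?_
    simp only [st, dsk_a, dsk_b, fd_a, fd_b, fd_c, Pi.add_apply, add_zero]
    rw [if_pos p.1.2.2]
  have htop : ∀ z : RI n K → ℝ, (SN n K m β n (fun _ => 0)).top z =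
      freeEnergy n β (fun p => z (Sum.inl p)) - n * Real.log 2 := by
    intro z
    show Real.log (∑ x : Fin n → Bool, Real.exp (lin (st β n (fun _ => 0) x) z + lc n)) = _
    have e1 : ∀ x : Fin n → Bool, Real.exp (lin (st β n (fun _ => 0) x) z + lc n) =
        Real.exp (lin (st β n (fun _ => 0) x) z) * Real.exp (lc n) := fun x => Real.exp_add _ _
    simp only [e1]
    rw [← Finset.sum_mul, Real.log_mul (Finset.sum_pos (fun x _ => Real.exp_pos _)
      Finset.univ_nonempty).ne' (Real.exp_pos _).ne', Real.log_exp]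
    have e2 : ∑ x : Fin n → Bool, Real.exp (lin (st β n (fun _ => 0) x) z) =
        partitionFn n β (fun p => z (Sum.inl p)) := by
      unfold partitionFn
      rw [← Equiv.sum_comp (Equiv.arrowCongr (Equiv.refl (Fin n)) bu)]
      refine Finset.sum_congr rfl fun x _ => ?_
      congr 1
      rw [hst]
      unfold hamiltonian
      rw [← mul_assoc, Finset.mul_sum]
      refine Finset.sum_congr rfl fun p _ => ?_
      have e3 : ∀ i : Fin n, (((Equiv.arrowCongr (Equiv.refl (Fin n)) bu x i : ℤˣ) : ℤ) : ℝ) =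
          spin x i := by
        intro i
        have e4 : Equiv.arrowCongr (Equiv.refl (Fin n)) bu x i = bu (x i) := rfl
        rw [e4, bu_cast]
        rfl
      rw [e3, e3]
      ring
    rw [e2]
    unfold freeEnergy lc
    ring
  have hdep : ∀ x : Fin n → Bool, Dep (SN n K m β n (fun _ => 0)).lev 0
      fun z => (SN n K m β n (fun _ => 0)).H z x := by
    intro x z w
    show lin (st β n (fun _ => 0) x) (mix rlev 0 z w) + lc n = lin (st β n (fun _ => 0) x) z + lc n
    rw [hst, hst]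
    rfl
  have h1 : AN n K m β n (fun _ => 0) = ∫ z, (SN n K m β n (fun _ => 0)).top z ∂(gI (RI n K)) :=
    fe_level_zero hS.toReg hdep
  rw [h1]
  simp only [htop]
  have hd := (freeEnergy_dom n β)
  have h2 : Integrable (fun z : RI n K → ℝ => freeEnergy n β (fun p => z (Sum.inl p)))
      (gI (RI n K)) := by
    have h3 := measurePreserving_sumPiEquivProdPi (ι := Pair n)
      (ι' := (Fin (K + 1) × Fin n) ⊕ Fin (K + 1)) (X := fun _ => ℝ) (fun _ => gaussianReal 0 1)
    have h4 : MeasurePreserving (Prod.fst : (Pair n → ℝ) × (((Fin (K + 1) × Fin n) ⊕ Fin (K + 1)) → ℝ)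
        → (Pair n → ℝ)) _ _ := measurePreserving_fst (μ := Measure.pi fun _ : Pair n => gaussianReal 0 1)
        (ν := Measure.pi fun _ : (Fin (K + 1) × Fin n) ⊕ Fin (K + 1) => gaussianReal 0 1)
    exact (h4.comp h3).integrable_comp_of_integrable hd.integrable
  rw [integral_sub h2 (integrable_const _)]
  congr 1
  · exact rf_marginal (freeEnergy n β) hd.cont.aestronglyMeasurable
  · simp

end Vale.Agent.P146.Ub
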