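import Vale.Agent.P146.Ub.RStep
import Vale.Agent.P146.Ub.RAvg

/-!
(R): the lower bound for the mean free energy with a polynomial rate.
-/

open MeasureTheory ProbabilityTheory Filter Topology

namespace Vale.Agent.P146.Ub

set_option linter.unusedSectionVars false

open Vale.Agent.P157 Vale.Agent.P157.Lv Vale.Agent.P157.Lv.Sy
open Vale.Agent.P157.Par (Path Exponents incr spinPart)
open Vale.Agent.P146 (Pair freeEnergy disorder)
open Vale.Agent.P146.Sk (PSK)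

theorem rr_rec_zero {ι X : Type} [Fintype ι] [Fintype X] (S : Sy ι X) (h : S.top = fun _ => 0) :
    ∀ d l, S.rec' l d = fun _ => 0 := by
  intro d
  induction d with
  | zero => intro l; rw [Sy.rec'.eq_1]; exact h
  | succ d ih =>
    intro l
    rw [Sy.rec'.eq_2, ih]
    funext z
    simp [Sy.stp, J_const]

theorem rr_fe_zero {n K : ℕ} (m : ℕ → ℝ) :
    (ls rlev K m (lc n) (fun _ _ => 0) : Sy (RI n K) (Fin n → Bool)).fe = 0 := by
  have h : (ls rlev K m (lc n) (fun _ _ => 0) : Sy (RI n K) (Fin n → Bool)).top =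
      fun _ => 0 := by
    funext z
    simp only [Sy.top, ls, lin, zero_mul, Finset.sum_const_zero, zero_add, Finset.sum_const, Finset.card_univ, nsmul_eq_mul, lc]
    rw [Real.log_mul (by positivity) (Real.exp_pos _).ne', Real.log_exp]
    simp
  unfold Sy.fe Sy.lg
  rw [rr_rec_zero _ h]
  simp

theorem rr_nonneg {n K : ℕ} {m : ℕ → ℝ} (hm : Exponents K m) (β : ℝ) (N : ℕ) (s : ℕ → ℝ) :
    0 ≤ AN n K m β N s := by
  have h := ls_le_add (a := fun _ _ => 0) (b := st β N s) hm (rlev_le (n := n)) (lc n)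
    (fun e x x' => mul_zero _)
  rw [rr_fe_zero] at h
  have e : ((fun _ _ => 0) + st β N s : (Fin n → Bool) → RI n K → ℝ) = st β N s := by
    funext x e
    simp
  rw [e] at h
  exact h

theorem rr_le {n K : ℕ} {m : ℕ → ℝ} (hm : Exponents K m) (β : ℝ) (s : ℕ → ℝ) :
    AN n K m β n s ≤ AN n K m β n (fun _ => 0) +
      n * (∑ j ∈ Finset.range (K + 1), s j ^ 2) / 2 := by
  have h := ls_add_le (a := dsk n (β / √n)) (b := fd n s) hm (rlev_le (n := n)) (lc n)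
    (fun e x x' => by
      have := dj_dsk_fd (s := s) (N := n) (β / √n) n e x' x
      rw [mul_comm]; exact this)
    (V := n * (∑ j ∈ Finset.range (K + 1), s j ^ 2)) (fun x => by
      rw [Fintype.sum_sum_type, Fintype.sum_sum_type]
      simp only [fd_a, fd_b, fd_c]
      have h1 : ∀ p : Fin (K + 1) × Fin n,
          (if (p.2 : ℕ) < n then s p.1 * spin x p.2 else 0) ^ 2 = s p.1 ^ 2 := by
        intro p
        rw [if_pos p.2.2, mul_pow]
        have : spin x p.2 ^ 2 = 1 := by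
          unfold spin; split_ifs <;> norm_num
        rw [this, mul_one]
      rw [Finset.sum_congr rfl fun p _ => h1 p, Fintype.sum_prod_type]
      simp only [Finset.sum_const, Finset.card_univ, Fintype.card_fin, nsmul_eq_mul]
      rw [← Finset.mul_sum, Finset.sum_range]
      simp)
  have e1 : (dsk n (β / √n) : (Fin n → Bool) → RI n K → ℝ) = st β n (fun _ => 0) := by
    funext x e
    unfold st
    rcases e with p | p | l
    · simp [fd_a, fd_b, fd_c]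
    · simp [fd_a, fd_b, fd_c]
    · simp [fd_a, fd_b, fd_c]
  have e2 : (dsk n (β / √n) + fd n s : (Fin n → Bool) → RI n K → ℝ) = st β n s := rfl
  rw [e2, e1] at h
  exact h

theorem rr_dl_nonneg {n K N : ℕ} {m : ℕ → ℝ} {β : ℝ} (hN : N ≤ n) (h0 : 0 < N)
    (hm : Exponents K m) (s : ℕ → ℝ) (t : ℝ) {j : ℕ} (hj : j ≤ K) :
    0 ≤ dl n K m β N s t j := by
  have h1 := AN_tangent (β := β) hN h0 hm s hj t
  have h2 := AN_tangent (β := β) hN h0 hm s hj (-t)
  rw [← sub_eq_add_neg] at h2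
  unfold dl
  linarith

/-- The point of the grid. -/
theorem rr_gp {K M : ℕ} {σ t : ℝ} (ht : 0 ≤ t) (k : Fin (K + 1) → Fin M) {j : ℕ} (hj : j ≤ K) :
    σ ≤ gp σ t k j ∧ gp σ t k j ≤ σ + M * t := gp_mem ht k hj

theorem rr_ej_sum {n K N : ℕ} {m : ℕ → ℝ} {β : ℝ} (s : ℕ → ℝ) (t : ℝ) :
    ee n K m β N s t = 1 / (N * t) * (2 * ∑ j ∈ Finset.range (K + 1), dl n K m β N s t j +
      ((K + 1 : ℕ) : ℝ) * (3 * β ^ 2 + Real.log 2 / m 1 + 3 * √(2 * ((2 * β ^ 2 + 4) * N)))) := by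
  unfold ee ej
  rw [← Finset.mul_sum]
  congr 1
  have : ∀ j ∈ Finset.range (K + 1), 2 * dl n K m β N s t j + 3 * β ^ 2 + Real.log 2 / m 1 +
      3 * √(2 * ((2 * β ^ 2 + 4) * N)) = 2 * dl n K m β N s t j +
        (3 * β ^ 2 + Real.log 2 / m 1 + 3 * √(2 * ((2 * β ^ 2 + 4) * N))) := fun j _ => by ring
  rw [Finset.sum_congr rfl this, Finset.sum_add_distrib, Finset.sum_const, Finset.card_range,
    nsmul_eq_mul, ← Finset.mul_sum]

/-- The average of the second differences over the grid. -/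
theorem rr_avg_dl {n K N M : ℕ} {m : ℕ → ℝ} {β : ℝ} (hN : N ≤ n) (h0 : 0 < N)
    (hm : Exponents K m) (hM : 0 < M) {σ t : ℝ} (ht : 0 < t) (hσ : t ≤ σ) :
    ∑ k : Fin (K + 1) → Fin M, ∑ j ∈ Finset.range (K + 1), dl n K m β N (gp σ t k) t j ≤
      ((K + 1 : ℕ) : ℝ) * ((M : ℝ) ^ K * (t * (N * (σ + M * t)))) := by
  rw [Finset.sum_comm]
  have h1 : ∀ j ∈ Finset.range (K + 1),
      ∑ k : Fin (K + 1) → Fin M, dl n K m β N (gp σ t k) t j ≤
        (M : ℝ) ^ K * (t * (N * (σ + M * t))) := by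
    intro j hj
    rw [Finset.mem_range] at hj
    exact avg_dl (K := K) (A := AN n K m β N)
      (C := fun j s => (SN n K m β N s).Ex (gx hN j)) hM ht hσ (Nat.cast_nonneg N)
      (fun s j hj x => AN_tangent hN h0 hm s hj x)
      (fun s hs j hj => AN_slope hN h0 hm hs hj) (Nat.le_of_lt_succ hj)
  refine (Finset.sum_le_sum h1).trans (le_of_eq ?_)
  rw [Finset.sum_const, Finset.card_range, nsmul_eq_mul]

/-- The lower bound is at most `β² / 4`. -/
theorem rr_Lb {β Lb : ℝ}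
    (hLb : ∀ (K : ℕ) (m q : ℕ → ℝ), Exponents K m → Path K q → q K ≤ 1 → Lb ≤ PSK β K m q) :
    Lb ≤ β ^ 2 / 4 := by
  have h := hLb 0 (fun l => (l : ℝ)) (fun _ => 0) ⟨by simp, by simp, fun l hl => by simp⟩
    ⟨le_rfl, fun l hl => le_rfl⟩ zero_le_one
  refine h.trans (le_of_eq ?_)
  unfold PSK spinPart
  simp [Par.cascade]

/-- The constant of the average error. -/
noncomputable def rrE (β : ℝ) : ℝ := 2 + 2 * (3 * β ^ 2 + 1) + 6 * √(2 * (2 * β ^ 2 + 4))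

theorem rrE_nonneg (β : ℝ) : 0 ≤ rrE β := by unfold rrE; positivity

/-- The average over a finite type. -/
noncomputable def rAv {G : Type} [Fintype G] (f : G → ℝ) : ℝ :=
  1 / (Fintype.card G : ℝ) * ∑ k, f k

section Av

variable {G : Type} [Fintype G] [Nonempty G]

theorem rAv_mono {f g : G → ℝ} (h : ∀ k, f k ≤ g k) : rAv f ≤ rAv g := by
  unfold rAv
  exact mul_le_mul_of_nonneg_left (Finset.sum_le_sum fun k _ => h k) (by positivity)

theorem rAv_const (c : ℝ) : rAv (fun _ : G => c) = c := by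
  have hc : (Fintype.card G : ℝ) ≠ 0 := by exact_mod_cast Fintype.card_ne_zero
  unfold rAv
  rw [Finset.sum_const, Finset.card_univ, nsmul_eq_mul]
  field_simp

theorem rAv_add (f g : G → ℝ) : rAv (fun k => f k + g k) = rAv f + rAv g := by
  unfold rAv
  rw [Finset.sum_add_distrib, mul_add]

theorem rAv_sub (f g : G → ℝ) : rAv (fun k => f k - g k) = rAv f - rAv g := by
  unfold rAv
  rw [Finset.sum_sub_distrib, mul_sub]

theorem rAv_mul (c : ℝ) (f : G → ℝ) : rAv (fun k => c * f k) = c * rAv f := by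
  unfold rAv
  rw [← Finset.mul_sum]
  ring

theorem rAv_sqrt {f : G → ℝ} (h : ∀ k, 0 ≤ f k) : rAv (fun k => √(f k)) ≤ √(rAv f) := by
  refine (avg_sqrt f).trans (le_of_eq ?_)
  unfold rAv
  congr 2
  exact Finset.sum_congr rfl fun k _ => abs_of_nonneg (h k)

end Av

/-- The average of the errors over the grid. -/
theorem rr_avg_ee {n K N : ℕ} {β : ℝ} (hN : N ≤ n) (hNK : ((K + 1 : ℕ) : ℝ) ^ 16 ≤ N) :
    rAv (fun k : Fin (K + 1) → Fin ((K + 1) ^ 3) => ee n K (me K) β N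
      (gp (1 / (2 * ((K + 1 : ℕ) : ℝ))) (1 / (2 * ((K + 1 : ℕ) : ℝ) ^ 4)) k)
      (1 / (2 * ((K + 1 : ℕ) : ℝ) ^ 4))) ≤ rrE β / ((K + 1 : ℕ) : ℝ) ^ 3 := by
  obtain ⟨l, hl⟩ : ∃ l : ℝ, l = ((K + 1 : ℕ) : ℝ) := ⟨_, rfl⟩
  have hl1 : 1 ≤ l := by rw [hl]; push_cast; linarith [Nat.cast_nonneg (α := ℝ) K]
  have hl0 : 0 < l := by linarith
  have hM : 0 < (K + 1) ^ 3 := by positivity
  have hMl : (((K + 1) ^ 3 : ℕ) : ℝ) = l ^ 3 := by rw [hl]; push_cast; ring
  rw [← hl] at hNK ⊢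
  have hN0 : (0 : ℝ) < N := lt_of_lt_of_le (by positivity) hNK
  have hN0' : 0 < N := by exact_mod_cast hN0
  obtain ⟨t, ht⟩ : ∃ t : ℝ, t = 1 / (2 * l ^ 4) := ⟨_, rfl⟩
  have ht0 : 0 < t := by rw [ht]; positivity
  have htσ : t ≤ 1 / (2 * l) := by
    rw [ht]
    apply one_div_le_one_div_of_le (by positivity)
    have : l ≤ l ^ 4 := le_self_pow₀ hl1 (by norm_num)
    linarith
  rw [← ht]
  have h1 := rr_avg_dl (n := n) (K := K) (N := N) (β := β) hN hN0' (me_exp K) hM ht0 htσ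
  rw [hMl, ← hl] at h1
  have e1 : 1 / (2 * l) + l ^ 3 * t = 1 / l := by
    rw [ht]; field_simp; ring
  rw [e1] at h1
  obtain ⟨c, hc⟩ : ∃ c : ℝ, c = √(2 * (2 * β ^ 2 + 4)) := ⟨_, rfl⟩
  have hc0 : 0 ≤ c := by rw [hc]; exact Real.sqrt_nonneg _
  have e2 : √(2 * ((2 * β ^ 2 + 4) * N)) = c * √N := by
    rw [hc, ← Real.sqrt_mul (by positivity)]
    congr 1; ring
  have e3 : Real.log 2 / me K 1 = l * Real.log 2 := by
    unfold me
    rw [← hl]
    simp
    ring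
  have hcard : (Fintype.card (Fin (K + 1) → Fin ((K + 1) ^ 3)) : ℝ) = (l ^ 3) ^ (K + 1) := by
    rw [Fintype.card_pi_const, Fintype.card_fin]
    rw [Nat.cast_pow, hMl]
  have h2 : ∀ k : Fin (K + 1) → Fin ((K + 1) ^ 3), ee n K (me K) β N (gp (1 / (2 * l)) t k) t =
      1 / (N * t) * (2 * ∑ j ∈ Finset.range (K + 1),
        dl n K (me K) β N (gp (1 / (2 * l)) t k) t j) +
      1 / (N * t) * (l * (3 * β ^ 2 + l * Real.log 2 + 3 * (c * √N))) := by
    intro k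
    rw [rr_ej_sum, e2, e3, ← hl]
    ring
  have : Nonempty (Fin (K + 1) → Fin ((K + 1) ^ 3)) := ⟨fun _ => ⟨0, hM⟩⟩
  simp only [h2]
  rw [rAv_add, rAv_mul, rAv_mul, rAv_const]
  have h3 : rAv (fun k : Fin (K + 1) → Fin ((K + 1) ^ 3) => ∑ j ∈ Finset.range (K + 1),
      dl n K (me K) β N (gp (1 / (2 * l)) t k) t j) ≤ t * N / l ^ 3 := by
    unfold rAv
    rw [hcard]
    have h4 := mul_le_mul_of_nonneg_left h1
      (by positivity : (0 : ℝ) ≤ 1 / (l ^ 3) ^ (K + 1))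
    refine h4.trans (le_of_eq ?_)
    rw [pow_succ]
    field_simp
  have hx : l ^ 8 ≤ √N := by
    rw [← Real.sqrt_sq (by positivity : (0 : ℝ) ≤ l ^ 8)]
    apply Real.sqrt_le_sqrt
    rw [← pow_mul]
    exact hNK
  have hx0 : 0 < √(N : ℝ) := lt_of_lt_of_le (by positivity) hx
  have h5 : 1 / (N * t) * (2 * rAv (fun k : Fin (K + 1) → Fin ((K + 1) ^ 3) =>
      ∑ j ∈ Finset.range (K + 1), dl n K (me K) β N (gp (1 / (2 * l)) t k) t j)) ≤ 2 / l ^ 3 := by
    have := mul_le_mul_of_nonneg_left h3 (by positivity : (0 : ℝ) ≤ 1 / (N * t) * 2)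
    rw [← mul_assoc]
    refine this.trans (le_of_eq ?_)
    field_simp
  have h6 : 1 / (N * t) * (l * (3 * β ^ 2 + l * Real.log 2 + 3 * (c * √N))) ≤
      (2 * (3 * β ^ 2 + 1) + 6 * c) / l ^ 3 := by
    have e4 : 1 / (N * t) * (l * (3 * β ^ 2 + l * Real.log 2 + 3 * (c * √N))) =
        2 * l ^ 5 * (3 * β ^ 2 + l * Real.log 2) / N + 6 * c * l ^ 5 * (√N / N) := by
      rw [ht]; field_simp; ring
    have e5 : √(N : ℝ) / N = 1 / √N := by
      rw [div_eq_div_iff hN0.ne' hx0.ne', one_mul]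
      exact Real.mul_self_sqrt hN0.le
    rw [e4, e5, add_div]
    refine add_le_add ?_ ?_
    · have hlog : Real.log 2 ≤ 1 := by
        have := Real.log_le_sub_one_of_pos (zero_lt_two' ℝ)
        linarith
      have h7 : 3 * β ^ 2 + l * Real.log 2 ≤ l * (3 * β ^ 2 + 1) := by
        have := mul_le_mul_of_nonneg_left hlog hl0.le
        have := mul_le_mul_of_nonneg_right hl1 (by positivity : (0 : ℝ) ≤ 3 * β ^ 2)
        linarith
      have h8 : l ^ 9 ≤ N := le_trans (pow_le_pow_right₀ hl1 (by norm_num)) hNK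
      rw [div_le_div_iff₀ hN0 (by positivity)]
      have h9 : 2 * l ^ 5 * (3 * β ^ 2 + l * Real.log 2) * l ^ 3 ≤
          2 * (3 * β ^ 2 + 1) * l ^ 9 := by
        have := mul_le_mul_of_nonneg_left h7 (by positivity : (0 : ℝ) ≤ 2 * l ^ 8)
        linarith
      refine h9.trans (mul_le_mul_of_nonneg_left h8 (by positivity))
    · have h7 : 6 * c * l ^ 5 * (1 / √N) ≤ 6 * c * l ^ 5 * (1 / l ^ 8) :=
        mul_le_mul_of_nonneg_left (one_div_le_one_div_of_le (by positivity) hx) (by positivity)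
      refine h7.trans (le_of_eq ?_)
      field_simp
  refine (add_le_add h5 h6).trans (le_of_eq ?_)
  unfold rrE
  rw [← hc]
  ring

/-- The constant of the rate. -/
noncomputable def rrW (β : ℝ) : ℝ := β ^ 2 * (1 + (√2 + 2 + √(40 * rrE β) + 4 * rrE β))

theorem rrW_nonneg (β : ℝ) : 0 ≤ rrW β := by
  have := rrE_nonneg β
  unfold rrW; positivity

/-- The strengths of the grid are in `[1 / (2 (K+1)), 1 / (K+1)]`. -/
theorem rr_gp_le {K : ℕ} (k : Fin (K + 1) → Fin ((K + 1) ^ 3)) {j : ℕ} (hj : j ≤ K) :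
    1 / (2 * ((K + 1 : ℕ) : ℝ)) ≤
      gp (1 / (2 * ((K + 1 : ℕ) : ℝ))) (1 / (2 * ((K + 1 : ℕ) : ℝ) ^ 4)) k j ∧
    gp (1 / (2 * ((K + 1 : ℕ) : ℝ))) (1 / (2 * ((K + 1 : ℕ) : ℝ) ^ 4)) k j ≤
      1 / ((K + 1 : ℕ) : ℝ) := by
  have h := gp_mem (σ := 1 / (2 * ((K + 1 : ℕ) : ℝ))) (t := 1 / (2 * ((K + 1 : ℕ) : ℝ) ^ 4))
    (by positivity) k hj
  refine ⟨h.1, h.2.trans (le_of_eq ?_)⟩
  push_cast
  field_simp
  ring

/-- The averaged step. -/
theorem rr_step_avg {n K N : ℕ} {β Lb : ℝ} (hβ : 0 ≤ β)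
    (hLb : ∀ (K : ℕ) (m q : ℕ → ℝ), Exponents K m → Path K q → q K ≤ 1 → Lb ≤ PSK β K m q)
    (hN : N + 1 ≤ n) (hNK : ((K + 1 : ℕ) : ℝ) ^ 16 ≤ N) :
    Lb ≤ rAv (fun k : Fin (K + 1) → Fin ((K + 1) ^ 3) =>
      AN n K (me K) β (N + 1)
          (gp (1 / (2 * ((K + 1 : ℕ) : ℝ))) (1 / (2 * ((K + 1 : ℕ) : ℝ) ^ 4)) k) -
        AN n K (me K) β N
          (gp (1 / (2 * ((K + 1 : ℕ) : ℝ))) (1 / (2 * ((K + 1 : ℕ) : ℝ) ^ 4)) k)) +
      rrW β / √((K + 1 : ℕ) : ℝ) := by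
  have hE0 := rrE_nonneg β
  have hav := rr_avg_ee (n := n) (K := K) (N := N) (β := β) (Nat.le_of_succ_le hN) hNK
  have hgp := fun (k : Fin (K + 1) → Fin ((K + 1) ^ 3)) => fun {j : ℕ} (hj : j ≤ K) =>
    rr_gp_le k hj
  obtain ⟨l, hl⟩ : ∃ l : ℝ, l = ((K + 1 : ℕ) : ℝ) := ⟨_, rfl⟩
  have hl1 : 1 ≤ l := by rw [hl]; push_cast; linarith [Nat.cast_nonneg (α := ℝ) K]
  have hl0 : 0 < l := by linarith
  have hM : 0 < (K + 1) ^ 3 := by positivity
  rw [← hl] at hNK hav hgp ⊢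
  have hN0 : (0 : ℝ) < N := lt_of_lt_of_le (by positivity) hNK
  have hN0' : 0 < N := by exact_mod_cast hN0
  obtain ⟨t, ht⟩ : ∃ t : ℝ, t = 1 / (2 * l ^ 4) := ⟨_, rfl⟩
  have ht0 : 0 < t := by rw [ht]; positivity
  have ht1 : t ≤ 1 := by
    rw [ht, div_le_one (by positivity)]
    have : 1 ≤ l ^ 4 := one_le_pow₀ hl1
    linarith
  rw [← ht] at hav hgp ⊢
  obtain ⟨σ, hσ⟩ : ∃ σ : ℝ, σ = 1 / (2 * l) := ⟨_, rfl⟩
  have hσ0 : 0 < σ := by rw [hσ]; positivity
  rw [← hσ] at hav hgp ⊢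
  have hne : Nonempty (Fin (K + 1) → Fin ((K + 1) ^ 3)) := ⟨fun _ => ⟨0, hM⟩⟩
  obtain ⟨X, hX⟩ : ∃ X : (Fin (K + 1) → Fin ((K + 1) ^ 3)) → ℝ,
      X = fun k => ee n K (me K) β N (gp σ t k) t := ⟨_, rfl⟩
  obtain ⟨D, hD⟩ : ∃ D : (Fin (K + 1) → Fin ((K + 1) ^ 3)) → ℝ,
      D = fun k => AN n K (me K) β (N + 1) (gp σ t k) - AN n K (me K) β N (gp σ t k) := ⟨_, rfl⟩
  rw [← hX] at hav
  rw [← hD]
  have hX0 : ∀ k, 0 ≤ X k := by
    intro k
    rw [hX]
    simp only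
    rw [rr_ej_sum]
    have h1 : 0 ≤ ∑ j ∈ Finset.range (K + 1), dl n K (me K) β N (gp σ t k) t j :=
      Finset.sum_nonneg fun j hj => rr_dl_nonneg (Nat.le_of_succ_le hN) hN0' (me_exp K) _ _
        (Nat.le_of_lt_succ (Finset.mem_range.1 hj))
    have h2 : 0 < me K 1 := by unfold me; positivity
    have h3 : 0 < Real.log 2 := Real.log_pos one_lt_two
    positivity
  -- the step at each point of the grid
  have hstep : ∀ k, Lb ≤ D k + (β ^ 2 * (1 / √l + (√2 / √l + 2 / √l)) +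
      (β ^ 2 * √(40 * l ^ 2 * X k) + β ^ 2 * (4 * l ^ 2 * X k))) := by
    intro k
    have hs0 : ∀ j ≤ K, 0 ≤ gp σ t k j := fun j hj => hσ0.le.trans (hgp k hj).1
    have h1 := AN_step (n := n) (K := K) (N := N) (β := β) (s := gp σ t k) hN hN0' hβ hσ0
      (fun j hj => (hgp k hj).1)
      ((hgp k (Nat.zero_le _)).2.trans (by rw [div_le_one hl0]; exact hl1)) ht0 ht1
    have hF := SN_fld (n := n) (K := K) (m := me K) (N := N) (β := β) (s := gp σ t k)
      (Nat.le_of_succ_le hN) hN0' (me_exp K) hs0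
    have h2 := hLb K (me K) (stR (SN n K (me K) β N (gp σ t k)) (ph (Nat.le_of_succ_le hN)))
      (me_exp K) (st_path hF) (le_of_eq (stR_last _ _))
    have h3 := h2.trans h1
    have e1 : ∀ y, wE K σ y = √(2 / l) + 2 / l + √(40 * l ^ 2 * y) + 4 * l ^ 2 * y := by
      intro y
      unfold wE
      rw [← hl, hσ]
      have e2 : 20 * y * l / (1 / (2 * l)) = 40 * l ^ 2 * y := by
        field_simp; ring
      have e3 : 2 * l * y / (1 / (2 * l)) = 4 * l ^ 2 * y := by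
        field_simp; ring
      rw [e2, e3]
    have hXk : ee n K (me K) β N (gp σ t k) t = X k := by rw [hX]
    rw [e1, hXk] at h3
    have h4 : √(2 / l) = √2 / √l := Real.sqrt_div (by norm_num) l
    have h5 : 1 / l ≤ 1 / √l := by
      apply one_div_le_one_div_of_le (Real.sqrt_pos.2 hl0)
      rw [Real.sqrt_le_left hl0.le]
      exact le_self_pow₀ hl1 (by norm_num)
    have h6 : 2 / l ≤ 2 / √l := by
      have := mul_le_mul_of_nonneg_left h5 (by norm_num : (0 : ℝ) ≤ 2)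
      rw [mul_one_div, mul_one_div] at this
      exact this
    have h7 : 1 / ((N + 1 : ℕ) : ℝ) ≤ 1 / √l := by
      refine le_trans (one_div_le_one_div_of_le hl0 ?_) h5
      push_cast
      have : l ≤ l ^ 16 := le_self_pow₀ hl1 (by norm_num)
      linarith
    have hb := sq_nonneg β
    have h8 : β ^ 2 / ((N + 1 : ℕ) : ℝ) ≤ β ^ 2 * (1 / √l) := by
      rw [← mul_one_div]
      exact mul_le_mul_of_nonneg_left h7 hb
    have h9 : β ^ 2 * (√(2 / l) + 2 / l) ≤ β ^ 2 * (√2 / √l + 2 / √l) := by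
      rw [h4]
      exact mul_le_mul_of_nonneg_left (by linarith) hb
    have hDk : D k = AN n K (me K) β (N + 1) (gp σ t k) - AN n K (me K) β N (gp σ t k) := by
      rw [hD]
    rw [hDk]
    linarith
  have h1 := rAv_mono hstep
  rw [rAv_const, rAv_add, rAv_add, rAv_const, rAv_add, rAv_mul, rAv_mul, rAv_mul] at h1
  -- the square root
  have h2 : rAv (fun k => √(40 * l ^ 2 * X k)) ≤ √(40 * rrE β) / √l := by
    refine (rAv_sqrt fun k => mul_nonneg (by positivity) (hX0 k)).trans ?_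
    rw [rAv_mul, ← Real.sqrt_div (by positivity)]
    apply Real.sqrt_le_sqrt
    have := mul_le_mul_of_nonneg_left hav (by positivity : (0 : ℝ) ≤ 40 * l ^ 2)
    refine this.trans (le_of_eq ?_)
    field_simp
  have h5 : 1 / l ≤ 1 / √l := by
    apply one_div_le_one_div_of_le (Real.sqrt_pos.2 hl0)
    rw [Real.sqrt_le_left hl0.le]
    exact le_self_pow₀ hl1 (by norm_num)
  have h3 : 4 * l ^ 2 * rAv X ≤ 4 * rrE β * (1 / √l) := by
    have h4 := mul_le_mul_of_nonneg_left hav (by positivity : (0 : ℝ) ≤ 4 * l ^ 2)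
    refine h4.trans ?_
    have e : 4 * l ^ 2 * (rrE β / l ^ 3) = 4 * rrE β * (1 / l) := by field_simp
    rw [e]
    exact mul_le_mul_of_nonneg_left h5 (by positivity)
  have hb := sq_nonneg β
  have h6 := mul_le_mul_of_nonneg_left h2 hb
  have h7 := mul_le_mul_of_nonneg_left h3 hb
  have e : rrW β / √l = β ^ 2 * (1 / √l + (√2 / √l + 2 / √l)) +
      (β ^ 2 * (√(40 * rrE β) / √l) + β ^ 2 * (4 * rrE β * (1 / √l))) := by
    unfold rrW; ring
  rw [e]
  linarith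

/-- **The rate.** -/
theorem rate_lower {β : ℝ} (hβ : 0 < β) : ∃ C : ℝ, 0 ≤ C ∧ ∀ Lb : ℝ,
    (∀ (K : ℕ) (m q : ℕ → ℝ), Exponents K m → Path K q → q K ≤ 1 → Lb ≤ PSK β K m q) →
    ∀ n L : ℕ, 0 < L → L ^ 18 ≤ n →
      n * (Real.log 2 + Lb) ≤ ∫ g, freeEnergy n β g ∂(disorder n) + C * (n / √L) := by
  have hW := rrW_nonneg β
  refine ⟨1 / 2 + rrW β + β ^ 2 / 4, by positivity, ?_⟩
  intro Lb hLb n L hL hn
  obtain ⟨K, rfl⟩ : ∃ K, L = K + 1 := ⟨L - 1, by omega⟩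
  obtain ⟨l, hl⟩ : ∃ l : ℝ, l = ((K + 1 : ℕ) : ℝ) := ⟨_, rfl⟩
  have hl1 : 1 ≤ l := by rw [hl]; push_cast; linarith [Nat.cast_nonneg (α := ℝ) K]
  have hl0 : 0 < l := by linarith
  have hsl : 0 < √l := Real.sqrt_pos.2 hl0
  have hn0 : 0 < n := lt_of_lt_of_le (by positivity) hn
  have hnr : l ^ 18 ≤ n := by rw [hl]; exact_mod_cast hn
  have hnpos : (0 : ℝ) < n := by exact_mod_cast hn0
  obtain ⟨N0, hN0⟩ : ∃ N0 : ℕ, N0 = (K + 1) ^ 16 := ⟨_, rfl⟩
  have hN0n : N0 ≤ n := by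
    rw [hN0]
    exact le_trans (Nat.pow_le_pow_right (by omega) (by norm_num)) hn
  have hN0r : (N0 : ℝ) = l ^ 16 := by rw [hN0, hl]; push_cast; ring
  obtain ⟨S, hS⟩ : ∃ S : (Fin (K + 1) → Fin ((K + 1) ^ 3)) → ℕ → ℝ,
      S = fun k => gp (1 / (2 * ((K + 1 : ℕ) : ℝ))) (1 / (2 * ((K + 1 : ℕ) : ℝ) ^ 4)) k :=
    ⟨_, rfl⟩
  have hM : 0 < (K + 1) ^ 3 := by positivity
  have hne : Nonempty (Fin (K + 1) → Fin ((K + 1) ^ 3)) := ⟨fun _ => ⟨0, hM⟩⟩
  -- the sum over the stages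
  have hsum : ∑ N ∈ Finset.Ico N0 n, (Lb - rrW β / √l) ≤
      ∑ N ∈ Finset.Ico N0 n, (rAv (fun k => AN n K (me K) β (N + 1) (S k)) -
        rAv (fun k => AN n K (me K) β N (S k))) := by
    refine Finset.sum_le_sum fun N hN => ?_
    rw [Finset.mem_Ico] at hN
    have h := rr_step_avg (n := n) (K := K) (N := N) hβ.le hLb hN.2 (by
      rw [← hl, ← hN0r]; exact_mod_cast hN.1)
    rw [rAv_sub, ← hl] at h
    rw [hS, ← hl]
    linarith
  rw [Finset.sum_const, Nat.card_Ico, nsmul_eq_mul, Nat.cast_sub hN0n,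
    Finset.sum_Ico_sub (fun N => rAv (fun k => AN n K (me K) β N (S k))) hN0n] at hsum
  -- the ends
  have h0 : 0 ≤ rAv (fun k => AN n K (me K) β N0 (S k)) := by
    have := rAv_mono (f := fun _ => (0 : ℝ)) (g := fun k => AN n K (me K) β N0 (S k))
      fun k => rr_nonneg (me_exp K) β N0 (S k)
    rw [rAv_const] at this
    exact this
  have h1 : rAv (fun k => AN n K (me K) β n (S k)) ≤
      (∫ g, freeEnergy n β g ∂(disorder n) - n * Real.log 2) + n / 2 * (1 / √l) := by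
    have h2 : ∀ k, AN n K (me K) β n (S k) ≤
        (∫ g, freeEnergy n β g ∂(disorder n) - n * Real.log 2) + n / 2 * (1 / √l) := by
      intro k
      have h3 := rr_le (n := n) (me_exp K) β (S k)
      rw [AN_zero hn0 (me_exp K) β] at h3
      have h4 : ∑ j ∈ Finset.range (K + 1), S k j ^ 2 ≤ 1 / √l := by
        have h5 : ∀ j ∈ Finset.range (K + 1), S k j ^ 2 ≤ (1 / l) ^ 2 := by
          intro j hj
          have h6 := rr_gp_le k (Nat.le_of_lt_succ (Finset.mem_range.1 hj))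
          rw [hS]
          simp only
          rw [← hl] at h6 ⊢
          have h7 : 0 ≤ 1 / (2 * l) := by positivity
          exact pow_le_pow_left₀ (h7.trans h6.1) h6.2 2
        refine (Finset.sum_le_sum h5).trans ?_
        rw [Finset.sum_const, Finset.card_range, nsmul_eq_mul, ← hl]
        have h6 : l * (1 / l) ^ 2 = 1 / l := by field_simp
        rw [h6]
        apply one_div_le_one_div_of_le hsl
        rw [Real.sqrt_le_left hl0.le]
        exact le_self_pow₀ hl1 (by norm_num)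
      have h5 := mul_le_mul_of_nonneg_left h4 (by positivity : (0 : ℝ) ≤ n / 2)
      refine h3.trans ?_
      have e : (n : ℝ) * (∑ j ∈ Finset.range (K + 1), S k j ^ 2) / 2 =
          n / 2 * ∑ j ∈ Finset.range (K + 1), S k j ^ 2 := by ring
      rw [e]
      linarith
    have h3 := rAv_mono h2
    rw [rAv_const] at h3
    exact h3
  -- conclusion
  have hLbu := rr_Lb hLb
  have h2 : (N0 : ℝ) ≤ n * (1 / √l) := by
    rw [hN0r, mul_one_div, le_div_iff₀ hsl]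
    have h3 : √l ≤ l ^ 2 := by
      rw [Real.sqrt_le_left (by positivity), ← pow_mul]
      exact le_self_pow₀ hl1 (by norm_num)
    have h4 : l ^ 16 * √l ≤ l ^ 16 * l ^ 2 := mul_le_mul_of_nonneg_left h3 (by positivity)
    have h5 : l ^ 16 * l ^ 2 = l ^ 18 := by ring
    linarith
  have h3 : (N0 : ℝ) * Lb ≤ n * (1 / √l) * (β ^ 2 / 4) := by
    have hN00 : (0 : ℝ) ≤ N0 := Nat.cast_nonneg _
    exact (mul_le_mul_of_nonneg_left hLbu hN00).trans
      (mul_le_mul_of_nonneg_right h2 (by positivity))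
  have h4 : ((n : ℝ) - N0) * (rrW β / √l) ≤ n * (1 / √l) * rrW β := by
    have hN00 : (0 : ℝ) ≤ N0 := Nat.cast_nonneg _
    have h5 : 0 ≤ rrW β / √l := by positivity
    have h6 := mul_nonneg hN00 h5
    have e : (n : ℝ) * (1 / √l) * rrW β = n * (rrW β / √l) := by ring
    rw [e]
    linarith
  rw [← hl]
  have e : (1 / 2 + rrW β + β ^ 2 / 4) * (n / √l) =
      n / 2 * (1 / √l) + n * (1 / √l) * rrW β + n * (1 / √l) * (β ^ 2 / 4) := by ring
  rw [e]
  linarith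

/-- The same with an explicit power: `1 / 36` can be replaced by any smaller exponent. -/
theorem rate_lower' {β : ℝ} (hβ : 0 < β) : ∃ C : ℝ, 0 ≤ C ∧ ∀ Lb : ℝ,
    (∀ (K : ℕ) (m q : ℕ → ℝ), Exponents K m → Path K q → q K ≤ 1 → Lb ≤ PSK β K m q) →
    ∀ n : ℕ, 0 < n →
      n * (Real.log 2 + Lb) ≤ ∫ g, freeEnergy n β g ∂(disorder n) +
        C * (n : ℝ) ^ (1 - 1 / 36 : ℝ) := by
  obtain ⟨C, hC, h⟩ := rate_lower hβ
  refine ⟨C * √2, by positivity, ?_⟩
  intro Lb hLb n hn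
  have hn1 : (1 : ℝ) ≤ n := by exact_mod_cast hn
  have hn0 : (0 : ℝ) < n := by linarith
  obtain ⟨x, hx⟩ : ∃ x : ℝ, x = (n : ℝ) ^ (1 / 18 : ℝ) := ⟨_, rfl⟩
  have hx1 : 1 ≤ x := by rw [hx]; exact Real.one_le_rpow hn1 (by norm_num)
  have hx18 : x ^ 18 = n := by
    rw [hx, ← Real.rpow_natCast, ← Real.rpow_mul hn0.le]
    norm_num
  obtain ⟨L, hL⟩ : ∃ L : ℕ, L = ⌊x⌋₊ := ⟨_, rfl⟩
  have hLpos : 0 < L := by
    rw [hL]
    exact Nat.floor_pos.2 hx1
  have hLx : (L : ℝ) ≤ x := by rw [hL]; exact Nat.floor_le (by linarith)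
  have hLx2 : x / 2 ≤ L := by
    have h1 : x < (L : ℝ) + 1 := by rw [hL]; exact Nat.lt_floor_add_one x
    have h2 : (1 : ℝ) ≤ L := by exact_mod_cast hLpos
    linarith
  have hLn : L ^ 18 ≤ n := by
    have h1 : ((L : ℝ)) ^ 18 ≤ n := by
      rw [← hx18]
      exact pow_le_pow_left₀ (Nat.cast_nonneg _) hLx 18
    exact_mod_cast h1
  have h1 := h Lb hLb n L hLpos hLn
  refine h1.trans (add_le_add le_rfl ?_)
  rw [mul_assoc]
  refine mul_le_mul_of_nonneg_left ?_ hC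
  have hLp : (0 : ℝ) < L := by exact_mod_cast hLpos
  have hx0 : 0 < x := by linarith
  have h2 : (n : ℝ) / √L ≤ n / √(x / 2) := by
    apply div_le_div_of_nonneg_left hn0.le (Real.sqrt_pos.2 (by positivity))
    exact Real.sqrt_le_sqrt hLx2
  refine h2.trans (le_of_eq ?_)
  rw [Real.sqrt_div hx0.le, div_div_eq_mul_div]
  have h3 : √x = (n : ℝ) ^ (1 / 36 : ℝ) := by
    rw [hx, Real.sqrt_eq_rpow, ← Real.rpow_mul hn0.le]
    norm_num
  rw [h3, Real.rpow_sub hn0, Real.rpow_one]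
  ring

end Vale.Agent.P146.Ub
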