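import Vale.Agent.P146.Ub.RCov

/-!
(R), module REG: regularity, fields, perturbations and covariances of the systems.
-/

open MeasureTheory ProbabilityTheory Filter Topology

namespace Vale.Agent.P146.Ub

set_option linter.unusedSectionVars false

open Vale.Agent.P157 Vale.Agent.P157.Lv Vale.Agent.P157.Lv.Sy
open Vale.Agent.P157.Par (Path Exponents incr)
open Vale.Agent.P146 (Pair)

variable {n K N : ℕ} {m s R : ℕ → ℝ} {β θ : ℝ}

theorem rr_val {l : ℕ} (hl : l ≤ K) : (Fin.ofNat (K + 1) l : ℕ) = l := by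
  simp [Fin.ofNat, Nat.mod_eq_of_lt (Nat.lt_succ_of_le hl)]

theorem rr_zc (hN : N ≤ n) {l : ℕ} (hl : l ≤ K) (i : Fin N) : rlev (zc hN l i : RI n K) = l :=
  rr_val hl

/-- Any system whose coefficients of the fields of the sites `i < N` are those of `fd N s`. -/
theorem r_fld (hN : N ≤ n) (h0 : 0 < N) (hm : Exponents K m) (hs : ∀ l ≤ K, 0 ≤ s l) (c : ℝ)
    {a : (Fin n → Bool) → RI n K → ℝ}
    (ha : ∀ x (p : Fin (K + 1) × Fin n), (p.2 : ℕ) < N →
      a x (Sum.inr (Sum.inl p)) = s p.1 * spin x p.2) :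
    Fld (ls rlev K m c a) (fun e _ x => a x e) (ph hN) (zc hN) s where
  reg := ls_regD hm rlev_le c a
  N0 := h0
  norm := fun x => by
    have h : ∀ i : Fin N, ph hN x i ^ 2 = 1 := fun i => by
      unfold ph
      rw [sq, rc_spin_sq]
    simp [h]
  lev := fun l hl i => rr_zc hN hl i
  D := fun l hl i z x => by
    show a x (Sum.inr (Sum.inl (Fin.ofNat (K + 1) l, Fin.castLE hN i))) = s l * ph hN x i
    rw [ha x (Fin.ofNat (K + 1) l, Fin.castLE hN i) (by simp)]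
    show s (Fin.ofNat (K + 1) l : ℕ) * spin x (Fin.castLE hN i) = _
    rw [rr_val (K := K) hl]
    rfl
  pos := hs

theorem SN_fld (hN : N ≤ n) (h0 : 0 < N) (hm : Exponents K m) (hs : ∀ l ≤ K, 0 ≤ s l) :
    Fld (SN n K m β N s) (fun e _ x => st β N s x e) (ph hN) (zc hN) s := by
  refine r_fld hN h0 hm hs (lc n) fun x p hp => ?_
  show dsk N (β / √N) x (Sum.inr (Sum.inl p)) + fd N s x (Sum.inr (Sum.inl p)) = _
  simp [dsk_a, dsk_b, fd_a, fd_b, fd_c, hp]

theorem ST_fld (hN : N ≤ n) (h0 : 0 < N) (hm : Exponents K m) (hs : ∀ l ≤ K, 0 ≤ s l) :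
    Fld (ST n K m β N s R θ) (fun e _ x => tc β N s R θ x e) (ph hN) (zc hN) s := by
  refine r_fld hN h0 hm hs (lc n) fun x p hp => ?_
  show (dsk N _ x (Sum.inr (Sum.inl p)) + fd N s x (Sum.inr (Sum.inl p))) +
    (Real.sin θ * tre N β R x (Sum.inr (Sum.inl p)) +
      Real.cos θ * cav N _ x (Sum.inr (Sum.inl p))) = _
  simp [dsk_a, dsk_b, fd_a, fd_b, fd_c, tre_a, tre_b, tre_c, cav_a, cav_b, hp]

/-- The extensive field of the level `j`. -/
noncomputable def gx (hN : N ≤ n) (j : ℕ) : (RI n K → ℝ) → (Fin n → Bool) → ℝ :=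
  fun z x => ∑ i, z (zc hN j i) * ph hN x i

theorem hz_eq_gx (hN : N ≤ n) (j : ℕ) (z : RI n K → ℝ) (x : Fin n → Bool) :
    hz (ph hN) (zc hN) j z x = 1 / N * gx hN j z x := rfl

theorem nh_gx (hN : N ≤ n) (j : ℕ) : Nh (gx (K := K) hN j) :=
  Sy.Nh.sum _ fun i _ => Sy.Nh.mul (Sy.Nh.fst (EG.coord (zc hN j i))) (Sy.Nh.snd fun x => ph hN x i)

theorem rr_lin (a b : RI n K → ℝ) (z : RI n K → ℝ) : lin (a + b) z = lin a z + lin b z := by
  unfold lin
  rw [← Finset.sum_add_distrib]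
  refine Finset.sum_congr rfl fun e _ => ?_
  rw [Pi.add_apply]
  ring

/-- The fields as a linear form. -/
theorem rr_lin_fd (hN : N ≤ n) (s : ℕ → ℝ) (x : Fin n → Bool) (z : RI n K → ℝ) :
    lin (fd N s x) z = ∑ l ∈ Finset.range (K + 1), s l * gx hN l z x := by
  unfold lin
  rw [Fintype.sum_sum_type, Fintype.sum_sum_type]
  have h1 : ∑ e : Pair n, fd (K := K) N s x (Sum.inl e) * z (Sum.inl e) = 0 :=
    Finset.sum_eq_zero fun e _ => by simp [fd_a, fd_b, fd_c]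
  have h2 : ∑ e : Fin (K + 1), fd (K := K) N s x (Sum.inr (Sum.inr e)) *
      z (Sum.inr (Sum.inr e)) = 0 :=
    Finset.sum_eq_zero fun e _ => by simp [fd_a, fd_b, fd_c]
  rw [h1, h2, zero_add, add_zero, Fintype.sum_prod_type]
  rw [← Fin.sum_univ_eq_sum_range (fun l => s l * gx hN l z x) (K + 1)]
  refine Finset.sum_congr rfl fun l _ => ?_
  have h3 : ∀ i : Fin n, fd (K := K) N s x (Sum.inr (Sum.inl (l, i))) *
      z (Sum.inr (Sum.inl (l, i))) =
      if (i : ℕ) < N then s l * (z (Sum.inr (Sum.inl (l, i))) * spin x i) else 0 := fun i => by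
    simp only [fd_a, fd_b, fd_c]
    split_ifs
    · ring
    · ring
  simp only [h3]
  rw [rc_sum_lt hN fun i => s l * (z (Sum.inr (Sum.inl (l, i))) * spin x i)]
  unfold gx
  rw [Finset.mul_sum]
  refine Finset.sum_congr rfl fun i _ => ?_
  unfold zc ph
  have h4 : (Fin.ofNat (K + 1) (l : ℕ)) = l := by
    ext
    rw [rr_val (Nat.le_of_lt_succ l.2)]
  rw [h4]

theorem rr_update (hN : N ≤ n) {j : ℕ} (hj : j ≤ K) (t : ℝ) (x : Fin n → Bool)
    (z : RI n K → ℝ) :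
    lin (fd N (Function.update s j (s j + t)) x) z = lin (fd N s x) z + t * gx hN j z x := by
  rw [rr_lin_fd hN, rr_lin_fd hN]
  have hj' : j ∈ Finset.range (K + 1) := Finset.mem_range.2 (Nat.lt_succ_of_le hj)
  rw [← Finset.add_sum_erase _ _ hj', ← Finset.add_sum_erase _ _ hj', Function.update_self]
  have h2 : ∑ l ∈ (Finset.range (K + 1)).erase j, Function.update s j (s j + t) l *
      gx hN l z x = ∑ l ∈ (Finset.range (K + 1)).erase j, s l * gx hN l z x := by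
    refine Finset.sum_congr rfl fun l hl => ?_
    rw [Function.update_of_ne (Finset.ne_of_mem_erase hl)]
  rw [h2]
  ring

theorem SN_pt (hN : N ≤ n) {j : ℕ} (hj : j ≤ K) (t : ℝ) :
    (SN n K m β N s).pt (gx hN j) t = SN n K m β N (Function.update s j (s j + t)) := by
  unfold SN ls Sy.pt Sy.wH
  congr 1
  funext z x
  show lin (st β N s x) z + lc n + t * gx hN j z x = lin (st β N _ x) z + lc n
  unfold st
  simp only [Pi.add_apply, rr_lin]
  rw [rr_update hN hj]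
  ring

theorem ST_pt (hN : N ≤ n) {j : ℕ} (hj : j ≤ K) (t : ℝ) :
    (ST n K m β N s R θ).pt (gx hN j) t =
      ST n K m β N (Function.update s j (s j + t)) R θ := by
  unfold ST ls Sy.pt Sy.wH
  congr 1
  funext z x
  show lin (tc β N s R θ x) z + lc n + t * gx hN j z x = lin (tc β N _ R θ x) z + lc n
  unfold tc
  rw [lin_ith, lin_ith]
  unfold sc
  simp only [Pi.add_apply, rr_lin]
  rw [rr_update hN hj]
  ring

/-! ### The variances -/

theorem rr_fd (hN : N ≤ n) (s : ℕ → ℝ) (x : Fin n → Bool) :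
    ∑ e, (if rlev e = 0 then fd (K := K) N s x e ^ 2 else 0) = s 0 ^ 2 * N := by
  rw [Fintype.sum_sum_type, Fintype.sum_sum_type]
  have h1 : ∑ e : Pair n, (if rlev (Sum.inl e : RI n K) = 0 then
      fd (K := K) N s x (Sum.inl e) ^ 2 else 0) = 0 :=
    Finset.sum_eq_zero fun e _ => by simp [fd_a, fd_b, fd_c]
  have h2 : ∑ e : Fin (K + 1), (if rlev (Sum.inr (Sum.inr e) : RI n K) = 0 then
      fd (K := K) N s x (Sum.inr (Sum.inr e)) ^ 2 else 0) = 0 :=
    Finset.sum_eq_zero fun e _ => by simp [fd_a, fd_b, fd_c]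
  rw [h1, h2, zero_add, add_zero, Fintype.sum_prod_type, Finset.sum_eq_single (0 : Fin (K + 1))]
  · have h3 : ∀ i : Fin n, (if rlev (Sum.inr (Sum.inl ((0 : Fin (K + 1)), i)) : RI n K) = 0 then
        fd (K := K) N s x (Sum.inr (Sum.inl (0, i))) ^ 2 else 0) =
        if (i : ℕ) < N then s 0 ^ 2 else 0 := fun i => by
      rw [if_pos (show rlev (Sum.inr (Sum.inl ((0 : Fin (K + 1)), i)) : RI n K) = 0 from rfl)]
      simp only [fd_a, fd_b, fd_c]
      split_ifs
      · show (s 0 * spin x i) ^ 2 = s 0 ^ 2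
        have := rc_spin_sq x i
        rw [mul_pow, sq (spin x i), this, mul_one]
      · ring
    simp only [h3]
    rw [rc_sum_lt hN fun _ => s 0 ^ 2]
    simp [mul_comm]
  · intro l _ hl
    refine Finset.sum_eq_zero fun i _ => ?_
    rw [if_neg]
    intro h
    exact hl (Fin.ext h)
  · intro h
    exact absurd (Finset.mem_univ _) h

theorem rr_dsk (hN : N ≤ n) (γ : ℝ) (x : Fin n → Bool) :
    ∑ e, (if rlev e = 0 then dsk (K := K) N γ x e ^ 2 else 0) = γ ^ 2 * ((N : ℝ) ^ 2 - N) / 2 := by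
  have h := cv_dsk (K := K) hN 0 γ γ x x
  rw [rc_NRov_self] at h
  rw [sq γ, ← h]
  unfold cv
  refine Finset.sum_congr rfl fun e _ => ?_
  simp only [Nat.le_zero]
  rw [sq]

theorem rr_cav (hN : N < n) (γ : ℝ) (x : Fin n → Bool) :
    ∑ e, (if rlev e = 0 then cav (K := K) N γ x e ^ 2 else 0) = γ ^ 2 * N := by
  have h := cv_cav (K := K) hN 0 γ x x
  have h1 := sp_sq hN x
  rw [rc_NRov_self, ← sq (sp N x), h1, mul_one] at h
  rw [← h]
  unfold cv
  refine Finset.sum_congr rfl fun e _ => ?_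
  simp only [Nat.le_zero]
  rw [sq]

theorem rr_tre (hN : N < n) (γ : ℝ) (hR : Path K R) (x : Fin n → Bool) :
    ∑ e, (if rlev e = 0 then tre (K := K) N γ R x e ^ 2 else 0) = γ ^ 2 * R 0 := by
  have h := cv_tre (K := K) hN (Nat.zero_le _) γ hR x x
  have h1 := sp_sq hN x
  rw [← sq (sp N x), h1, mul_one] at h
  rw [← h]
  unfold cv
  refine Finset.sum_congr rfl fun e _ => ?_
  simp only [Nat.le_zero]
  rw [sq]

theorem rr_sc (hN : N ≤ n) (γ : ℝ) (x : Fin n → Bool) :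
    ∑ e : RI n K, (if rlev e = 0 then (dsk N γ x e + fd N s x e) ^ 2 else 0) =
      γ ^ 2 * ((N : ℝ) ^ 2 - N) / 2 + s 0 ^ 2 * N := by
  rw [← rr_dsk (K := K) hN γ x, ← rr_fd (K := K) hN s x, ← Finset.sum_add_distrib]
  refine Finset.sum_congr rfl fun e _ => ?_
  split_ifs
  · have := dj_dsk_fd (s := s) (N := N) γ N e x x
    linear_combination 2 * this
  · ring

/-- The variances. -/
theorem SN_var (hN : N ≤ n) (h0 : 0 < N) (hm : Exponents K m) (hs : |s 0| ≤ 2) :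
    ∫ z, ((SN n K m β N s).lg 0 z - (SN n K m β N s).fe) ^ 2 ∂(gI (RI n K)) ≤
      2 * ((2 * β ^ 2 + 4) * N) := by
  refine ls_var hm rlev_le (lc n) fun x => ?_
  have hN0 : (0 : ℝ) < N := by exact_mod_cast h0
  show ∑ e : RI n K, (if rlev e = 0 then (dsk N (β / √N) x e + fd N s x e) ^ 2 else 0) ≤ _
  rw [rr_sc hN, div_pow, Real.sq_sqrt hN0.le]
  have h1 : β ^ 2 / N * ((N : ℝ) ^ 2 - N) / 2 = β ^ 2 * (N - 1) / 2 := by
    field_simp
  have h2 : s 0 ^ 2 ≤ 4 := by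
    have := sq_le_sq' (by linarith [abs_nonneg (s 0)]) hs
    rw [sq_abs] at this
    linarith
  rw [h1]
  have h3 : s 0 ^ 2 * N ≤ 4 * N := mul_le_mul_of_nonneg_right h2 hN0.le
  have h4 : 0 ≤ β ^ 2 * (N : ℝ) := by positivity
  have h5 : 0 ≤ β ^ 2 := sq_nonneg β
  nlinarith only [h3, h4, h5]

theorem ST_var (hN : N + 1 ≤ n) (h0 : 0 < N) (hm : Exponents K m) (hs : |s 0| ≤ 2)
    (hR : Path K R) (hR1 : R K ≤ 1) :
    ∫ z, ((ST n K m β N s R θ).lg 0 z - (ST n K m β N s R θ).fe) ^ 2 ∂(gI (RI n K)) ≤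
      2 * ((2 * β ^ 2 + 4) * N) := by
  refine ls_var hm rlev_le (lc n) fun x => ?_
  have hN0 : (0 : ℝ) < N := by exact_mod_cast h0
  have hN1 : (1 : ℝ) ≤ N := by exact_mod_cast h0
  have hlt : N < n := hN
  have hP : (0 : ℝ) < ((N + 1 : ℕ) : ℝ) := by positivity
  have hR0 : 0 ≤ R 0 := hR.1
  have hmono : ∀ l ≤ K, R 0 ≤ R l := by
    intro l hl
    induction l with
    | zero => exact le_rfl
    | succ l ih => exact (ih (by omega)).trans (hR.2 l (by omega))
  have hR0' : R 0 ≤ 1 := (hmono K le_rfl).trans hR1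
  have e1 : ∀ e : RI n K, (if rlev e = 0 then tc β N s R θ x e ^ 2 else 0) =
      (if rlev e = 0 then (dsk N (β / √((N + 1 : ℕ) : ℝ)) x e + fd N s x e) ^ 2 else 0) +
      (Real.sin θ ^ 2 * (if rlev e = 0 then tre (K := K) N β R x e ^ 2 else 0) +
      Real.cos θ ^ 2 * (if rlev e = 0 then
        cav (K := K) N (β / √((N + 1 : ℕ) : ℝ)) x e ^ 2 else 0)) := by
    intro e
    split_ifs
    · have d1 := dj_tre_cav (R := R) (N := N) β (β / √((N + 1 : ℕ) : ℝ)) e x x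
      have d2 := dj_tre_sc (R := R) (N := N) (s := s) (β := β) β e x x
      have d3 := dj_cav_sc (N := N) (s := s) (β := β) (β / √((N + 1 : ℕ) : ℝ)) e x x
      show ((sc β N s) x e + (Real.sin θ * tre N β R x e +
        Real.cos θ * cav N (β / √((N + 1 : ℕ) : ℝ)) x e)) ^ 2 = (sc β N s) x e ^ 2 + _
      linear_combination (2 * Real.sin θ) * d2 + (2 * Real.cos θ) * d3 +
        (2 * Real.sin θ * Real.cos θ) * d1
    · ring
  show ∑ e, (if rlev e = 0 then tc β N s R θ x e ^ 2 else 0) ≤ _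
  simp only [e1]
  rw [Finset.sum_add_distrib, Finset.sum_add_distrib, ← Finset.mul_sum, ← Finset.mul_sum,
    rr_sc hlt.le, rr_tre hlt β hR, rr_cav hlt, div_pow, Real.sq_sqrt hP.le]
  · have h1 : β ^ 2 / ((N + 1 : ℕ) : ℝ) * ((N : ℝ) ^ 2 - N) / 2 ≤ β ^ 2 * N / 2 := by
      rw [div_mul_eq_mul_div, div_div, div_le_div_iff₀ (by positivity) (by norm_num)]
      push_cast
      have : 0 ≤ β ^ 2 := sq_nonneg β
      have h6 : 0 ≤ β ^ 2 * (N : ℝ) := by positivity
      nlinarith only [this, h6]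
    have h2 : s 0 ^ 2 ≤ 4 := by
      have := sq_le_sq' (by linarith [abs_nonneg (s 0)]) hs
      rw [sq_abs] at this
      linarith
    have h3 : s 0 ^ 2 * N ≤ 4 * N := mul_le_mul_of_nonneg_right h2 hN0.le
    have h4 : β ^ 2 / ((N + 1 : ℕ) : ℝ) * N ≤ β ^ 2 := by
      rw [div_mul_eq_mul_div, div_le_iff₀ hP]
      push_cast
      have : 0 ≤ β ^ 2 := sq_nonneg β
      nlinarith only [this]
    have h5 : β ^ 2 * R 0 ≤ β ^ 2 := by
      have : 0 ≤ β ^ 2 := sq_nonneg β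
      nlinarith only [this, hR0']
    have h6 : Real.sin θ ^ 2 * (β ^ 2 * R 0) + Real.cos θ ^ 2 *
        (β ^ 2 / ((N + 1 : ℕ) : ℝ) * N) ≤ β ^ 2 := by
      have g1 := mul_le_mul_of_nonneg_left h5 (sq_nonneg (Real.sin θ))
      have g2 := mul_le_mul_of_nonneg_left h4 (sq_nonneg (Real.cos θ))
      have g3 := Real.sin_sq_add_cos_sq θ
      calc _ ≤ Real.sin θ ^ 2 * β ^ 2 + Real.cos θ ^ 2 * β ^ 2 := add_le_add g1 g2
        _ = (Real.sin θ ^ 2 + Real.cos θ ^ 2) * β ^ 2 := by ring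
        _ = β ^ 2 := by rw [g3, one_mul]
    have h7 : β ^ 2 ≤ β ^ 2 * N := by
      have : 0 ≤ β ^ 2 := sq_nonneg β
      nlinarith only [this, hN1]
    have h8 : 0 ≤ β ^ 2 := sq_nonneg β
    linarith

end Vale.Agent.P146.Ub
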