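import Vale.Agent.P146.Ub.RReg
import Vale.Agent.P146.Ub.RFact
import Vale.Agent.P146.Ub.Conc1

/-!
(R), module STEP: the step from the stage `N` to the stage `N + 1`.
-/

open MeasureTheory ProbabilityTheory Filter Topology

namespace Vale.Agent.P146.Ub

set_option linter.unusedSectionVars false

open Vale.Agent.P157 Vale.Agent.P157.Lv Vale.Agent.P157.Lv.Sy
open Vale.Agent.P157.Par (Path Exponents incr spinPart)
open Vale.Agent.P146 (Pair)
open Vale.Agent.P146.Sk (PSK)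

variable {n K N : ℕ} {m s R : ℕ → ℝ} {β θ : ℝ}

/-! ### Algebra -/

theorem rs_reg (hm : Exponents K m) (c : ℝ) (a : (Fin n → Bool) → RI n K → ℝ) :
    (ls rlev K m c a).Reg := (ls_regD hm rlev_le c a).toReg

theorem rs_sum_p (hm : Exponents K m) :
    ∑ l ∈ Finset.range (K + 1), (m (l + 1) - m l) = 1 := by
  rw [Finset.sum_range_sub m, hm.2.1, hm.1, sub_zero]

theorem rs_p_nonneg (hm : Exponents K m) {l : ℕ} (hl : l ∈ Finset.range (K + 1)) :
    0 ≤ m (l + 1) - m l := by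
  have := hm.2.2 l (by have := Finset.mem_range.1 hl; omega)
  linarith

theorem rs_dsk_add (M : ℕ) (γ γ' : ℝ) :
    (dsk M γ + dsk M γ' : (Fin n → Bool) → RI n K → ℝ) = dsk M (γ + γ') := by
  funext x e
  rcases e with p | e
  · show (if (p.1.2 : ℕ) < M then γ * (spin x p.1.1 * spin x p.1.2) else 0) +
      (if (p.1.2 : ℕ) < M then γ' * (spin x p.1.1 * spin x p.1.2) else 0) =
      if (p.1.2 : ℕ) < M then (γ + γ') * (spin x p.1.1 * spin x p.1.2) else 0
    split_ifs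
    · ring
    · ring
  · show (0 : ℝ) + 0 = 0
    ring

theorem rs_abs_Rov (hN : N ≤ n) (h0 : 0 < N) (x x' : Fin n → Bool) : |Rov (ph hN) x x'| ≤ 1 := by
  have hN0 : (0 : ℝ) < N := by exact_mod_cast h0
  have hn : ∀ x : Fin n → Bool, ∑ i, ph hN x i ^ 2 = N := by
    intro x
    have : ∀ i, ph hN x i ^ 2 = 1 := by
      intro i
      unfold ph spin
      split_ifs <;> norm_num
    simp [this]
  have h := Finset.sum_mul_sq_le_sq_mul_sq Finset.univ (ph hN x) (ph hN x')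
  rw [hn, hn] at h
  have h1 : Rov (ph hN) x x' ^ 2 ≤ 1 := by
    rw [Rov, mul_pow, one_div, inv_pow, inv_mul_le_iff₀ (by positivity)]
    linarith [sq (N : ℝ)]
  exact abs_le_one_iff_mul_self_le_one.mpr (by linarith [sq (Rov (ph hN) x x')])

/-- `1 - ∑ p_l E_l R² ∈ [0, 1]`. -/
theorem rs_q_mem (hN : N ≤ n) (h0 : 0 < N) (hm : Exponents K m) (c : ℝ)
    (a : (Fin n → Bool) → RI n K → ℝ) :
    0 ≤ 1 - ∑ l ∈ Finset.range (K + 1), (m (l + 1) - m l) *
        (ls rlev K m c a).pairEx l (fun x x' => Rov (ph hN) x x' ^ 2) ∧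
      1 - ∑ l ∈ Finset.range (K + 1), (m (l + 1) - m l) *
        (ls rlev K m c a).pairEx l (fun x x' => Rov (ph hN) x x' ^ 2) ≤ 1 := by
  have hR := rs_reg hm c a
  have h1 : ∀ l ∈ Finset.range (K + 1),
      0 ≤ (ls rlev K m c a).pairEx l (fun x x' => Rov (ph hN) x x' ^ 2) ∧
      (ls rlev K m c a).pairEx l (fun x x' => Rov (ph hN) x x' ^ 2) ≤ 1 := by
    intro l hl
    have hl' : l ≤ (ls rlev K m c a).K := by
      have := Finset.mem_range.1 hl
      show l ≤ K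
      omega
    refine ⟨hR.pairEx_nonneg hl' fun x x' => sq_nonneg _, ?_⟩
    rw [← hR.pairEx_const hl' 1]
    refine hR.pairEx_mono hl' fun x x' => ?_
    have := rs_abs_Rov hN h0 x x'
    rw [← sq_abs]
    exact pow_le_one₀ (abs_nonneg _) this
  have h2 : 0 ≤ ∑ l ∈ Finset.range (K + 1), (m (l + 1) - m l) *
        (ls rlev K m c a).pairEx l (fun x x' => Rov (ph hN) x x' ^ 2) :=
    Finset.sum_nonneg fun l hl => mul_nonneg (rs_p_nonneg hm hl) (h1 l hl).1
  have h3 : ∑ l ∈ Finset.range (K + 1), (m (l + 1) - m l) *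
        (ls rlev K m c a).pairEx l (fun x x' => Rov (ph hN) x x' ^ 2) ≤ 1 := by
    rw [← rs_sum_p hm]
    exact Finset.sum_le_sum fun l hl => mul_le_of_le_one_right (rs_p_nonneg hm hl) (h1 l hl).2
  constructor <;> linarith

/-- The mean of the disorder part. -/
theorem rs_Ex_dsk (hN : N ≤ n) (hm : Exponents K m) (c γ γ' : ℝ) (s : ℕ → ℝ) :
    (ls rlev K m c (dsk N γ + fd N s) : Sy (RI n K) (Fin n → Bool)).Ex
      (fun z x => lin (dsk N γ' x) z) =
      γ' * γ * (N : ℝ) ^ 2 / 2 * (1 - ∑ l ∈ Finset.range (K + 1), (m (l + 1) - m l) *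
        (ls rlev K m c (dsk N γ + fd N s) : Sy (RI n K) (Fin n → Bool)).pairEx l
          (fun x x' => Rov (ph hN) x x' ^ 2)) := by
  have hR := rs_reg (n := n) hm c (dsk N γ + fd N s)
  rw [ls_Ex_lin hm rlev_le]
  have e1 : (fun (_ : RI n K → ℝ) (x : Fin n → Bool) =>
      ∑ e, dsk N γ' x e * (dsk N γ + fd N s : (Fin n → Bool) → RI n K → ℝ) x e) =
      fun _ _ => γ' * γ * ((N : ℝ) ^ 2 - N) / 2 := by
    funext _ x
    have : ∀ e, dsk N γ' x e * (dsk N γ + fd N s : (Fin n → Bool) → RI n K → ℝ) x e =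
        dsk N γ' x e * dsk N γ x e := by
      intro e
      show dsk N γ' x e * (dsk N γ x e + fd N s x e) = _
      rw [mul_add, dj_dsk_fd, add_zero]
    rw [Finset.sum_congr rfl fun e _ => this e, sum_dsk hN]
  rw [e1, hR.Ex_const]
  have e2 : ∀ l ∈ Finset.range (K + 1), (m (l + 1) - m l) *
      (ls rlev K m c (dsk N γ + fd N s) : Sy (RI n K) (Fin n → Bool)).pairEx l
        (cv rlev l (dsk (K := K) N γ') (dsk N γ + fd N s)) =
      (m (l + 1) - m l) * (γ' * γ * (N : ℝ) ^ 2 / 2) *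
        (ls rlev K m c (dsk N γ + fd N s) : Sy (RI n K) (Fin n → Bool)).pairEx l
          (fun x x' => Rov (ph hN) x x' ^ 2) - (m (l + 1) - m l) * (γ' * γ * N / 2) := by
    intro l hl
    have hl' : l ≤ (ls rlev K m c (dsk N γ + fd N s) : Sy (RI n K) (Fin n → Bool)).K := by
      have := Finset.mem_range.1 hl
      show l ≤ K
      omega
    have e3 : (cv rlev l (dsk (K := K) N γ') (dsk N γ + fd N s) :
        (Fin n → Bool) → (Fin n → Bool) → ℝ) =
        fun x x' => (γ' * γ * (N : ℝ) ^ 2 / 2) * Rov (ph hN) x x' ^ 2 + (-(γ' * γ * N / 2)) := by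
      funext x x'
      have : cv rlev l (dsk (K := K) N γ') (dsk N γ + fd N s) x x' =
          cv rlev l (dsk (K := K) N γ') (dsk N γ) x x' := by
        unfold cv
        refine Finset.sum_congr rfl fun e _ => ?_
        show (if rlev e ≤ l then dsk N γ' x e * (dsk N γ x' e + fd N s x' e) else 0) = _
        rw [mul_add, dj_dsk_fd, add_zero]
      rw [this, cv_dsk hN]
      ring
    rw [e3, hR.pairEx_add hl' (fun x x' => (γ' * γ * (N : ℝ) ^ 2 / 2) * Rov (ph hN) x x' ^ 2)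
      (fun _ _ => (-(γ' * γ * N / 2))), hR.pairEx_const_mul, hR.pairEx_const hl']
    ring
  rw [Finset.sum_congr rfl e2, Finset.sum_sub_distrib, ← Finset.sum_mul, rs_sum_p hm]
  have e4 : ∑ l ∈ Finset.range (K + 1), (m (l + 1) - m l) * (γ' * γ * (N : ℝ) ^ 2 / 2) *
        (ls rlev K m c (dsk N γ + fd N s) : Sy (RI n K) (Fin n → Bool)).pairEx l
          (fun x x' => Rov (ph hN) x x' ^ 2) =
      γ' * γ * (N : ℝ) ^ 2 / 2 * ∑ l ∈ Finset.range (K + 1), (m (l + 1) - m l) *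
        (ls rlev K m c (dsk N γ + fd N s) : Sy (RI n K) (Fin n → Bool)).pairEx l
          (fun x x' => Rov (ph hN) x x' ^ 2) := by
    rw [Finset.mul_sum]
    exact Finset.sum_congr rfl fun l _ => by ring
  rw [e4]
  ring

theorem rs_sqrt_diff (h0 : 0 < N) : (β / √N) * (β / √N - β / √((N + 1 : ℕ) : ℝ)) *
    (N : ℝ) ^ 2 / 2 ≤ β ^ 2 / 4 ∧ 0 ≤ (β / √N) * (β / √N - β / √((N + 1 : ℕ) : ℝ)) ∧
    0 ≤ (β / √((N + 1 : ℕ) : ℝ)) * (β / √N - β / √((N + 1 : ℕ) : ℝ)) := by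
  have hN : (0 : ℝ) < N := by exact_mod_cast h0
  obtain ⟨u, hu⟩ : ∃ u, u = √(N : ℝ) := ⟨_, rfl⟩
  obtain ⟨v, hv⟩ : ∃ v, v = √((N + 1 : ℕ) : ℝ) := ⟨_, rfl⟩
  have hu0 : 0 < u := by rw [hu]; exact Real.sqrt_pos.2 hN
  have hu2 : u ^ 2 = N := by rw [hu]; exact Real.sq_sqrt hN.le
  have hv2 : v ^ 2 = N + 1 := by
    rw [hv, Real.sq_sqrt (by positivity)]
    push_cast
    ring
  have huv : u ≤ v := by
    rw [hu, hv]
    exact Real.sqrt_le_sqrt (by push_cast; linarith)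
  have hv0 : 0 < v := hu0.trans_le huv
  rw [← hu, ← hv, ← hu2]
  have e1 : β / u - β / v = β * ((v - u) / (u * v)) := by
    field_simp
  have e0 : 0 ≤ (v - u) / (u * v) := div_nonneg (by linarith) (by positivity)
  refine ⟨?_, ?_, ?_⟩
  · rw [e1]
    have e2 : β / u * (β * ((v - u) / (u * v))) * (u ^ 2) ^ 2 / 2 =
        β ^ 2 / 2 * (u ^ 2 * (v - u) / v) := by
      field_simp
    rw [e2]
    have e3 : u ^ 2 * (v - u) / v ≤ 1 / 2 := by
      rw [div_le_iff₀ hv0]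
      have e4 : (v - u) * (v + u) = 1 := by nlinarith
      have e5 : u ^ 2 * (v - u) * (v + u) = u ^ 2 := by
        rw [mul_assoc, e4, mul_one]
      nlinarith [mul_nonneg hu0.le hv0.le]
    have e6 : 0 ≤ β ^ 2 := sq_nonneg β
    nlinarith
  · rw [e1]
    have : β / u * (β * ((v - u) / (u * v))) = β ^ 2 * (((v - u) / (u * v)) / u) := by ring
    rw [this]
    positivity
  · rw [e1]
    have : β / v * (β * ((v - u) / (u * v))) = β ^ 2 * (((v - u) / (u * v)) / v) := by ring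
    rw [this]
    positivity

/-- (T1) -/
theorem SC_le (hN : N ≤ n) (h0 : 0 < N) (hm : Exponents K m) (hβ : 0 ≤ β) (s : ℕ → ℝ) :
    (SC n K m β N s).fe ≤ AN n K m β N s := by
  obtain ⟨γ, hγ⟩ : ∃ γ, γ = β / √((N + 1 : ℕ) : ℝ) := ⟨_, rfl⟩
  obtain ⟨γ', hγ'⟩ : ∃ γ', γ' = β / √N - β / √((N + 1 : ℕ) : ℝ) := ⟨_, rfl⟩
  have e1 : (st β N s : (Fin n → Bool) → RI n K → ℝ) = sc β N s + dsk N γ' := by
    unfold st sc
    rw [add_right_comm, rs_dsk_add]
    congr 2
    rw [hγ']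
    ring
  have h1 := ls_jensen (X := Fin n → Bool) hm rlev_le (lc n) (sc (n := n) (K := K) β N s)
    (dsk N γ')
  rw [← e1] at h1
  have h2 := rs_Ex_dsk (n := n) hN hm (lc n) γ γ' s
  have e2 : (dsk N γ + fd N s : (Fin n → Bool) → RI n K → ℝ) = sc β N s := by
    unfold sc; rw [hγ]
  rw [e2] at h2
  rw [h2] at h1
  have h3 := (rs_q_mem (K := K) hN h0 hm (lc n) (sc (n := n) (K := K) β N s)).1
  have h4 := (rs_sqrt_diff (β := β) h0).2.2
  rw [← hγ', ← hγ] at h4
  have h5 : 0 ≤ γ' * γ * (N : ℝ) ^ 2 / 2 := by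
    have : γ' * γ * (N : ℝ) ^ 2 / 2 = γ * γ' * ((N : ℝ) ^ 2 / 2) := by ring
    rw [this]
    exact mul_nonneg h4 (by positivity)
  have h6 := mul_nonneg h5 h3
  unfold SC AN SN
  linarith

/-- (T2) -/
theorem SC_ge (hN : N ≤ n) (h0 : 0 < N) (hm : Exponents K m) (hβ : 0 ≤ β) (s : ℕ → ℝ) :
    AN n K m β N s ≤ (SC n K m β N s).fe + β ^ 2 / 4 * (1 -
      ∑ l ∈ Finset.range (K + 1), (m (l + 1) - m l) *
        (SN n K m β N s).pairEx l (fun x x' => Rov (ph hN) x x' ^ 2)) := by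
  obtain ⟨γ, hγ⟩ : ∃ γ, γ = β / √(N : ℝ) := ⟨_, rfl⟩
  obtain ⟨γ', hγ'⟩ : ∃ γ', γ' = β / √N - β / √((N + 1 : ℕ) : ℝ) := ⟨_, rfl⟩
  have e1 : (sc β N s : (Fin n → Bool) → RI n K → ℝ) = st β N s + dsk N (-γ') := by
    unfold st sc
    rw [add_right_comm, rs_dsk_add]
    congr 2
    rw [hγ']
    ring
  have h1 := ls_jensen (X := Fin n → Bool) hm rlev_le (lc n) (st (n := n) (K := K) β N s)
    (dsk N (-γ'))
  rw [← e1] at h1
  have h2 := rs_Ex_dsk (n := n) hN hm (lc n) γ (-γ') s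
  have e2 : (dsk N γ + fd N s : (Fin n → Bool) → RI n K → ℝ) = st β N s := by
    unfold st; rw [hγ]
  rw [e2] at h2
  rw [h2] at h1
  have h3 := (rs_q_mem (K := K) hN h0 hm (lc n) (st (n := n) (K := K) β N s)).1
  have h4 := (rs_sqrt_diff (β := β) h0).1
  rw [← hγ', ← hγ] at h4
  have h6 := mul_le_mul_of_nonneg_right h4 h3
  unfold SC AN SN
  have h7 : -γ' * γ * (N : ℝ) ^ 2 / 2 = -(γ * γ' * (N : ℝ) ^ 2 / 2) := by ring
  rw [h7, neg_mul] at h1
  linarith

/-- (D) -/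
theorem ST_cmp (hN : N + 1 ≤ n) (h0 : 0 < N) (hm : Exponents K m) (hβ : 0 ≤ β)
    (hR : Path K R) (hR1 : R K ≤ 1) (s : ℕ → ℝ) (θ : ℝ) :
    |(ST n K m β N s R θ).fe - AN n K m β N s| ≤ β ^ 2 / 2 := by
  have hN' : N ≤ n := by omega
  have hNn : N < n := by omega
  have hb2 : 0 ≤ β ^ 2 := sq_nonneg β
  obtain ⟨b, hb⟩ : ∃ b : (Fin n → Bool) → RI n K → ℝ, b = fun x e =>
    Real.sin θ * tre N β R x e + Real.cos θ * cav N (β / √((N + 1 : ℕ) : ℝ)) x e := ⟨_, rfl⟩
  have e1 : (tc β N s R θ : (Fin n → Bool) → RI n K → ℝ) = sc β N s + b := by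
    rw [hb]
    rfl
  have hdj : ∀ e x x', b x e * (sc β N s : (Fin n → Bool) → RI n K → ℝ) x' e = 0 := by
    intro e x x'
    have h1 := dj_tre_sc (N := N) (s := s) (β := β) (R := R) β e x x'
    have h2 := dj_cav_sc (N := N) (s := s) (β := β) (β / √((N + 1 : ℕ) : ℝ)) e x x'
    rw [hb]
    show (Real.sin θ * tre N β R x e + Real.cos θ * cav N (β / √((N + 1 : ℕ) : ℝ)) x e) *
      sc β N s x' e = 0
    linear_combination Real.sin θ * h1 + Real.cos θ * h2
  have hV : ∀ x, ∑ e, b x e ^ 2 ≤ β ^ 2 := by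
    intro x
    have h1 : ∀ e, b x e ^ 2 = Real.sin θ ^ 2 * tre N β R x e ^ 2 +
        Real.cos θ ^ 2 * cav N (β / √((N + 1 : ℕ) : ℝ)) x e ^ 2 := by
      intro e
      have h2 := dj_tre_cav (N := N) (R := R) β (β / √((N + 1 : ℕ) : ℝ)) e x x
      rw [hb]
      show (Real.sin θ * tre N β R x e + Real.cos θ * cav N (β / √((N + 1 : ℕ) : ℝ)) x e) ^ 2 = _
      linear_combination 2 * Real.sin θ * Real.cos θ * h2
    rw [Finset.sum_congr rfl fun e _ => h1 e, Finset.sum_add_distrib, ← Finset.mul_sum,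
      ← Finset.mul_sum, sum_tre hNn β hR, sum_cav hNn]
    have h3 : (β / √((N + 1 : ℕ) : ℝ)) ^ 2 * N ≤ β ^ 2 := by
      rw [div_pow, Real.sq_sqrt (by positivity), div_mul_eq_mul_div, div_le_iff₀ (by positivity)]
      push_cast
      nlinarith
    have h4 : β ^ 2 * R K ≤ β ^ 2 := mul_le_of_le_one_right hb2 hR1
    have h5 := Real.sin_sq_add_cos_sq θ
    calc Real.sin θ ^ 2 * (β ^ 2 * R K) + Real.cos θ ^ 2 * ((β / √((N + 1 : ℕ) : ℝ)) ^ 2 * N) ≤
          Real.sin θ ^ 2 * β ^ 2 + Real.cos θ ^ 2 * β ^ 2 :=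
          add_le_add (mul_le_mul_of_nonneg_left h4 (sq_nonneg _))
            (mul_le_mul_of_nonneg_left h3 (sq_nonneg _))
      _ = β ^ 2 := by rw [← add_mul, h5, one_mul]
  have u1 := ls_add_le hm rlev_le (lc n) hdj hV
  have u2 := ls_le_add hm rlev_le (lc n) hdj
  rw [← e1] at u1 u2
  have u3 := SC_le (n := n) (K := K) hN' h0 hm hβ s
  have u4 := SC_ge (n := n) (K := K) hN' h0 hm hβ s
  have u5 := (rs_q_mem (K := K) hN' h0 hm (lc n) (st (n := n) (K := K) β N s)).2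
  have u6 : β ^ 2 / 4 * (1 - ∑ l ∈ Finset.range (K + 1), (m (l + 1) - m l) *
        (SN n K m β N s).pairEx l (fun x x' => Rov (ph hN') x x' ^ 2)) ≤ β ^ 2 / 4 :=
    mul_le_of_le_one_right (by positivity) u5
  unfold ST
  unfold SC at u3 u4
  rw [abs_le]
  constructor <;> linarith

/-- (P1) The tangent inequality in the strengths. -/
theorem AN_tangent (hN : N ≤ n) (h0 : 0 < N) (hm : Exponents K m) (s : ℕ → ℝ) {j : ℕ}
    (hj : j ≤ K) (x : ℝ) :
    AN n K m β N s + x * (SN n K m β N s).Ex (gx hN j) ≤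
      AN n K m β N (Function.update s j (s j + x)) := by
  have hR : (SN n K m β N s).Reg := rs_reg hm _ _
  have hR' : ((SN n K m β N s).pt (gx hN j) x).Reg := by
    rw [SN_pt hN hj]
    exact rs_reg hm _ _
  have h1 := Reg.jensen hR hR'
  have e1 : (fun (z : RI n K → ℝ) (y : Fin n → Bool) =>
      ((SN n K m β N s).H z y + x * gx hN j z y) - (SN n K m β N s).H z y) =
      fun z y => x * gx hN j z y := by
    funext z y
    ring
  rw [e1, Sy.Ex_const_mul] at h1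
  have e2 : ((SN n K m β N s).wH fun z y => (SN n K m β N s).H z y + x * gx hN j z y) =
      SN n K m β N (Function.update s j (s j + x)) := SN_pt hN hj x
  rw [e2] at h1
  unfold AN
  have e3 : (SN n K m β N s).Ex (fun z y => gx hN j z y) = (SN n K m β N s).Ex (gx hN j) := rfl
  rw [e3] at h1
  linarith

theorem rs_Ex_gx (hN : N ≤ n) (h0 : 0 < N) (S : Sy (RI n K) (Fin n → Bool)) (j : ℕ) :
    S.Ex (gx hN j) = N * S.Ex (hz (ph hN) (zc hN) j) := by
  have hN0 : (N : ℝ) ≠ 0 := by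
    have : (0 : ℝ) < N := by exact_mod_cast h0
    exact this.ne'
  rw [← Sy.Ex_const_mul]
  congr 1
  funext z x
  rw [hz_eq_gx]
  field_simp

theorem AN_slope (hN : N ≤ n) (h0 : 0 < N) (hm : Exponents K m) (hs : ∀ l ≤ K, 0 ≤ s l) {j : ℕ}
    (hj : j ≤ K) :
    0 ≤ (SN n K m β N s).Ex (gx hN j) ∧ (SN n K m β N s).Ex (gx hN j) ≤ N * s j := by
  have F := SN_fld (β := β) hN h0 hm hs
  have hN0 : (0 : ℝ) < N := by exact_mod_cast h0
  rw [rs_Ex_gx hN h0]
  have hj' : j ≤ (SN n K m β N s).K := hj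
  rw [F.Ex_hz hj']
  have h1 : ∀ i ∈ Finset.Ico j (K + 1), 0 ≤ (SN n K m β N s).p i * (SN n K m β N s).Rl (ph hN) i ∧
      (SN n K m β N s).p i * (SN n K m β N s).Rl (ph hN) i ≤ m (i + 1) - m i := by
    intro i hi
    have hi' := Finset.mem_Ico.1 hi
    have h2 : 0 ≤ (SN n K m β N s).p i := rs_p_nonneg hm (Finset.mem_range.2 hi'.2)
    have hi2 : i ≤ (SN n K m β N s).K := by show i ≤ K; omega
    exact ⟨mul_nonneg h2 (F.Rl_nonneg hi2), mul_le_of_le_one_right h2 (F.Rl_le_one hi2)⟩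
  have h2 : 0 ≤ ∑ i ∈ Finset.Ico j ((SN n K m β N s).K + 1),
      (SN n K m β N s).p i * (SN n K m β N s).Rl (ph hN) i :=
    Finset.sum_nonneg fun i hi => (h1 i hi).1
  have h3 : ∑ i ∈ Finset.Ico j ((SN n K m β N s).K + 1),
      (SN n K m β N s).p i * (SN n K m β N s).Rl (ph hN) i ≤ 1 := by
    have h4 : ∑ i ∈ Finset.Ico j ((SN n K m β N s).K + 1),
        (SN n K m β N s).p i * (SN n K m β N s).Rl (ph hN) i ≤
        ∑ i ∈ Finset.Ico j (K + 1), (m (i + 1) - m i) := Finset.sum_le_sum fun i hi => (h1 i hi).2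
    have h5 : ∑ i ∈ Finset.Ico j (K + 1), (m (i + 1) - m i) ≤
        ∑ i ∈ Finset.range (K + 1), (m (i + 1) - m i) :=
      Finset.sum_le_sum_of_subset_of_nonneg (by
        intro i hi
        exact Finset.mem_range.2 (Finset.mem_Ico.1 hi).2) fun i hi _ => rs_p_nonneg hm hi
    rw [rs_sum_p hm] at h5
    exact h4.trans h5
  have hsj := hs j hj
  constructor
  · exact mul_nonneg hN0.le (mul_nonneg hsj (by linarith))
  · refine mul_le_mul_of_nonneg_left ?_ hN0.le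
    exact mul_le_of_le_one_right hsj (by linarith)

theorem rs_abs_update {t t' : ℝ} (hs : ∀ l ≤ K, 0 ≤ s l) (hs1 : s 0 ≤ 1) (ht : 0 < t)
    (ht1 : t ≤ 1) (ht' : t' ∈ ({0, t, -t} : Set ℝ)) (j : ℕ) :
    |Function.update s j (s j + t') 0| ≤ 2 := by
  have h0 := hs 0 (Nat.zero_le _)
  have h1 : |t'| ≤ 1 := by
    simp only [Set.mem_insert_iff, Set.mem_singleton_iff] at ht'
    rcases ht' with rfl | rfl | rfl
    · simp
    · rw [abs_of_pos ht]; exact ht1
    · rw [abs_neg, abs_of_pos ht]; exact ht1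
  have h2 := abs_le.1 h1
  by_cases hj : (0 : ℕ) = j
  · subst hj
    rw [Function.update_self, abs_le]
    constructor <;> linarith
  · rw [Function.update_of_ne hj, abs_le]
    constructor <;> linarith

/-- (E) Concentration, uniformly in the path and the angle. -/
theorem ST_conc (hN : N + 1 ≤ n) (h0 : 0 < N) (hm : Exponents K m) (hβ : 0 ≤ β)
    (hR : Path K R) (hR1 : R K ≤ 1) (hs : ∀ l ≤ K, 0 ≤ s l) (hs1 : s 0 ≤ 1) {t : ℝ} (ht : 0 < t)
    (ht1 : t ≤ 1) (θ : ℝ) {j : ℕ} (hj : j ≤ K) :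
    (ST n K m β N s R θ).Ex (fun z x => |hz (ph (Nat.le_of_succ_le hN))
        (zc (Nat.le_of_succ_le hN)) j z x - (SN n K m β N s).Ex (hz (ph (Nat.le_of_succ_le hN))
        (zc (Nat.le_of_succ_le hN)) j)|) ≤ ej n K m β N s t j := by
  have hN' : N ≤ n := Nat.le_of_succ_le hN
  have hN0 : (0 : ℝ) < N := by exact_mod_cast h0
  have hReg : (ST n K m β N s R θ).Reg := rs_reg hm _ _
  have hRegt : ∀ t', ((ST n K m β N s R θ).pt (gx hN' j) t').Reg := by
    intro t'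
    rw [ST_pt hN' hj]
    exact rs_reg hm _ _
  have h1 := conc_abs hReg (nh_gx hN' j) hRegt (t := t) (F0 := AN n K m β N s)
    (Fp := AN n K m β N (Function.update s j (s j + t)))
    (Fm := AN n K m β N (Function.update s j (s j - t)))
    (c₀ := (SN n K m β N s).Ex (gx hN' j)) (B := β ^ 2 / 2) (V := 2 * ((2 * β ^ 2 + 4) * N)) ht
    (ST_cmp hN h0 hm hβ hR hR1 s θ)
    (by rw [ST_pt hN' hj]; exact ST_cmp hN h0 hm hβ hR hR1 _ θ)
    (by
      rw [ST_pt hN' hj, ← sub_eq_add_neg]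
      exact ST_cmp hN h0 hm hβ hR hR1 _ θ)
    (AN_tangent hN' h0 hm s hj t)
    (by
      have := AN_tangent (β := β) hN' h0 hm s hj (-t)
      rw [← sub_eq_add_neg, neg_mul, ← sub_eq_add_neg] at this
      exact this)
    (by
      intro t' ht'
      rw [ST_pt hN' hj]
      exact ST_var hN h0 hm (rs_abs_update hs hs1 ht ht1 ht' j) hR hR1)
  have e1 : (ST n K m β N s R θ).Ex (fun z x => |hz (ph hN') (zc hN') j z x -
      (SN n K m β N s).Ex (hz (ph hN') (zc hN') j)|) =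
      1 / N * (ST n K m β N s R θ).Ex (fun z x => |gx hN' j z x -
        (SN n K m β N s).Ex (gx hN' j)|) := by
    rw [← Sy.Ex_const_mul]
    congr 1
    funext z x
    rw [rs_Ex_gx hN' h0, hz_eq_gx]
    have e2 : 1 / (N : ℝ) * gx hN' j z x - (SN n K m β N s).Ex (hz (ph hN') (zc hN') j) =
        1 / N * (gx hN' j z x - N * (SN n K m β N s).Ex (hz (ph hN') (zc hN') j)) := by
      field_simp
    rw [e2, abs_mul, abs_of_pos (by positivity)]
  rw [e1]
  refine (mul_le_mul_of_nonneg_left h1 (by positivity)).trans (le_of_eq ?_)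
  unfold ej dl
  have e3 : (ST n K m β N s R θ).m 1 = m 1 := rfl
  rw [e3]
  field_simp
  ring

theorem SN_conc (hN : N ≤ n) (h0 : 0 < N) (hm : Exponents K m) (hβ : 0 ≤ β)
    (hs : ∀ l ≤ K, 0 ≤ s l) (hs1 : s 0 ≤ 1) {t : ℝ} (ht : 0 < t) (ht1 : t ≤ 1) {j : ℕ}
    (hj : j ≤ K) :
    (SN n K m β N s).Ex (fun z x => |hz (ph hN) (zc hN) j z x -
      (SN n K m β N s).Ex (hz (ph hN) (zc hN) j)|) ≤ ej n K m β N s t j := by
  have hN0 : (0 : ℝ) < N := by exact_mod_cast h0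
  have hReg : (SN n K m β N s).Reg := rs_reg hm _ _
  have hRegt : ∀ t', ((SN n K m β N s).pt (gx hN j) t').Reg := by
    intro t'
    rw [SN_pt hN hj]
    exact rs_reg hm _ _
  have hB : 0 ≤ β ^ 2 / 2 := by positivity
  have h1 := conc_abs hReg (nh_gx hN j) hRegt (t := t) (F0 := AN n K m β N s)
    (Fp := AN n K m β N (Function.update s j (s j + t)))
    (Fm := AN n K m β N (Function.update s j (s j - t)))
    (c₀ := (SN n K m β N s).Ex (gx hN j)) (B := β ^ 2 / 2) (V := 2 * ((2 * β ^ 2 + 4) * N)) ht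
    (by unfold AN; rw [sub_self, abs_zero]; exact hB)
    (by rw [SN_pt hN hj]; unfold AN; rw [sub_self, abs_zero]; exact hB)
    (by
      rw [SN_pt hN hj, ← sub_eq_add_neg]
      unfold AN
      rw [sub_self, abs_zero]; exact hB)
    (AN_tangent hN h0 hm s hj t)
    (by
      have := AN_tangent (β := β) hN h0 hm s hj (-t)
      rw [← sub_eq_add_neg, neg_mul, ← sub_eq_add_neg] at this
      exact this)
    (by
      intro t' ht'
      rw [SN_pt hN hj]
      exact SN_var hN h0 hm (rs_abs_update hs hs1 ht ht1 ht' j))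
  have e1 : (SN n K m β N s).Ex (fun z x => |hz (ph hN) (zc hN) j z x -
      (SN n K m β N s).Ex (hz (ph hN) (zc hN) j)|) =
      1 / N * (SN n K m β N s).Ex (fun z x => |gx hN j z x -
        (SN n K m β N s).Ex (gx hN j)|) := by
    rw [← Sy.Ex_const_mul]
    congr 1
    funext z x
    rw [rs_Ex_gx hN h0, hz_eq_gx]
    have e2 : 1 / (N : ℝ) * gx hN j z x - (SN n K m β N s).Ex (hz (ph hN) (zc hN) j) =
        1 / N * (gx hN j z x - N * (SN n K m β N s).Ex (hz (ph hN) (zc hN) j)) := by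
      field_simp
    rw [e2, abs_mul, abs_of_pos (by positivity)]
  rw [e1]
  refine (mul_le_mul_of_nonneg_left h1 (by positivity)).trans (le_of_eq ?_)
  unfold ej dl
  have e3 : (SN n K m β N s).m 1 = m 1 := rfl
  rw [e3]
  field_simp
  ring

/-! ### The overlaps -/

theorem rs_me_p (K l : ℕ) : me K (l + 1) - me K l = 1 / (K + 1 : ℕ) := by
  unfold me
  push_cast
  ring

/-- Deviations for any system with the fields `s` whose fields are concentrated at the means of the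
stage `N`. -/
theorem rs_dev (hN : N ≤ n) (h0 : 0 < N) {c : ℝ} {a : (Fin n → Bool) → RI n K → ℝ}
    {D : RI n K → (RI n K → ℝ) → (Fin n → Bool) → ℝ}
    (F : Fld (ls rlev K (me K) c a) D (ph hN) (zc hN) s)
    {σ ε : ℝ} (hσ : 0 < σ) (hs : ∀ l ≤ K, σ ≤ s l) (hε : 0 ≤ ε)
    (hc : ∀ j ≤ K, (ls rlev K (me K) c a).Ex (fun z x => |hz (ph hN) (zc hN) j z x -
      (SN n K (me K) β N s).Ex (hz (ph hN) (zc hN) j)|) ≤ ε) :
    ∑ l ∈ Finset.range (K + 1), (me K (l + 1) - me K l) *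
      (ls rlev K (me K) c a).pairEx l (fun x x' => |Rov (ph hN) x x' - stR (SN n K (me K) β N s) (ph hN) l|) ≤
      wE K σ ε := by
  set S := ls rlev K (me K) c a with hSdef
  have hm := me_exp K
  have hS := F.hreg
  have hs0 : ∀ l ≤ K, 0 ≤ s l := fun l hl => hσ.le.trans (hs l hl)
  have F0 := SN_fld (β := β) hN h0 hm hs0
  have hK0 : (0 : ℝ) < ((K + 1 : ℕ) : ℝ) := by positivity
  have hp : ∀ l, S.p l = 1 / ((K + 1 : ℕ) : ℝ) := fun l => by
    show me K (l + 1) - me K l = _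
    rw [rs_me_p]
  have hp0 : ∀ l, (SN n K (me K) β N s).p l = 1 / ((K + 1 : ℕ) : ℝ) := fun l => by
    show me K (l + 1) - me K l = _
    rw [rs_me_p]
  -- the deviations from the own path
  have hE : 0 ≤ 20 * ε / (σ * (1 / ((K + 1 : ℕ) : ℝ))) := by positivity
  have h1 := st_pair F (δ := 1 / ((K + 1 : ℕ) : ℝ)) hE (fun l _ => (hp l).le)
    (fun l hl => F.sync hε hσ hs (by positivity) (fun l _ => (hp l).ge)
      (fun l hl => ⟨_, hc l hl⟩) hl)
  -- the difference of the paths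
  have hD : ∀ j ≤ K + 1, |∑ i ∈ Finset.Ico j (K + 1), 1 / ((K + 1 : ℕ) : ℝ) *
      (S.Rl (ph hN) i - (SN n K (me K) β N s).Rl (ph hN) i)| ≤ ε / σ := by
    intro j hj
    rcases Nat.lt_or_ge j (K + 1) with hj' | hj'
    · have hjK : j ≤ K := by omega
      have a1 : S.Ex (hz (ph hN) (zc hN) j) =
          s j * (1 - ∑ i ∈ Finset.Ico j (K + 1), S.p i * S.Rl (ph hN) i) := F.Ex_hz hjK
      have a2 : (SN n K (me K) β N s).Ex (hz (ph hN) (zc hN) j) =
          s j * (1 - ∑ i ∈ Finset.Ico j (K + 1), (SN n K (me K) β N s).p i *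
            (SN n K (me K) β N s).Rl (ph hN) i) := F0.Ex_hz (l := j) hjK
      have a3 : |S.Ex (hz (ph hN) (zc hN) j) -
          (SN n K (me K) β N s).Ex (hz (ph hN) (zc hN) j)| ≤ ε := by
        have n1 : Nh (hz (ph hN) (zc hN) j : (RI n K → ℝ) → (Fin n → Bool) → ℝ) := F.nh_hz j
        have a4 := hS.abs_Ex_le (f := fun z x => hz (ph hN) (zc hN) j z x -
          (SN n K (me K) β N s).Ex (hz (ph hN) (zc hN) j)) (Nh.sub n1 (fun _ => EG.const _))
        rw [hS.Ex_sub n1 (fun _ => EG.const _), hS.Ex_const] at a4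
        exact a4.trans (hc j hjK)
      rw [a1, a2] at a3
      have a5 : s j * (1 - ∑ i ∈ Finset.Ico j (K + 1), S.p i * S.Rl (ph hN) i) -
          s j * (1 - ∑ i ∈ Finset.Ico j (K + 1),
            (SN n K (me K) β N s).p i * (SN n K (me K) β N s).Rl (ph hN) i) =
          -(s j * ∑ i ∈ Finset.Ico j (K + 1), 1 / ((K + 1 : ℕ) : ℝ) *
      (S.Rl (ph hN) i - (SN n K (me K) β N s).Rl (ph hN) i)) := by
        have a6 : ∑ i ∈ Finset.Ico j (K + 1), 1 / ((K + 1 : ℕ) : ℝ) *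
            (S.Rl (ph hN) i - (SN n K (me K) β N s).Rl (ph hN) i) =
            ∑ i ∈ Finset.Ico j (K + 1), S.p i * S.Rl (ph hN) i -
            ∑ i ∈ Finset.Ico j (K + 1),
            (SN n K (me K) β N s).p i * (SN n K (me K) β N s).Rl (ph hN) i := by
          rw [← Finset.sum_sub_distrib]
          refine Finset.sum_congr rfl fun i _ => ?_
          rw [hp, hp0]
          ring
        rw [a6]
        ring
      rw [a5, abs_neg, abs_mul, abs_of_nonneg (hs0 j hjK)] at a3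
      rw [le_div_iff₀ hσ]
      have a8 := mul_le_mul_of_nonneg_left (hs j hjK) (abs_nonneg
        (∑ i ∈ Finset.Ico j (K + 1), 1 / ((K + 1 : ℕ) : ℝ) *
      (S.Rl (ph hN) i - (SN n K (me K) β N s).Rl (ph hN) i)))
      rw [mul_comm _ (s j)] at a8
      exact a8.trans a3
    · rw [Finset.Ico_eq_empty (by omega), Finset.sum_empty, abs_zero]
      positivity
  have hdl : ∀ l < K, 1 / ((K + 1 : ℕ) : ℝ) *
      |S.Rl (ph hN) l - (SN n K (me K) β N s).Rl (ph hN) l| ≤ 2 * (ε / σ) := by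
    intro l hl
    have b1 := hD l (by omega)
    have b2 := hD (l + 1) (by omega)
    rw [Finset.sum_eq_sum_Ico_succ_bot (show l < K + 1 by omega)] at b1
    have b3 := abs_le.1 b1
    have b4 := abs_le.1 b2
    have b5 : 1 / ((K + 1 : ℕ) : ℝ) *
      |S.Rl (ph hN) l - (SN n K (me K) β N s).Rl (ph hN) l| = |1 / ((K + 1 : ℕ) : ℝ) *
      (S.Rl (ph hN) l - (SN n K (me K) β N s).Rl (ph hN) l)| := by
      rw [abs_mul, abs_of_pos (a := 1 / ((K + 1 : ℕ) : ℝ)) (by positivity)]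
    rw [b5, abs_le]
    constructor <;> linarith
  -- sum
  have h2 : ∀ l ∈ Finset.range (K + 1), (me K (l + 1) - me K l) *
      S.pairEx l (fun x x' => |Rov (ph hN) x x' - stR (SN n K (me K) β N s) (ph hN) l|) ≤
      S.p l * S.pairEx l (fun x x' => |Rov (ph hN) x x' - stR S (ph hN) l|) + 2 * (ε / σ) := by
    intro l hl
    have hl' : l ≤ K := by have := Finset.mem_range.1 hl; omega
    have c1 : me K (l + 1) - me K l = S.p l := by rw [hp, rs_me_p]
    rw [c1]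
    have c2 : S.p l * |stR S (ph hN) l - stR (SN n K (me K) β N s) (ph hN) l| ≤
        2 * (ε / σ) := by
      rcases Nat.lt_or_eq_of_le hl' with h | h
      · have c3 : stR S (ph hN) l = S.Rl (ph hN) l := by
          unfold stR
          rw [if_pos]
          exact h
        have c4 : stR (SN n K (me K) β N s) (ph hN) l =
            (SN n K (me K) β N s).Rl (ph hN) l := by
          unfold stR
          rw [if_pos]
          exact h
        rw [c3, c4, hp]
        exact hdl l h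
      · have c5' : stR S (ph hN) K = 1 := stR_last S (ph hN)
        have c5 : stR (SN n K (me K) β N s) (ph hN) K = 1 := stR_last _ _
        rw [h, c5', c5, sub_self, abs_zero, mul_zero]
        positivity
    have c6 : S.pairEx l (fun x x' => |Rov (ph hN) x x' -
        stR (SN n K (me K) β N s) (ph hN) l|) ≤
        S.pairEx l (fun x x' => |Rov (ph hN) x x' - stR S (ph hN) l|) +
          |stR S (ph hN) l - stR (SN n K (me K) β N s) (ph hN) l| := by
      have c7 := hS.pairEx_add hl' (fun x x' => |Rov (ph hN) x x' - stR S (ph hN) l|)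
        (fun _ _ => |stR S (ph hN) l - stR (SN n K (me K) β N s) (ph hN) l|)
      rw [hS.pairEx_const hl'] at c7
      rw [← c7]
      refine hS.pairEx_mono hl' fun x x' => ?_
      have := abs_add_le (Rov (ph hN) x x' - stR S (ph hN) l)
        (stR S (ph hN) l - stR (SN n K (me K) β N s) (ph hN) l)
      rwa [sub_add_sub_cancel] at this
    have c8 : 0 ≤ S.p l := by rw [hp]; positivity
    have c9 := mul_le_mul_of_nonneg_left c6 c8
    rw [mul_add] at c9
    linarith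
  refine (Finset.sum_le_sum h2).trans ?_
  rw [Finset.sum_add_distrib, Finset.sum_const, Finset.card_range, nsmul_eq_mul]
  unfold wE
  have d1 : √(2 * (1 / ((K + 1 : ℕ) : ℝ))) = √(2 / ((K + 1 : ℕ) : ℝ)) := by
    congr 1; ring
  have d2 : 2 * (1 / ((K + 1 : ℕ) : ℝ)) = 2 / ((K + 1 : ℕ) : ℝ) := by ring
  have d3 : 20 * ε / (σ * (1 / ((K + 1 : ℕ) : ℝ))) = 20 * ε * ((K + 1 : ℕ) : ℝ) / σ := by
    field_simp
  rw [d1, d2, d3] at h1
  have d4 : ((K + 1 : ℕ) : ℝ) * (2 * (ε / σ)) = 2 * ((K + 1 : ℕ) : ℝ) * ε / σ := by ring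
  have d5 : S.K = K := rfl
  rw [d5] at h1
  rw [d4]
  linarith

theorem rs_ej_nonneg (hN : N ≤ n) (h0 : 0 < N) (hm : Exponents K m) (hβ : 0 ≤ β)
    (hs : ∀ l ≤ K, 0 ≤ s l) (hs1 : s 0 ≤ 1) {t : ℝ} (ht : 0 < t) (ht1 : t ≤ 1) {j : ℕ}
    (hj : j ≤ K) : 0 ≤ ej n K m β N s t j := by
  have hR : (SN n K m β N s).Reg := rs_reg hm _ _
  refine le_trans ?_ (SN_conc hN h0 hm hβ hs hs1 ht ht1 hj)
  rw [← hR.Ex_const 0]
  have F := SN_fld (β := β) hN h0 hm hs
  exact hR.Ex_mono (fun _ => EG.const 0) (Nh.abs (Nh.sub (F.nh_hz j) (fun _ => EG.const _)))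
    fun z x => abs_nonneg _

theorem rs_ej_le (hN : N ≤ n) (h0 : 0 < N) (hm : Exponents K m) (hβ : 0 ≤ β)
    (hs : ∀ l ≤ K, 0 ≤ s l) (hs1 : s 0 ≤ 1) {t : ℝ} (ht : 0 < t) (ht1 : t ≤ 1) {j : ℕ}
    (hj : j ≤ K) : ej n K m β N s t j ≤ ee n K m β N s t := by
  unfold ee
  exact Finset.single_le_sum (f := fun j => ej n K m β N s t j)
    (fun i hi => rs_ej_nonneg hN h0 hm hβ hs hs1 ht ht1
      (by have := Finset.mem_range.1 hi; omega)) (Finset.mem_range.2 (by omega))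

theorem rs_ee_nonneg (hN : N ≤ n) (h0 : 0 < N) (hm : Exponents K m) (hβ : 0 ≤ β)
    (hs : ∀ l ≤ K, 0 ≤ s l) (hs1 : s 0 ≤ 1) {t : ℝ} (ht : 0 < t) (ht1 : t ≤ 1) :
    0 ≤ ee n K m β N s t :=
  Finset.sum_nonneg fun i hi => rs_ej_nonneg hN h0 hm hβ hs hs1 ht ht1
      (by have := Finset.mem_range.1 hi; omega)

/-- (F) The overlaps. -/
theorem ST_dev (hN : N + 1 ≤ n) (h0 : 0 < N) (hβ : 0 ≤ β)
    (hR : Path K R) (hR1 : R K ≤ 1) {σ : ℝ} (hσ : 0 < σ) (hs : ∀ l ≤ K, σ ≤ s l)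
    (hs1 : s 0 ≤ 1) {t : ℝ} (ht : 0 < t) (ht1 : t ≤ 1) (θ : ℝ) :
    ∑ l ∈ Finset.range (K + 1), (me K (l + 1) - me K l) *
      (ST n K (me K) β N s R θ).pairEx l (fun x x' => |Rov (ph (Nat.le_of_succ_le hN)) x x' -
        stR (SN n K (me K) β N s) (ph (Nat.le_of_succ_le hN)) l|) ≤
      wE K σ (ee n K (me K) β N s t) := by
  have hs0 : ∀ l ≤ K, 0 ≤ s l := fun l hl => hσ.le.trans (hs l hl)
  have hN' : N ≤ n := Nat.le_of_succ_le hN
  exact rs_dev hN' h0 (ST_fld (β := β) (R := R) (θ := θ) hN' h0 (me_exp K) hs0) hσ hs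
    (rs_ee_nonneg hN' h0 (me_exp K) hβ hs0 hs1 ht ht1)
    (fun j hj => (ST_conc hN h0 (me_exp K) hβ hR hR1 hs0 hs1 ht ht1 θ hj).trans
      (rs_ej_le hN' h0 (me_exp K) hβ hs0 hs1 ht ht1 hj))

theorem SN_dev (hN : N ≤ n) (h0 : 0 < N) (hβ : 0 ≤ β)
    {σ : ℝ} (hσ : 0 < σ) (hs : ∀ l ≤ K, σ ≤ s l)
    (hs1 : s 0 ≤ 1) {t : ℝ} (ht : 0 < t) (ht1 : t ≤ 1) :
    ∑ l ∈ Finset.range (K + 1), (me K (l + 1) - me K l) *
      (SN n K (me K) β N s).pairEx l (fun x x' => |Rov (ph hN) x x' -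
        stR (SN n K (me K) β N s) (ph hN) l|) ≤
      wE K σ (ee n K (me K) β N s t) := by
  have hs0 : ∀ l ≤ K, 0 ≤ s l := fun l hl => hσ.le.trans (hs l hl)
  exact rs_dev hN h0 (SN_fld (β := β) hN h0 (me_exp K) hs0) hσ hs
    (rs_ee_nonneg hN h0 (me_exp K) hβ hs0 hs1 ht ht1)
    (fun j hj => (SN_conc hN h0 (me_exp K) hβ hs0 hs1 ht ht1 hj).trans
      (rs_ej_le hN h0 (me_exp K) hβ hs0 hs1 ht ht1 hj))

/-- (H) **The step.** -/
theorem AN_step (hN : N + 1 ≤ n) (h0 : 0 < N) (hβ : 0 ≤ β) {σ : ℝ} (hσ : 0 < σ)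
    (hs : ∀ l ≤ K, σ ≤ s l) (hs1 : s 0 ≤ 1) {t : ℝ} (ht : 0 < t) (ht1 : t ≤ 1) :
    PSK β K (me K) (stR (SN n K (me K) β N s) (ph (Nat.le_of_succ_le hN))) ≤
      AN n K (me K) β (N + 1) s - AN n K (me K) β N s + β ^ 2 / (N + 1 : ℕ) +
        β ^ 2 * wE K σ (ee n K (me K) β N s t) := by
  have hs0 : ∀ l ≤ K, 0 ≤ s l := fun l hl => hσ.le.trans (hs l hl)
  have hN' : N ≤ n := Nat.le_of_succ_le hN
  have hNn : N < n := hN
  have hm := me_exp K
  have hb2 : 0 ≤ β ^ 2 := sq_nonneg β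
  have hN1 : (0 : ℝ) < ((N + 1 : ℕ) : ℝ) := by positivity
  have F0 := SN_fld (β := β) hN' h0 hm hs0
  obtain ⟨R, hRdef⟩ : ∃ R, R = stR (SN n K (me K) β N s) (ph hN') := ⟨_, rfl⟩
  obtain ⟨W, hW⟩ : ∃ W, W = wE K σ (ee n K (me K) β N s t) := ⟨_, rfl⟩
  have hR : Path K R := by rw [hRdef]; exact st_path F0
  have hRK : R K = 1 := by rw [hRdef]; exact stR_last (SN n K (me K) β N s) (ph hN')
  have hR1 : R K ≤ 1 := hRK.le
  have hRm : ∀ l ≤ K, 0 ≤ R l ∧ R l ≤ 1 := by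
    have mono : ∀ i j, i ≤ j → j ≤ K → R i ≤ R j := by
      intro i j hij
      induction j, hij using Nat.le_induction with
      | base => intro _; exact le_rfl
      | succ j _ ih => intro hj; exact (ih (by omega)).trans (hR.2 j (by omega))
    intro l hl
    exact ⟨hR.1.trans (mono 0 l (Nat.zero_le _) hl), (mono l K hl le_rfl).trans hR1⟩
  have hdev : ∀ θ, ∑ l ∈ Finset.range (K + 1), (me K (l + 1) - me K l) *
      (ST n K (me K) β N s R θ).pairEx l (fun x x' => |Rov (ph hN') x x' - R l|) ≤ W := by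
    intro θ
    have h1 := ST_dev hN h0 hβ hR hR1 hσ hs hs1 ht ht1 θ
    rw [hW]
    rw [← hRdef] at h1
    exact h1
  have hdev0 : ∑ l ∈ Finset.range (K + 1), (me K (l + 1) - me K l) *
      (SN n K (me K) β N s).pairEx l (fun x x' => |Rov (ph hN') x x' - R l|) ≤ W := by
    have h1 := SN_dev hN' h0 hβ hσ hs hs1 ht ht1
    rw [hW]
    rw [← hRdef] at h1
    exact h1
  rw [← hRdef, ← hW]
  obtain ⟨γ, hγ⟩ : ∃ γ, γ = β / √((N + 1 : ℕ) : ℝ) := ⟨_, rfl⟩
  have hγ2 : γ ^ 2 = β ^ 2 / ((N + 1 : ℕ) : ℝ) := by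
    rw [hγ, div_pow, Real.sq_sqrt hN1.le]
  have hγN : β ^ 2 - γ ^ 2 * N = β ^ 2 / ((N + 1 : ℕ) : ℝ) := by
    rw [hγ2]
    field_simp
    push_cast
    ring
  have hsum := rs_sum_p hm
  -- (1)
  have h1 := AN_succ_ge hN hm β s
  -- (2)
  have h2 := ls_interp (X := Fin n → Bool) (a := sc (n := n) (K := K) β N s) (α := tre N β R)
    (β := cav N γ) hm rlev_le (lc n) (B := 2 * (β ^ 2 / ((N + 1 : ℕ) : ℝ)) + β ^ 2 * W)
    (dj_tre_cav β γ) (dj_tre_sc β) (dj_cav_sc γ) (by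
      intro θ _ _
      have eS : ls rlev K (me K) (lc n) (ith (sc (n := n) (K := K) β N s) (tre N β R) (cav N γ) θ) =
          ST n K (me K) β N s R θ := by
        rw [hγ]; rfl
      rw [eS]
      have hReg : (ST n K (me K) β N s R θ).Reg := rs_reg hm _ _
      have e1 : (fun (_ : RI n K → ℝ) (x : Fin n → Bool) =>
          ∑ e, (tre (K := K) N β R x e ^ 2 - cav (K := K) N γ x e ^ 2)) =
          fun _ _ => β ^ 2 / ((N + 1 : ℕ) : ℝ) := by
        funext _ x
        rw [Finset.sum_sub_distrib, sum_tre hNn β hR, sum_cav hNn, hRK, mul_one, hγN]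
      rw [e1, hReg.Ex_const]
      have e2 : ∀ l ∈ Finset.range (K + 1), (me K (l + 1) - me K l) *
          -(β ^ 2 * (ST n K (me K) β N s R θ).pairEx l (fun x x' => |Rov (ph hN') x x' - R l|) +
            β ^ 2 / ((N + 1 : ℕ) : ℝ)) ≤ (me K (l + 1) - me K l) *
          (ST n K (me K) β N s R θ).pairEx l (fun x x' =>
            cv rlev l (tre (K := K) N β R) (tre N β R) x x' -
              cv rlev l (cav (K := K) N γ) (cav N γ) x x') := by
        intro l hl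
        have hl' : l ≤ K := by have := Finset.mem_range.1 hl; omega
        have hl'' : l ≤ (ST n K (me K) β N s R θ).K := hl'
        refine mul_le_mul_of_nonneg_left ?_ (rs_p_nonneg hm hl)
        have e3 : -(β ^ 2 * (ST n K (me K) β N s R θ).pairEx l
            (fun x x' => |Rov (ph hN') x x' - R l|) + β ^ 2 / ((N + 1 : ℕ) : ℝ)) =
            (ST n K (me K) β N s R θ).pairEx l (fun x x' =>
              (-β ^ 2) * |Rov (ph hN') x x' - R l| + -(β ^ 2 / ((N + 1 : ℕ) : ℝ))) := by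
          rw [hReg.pairEx_add hl'' (fun x x' => (-β ^ 2) * |Rov (ph hN') x x' - R l|)
            (fun _ _ => -(β ^ 2 / ((N + 1 : ℕ) : ℝ))), hReg.pairEx_const_mul,
            hReg.pairEx_const hl'']
          ring
        rw [e3]
        refine hReg.pairEx_mono hl'' fun x x' => ?_
        rw [cv_tre hNn hl' β hR, cv_cav hNn]
        obtain ⟨r, hr⟩ : ∃ r, r = Rov (ph hN') x x' := ⟨_, rfl⟩
        obtain ⟨w, hw⟩ : ∃ w, w = sp N x * sp N x' := ⟨_, rfl⟩
        have hr1 : |r| ≤ 1 := by rw [hr]; exact rs_abs_Rov hN' h0 x x'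
        have hw1 : |w| = 1 := by
          have a1 := sp_sq hNn x
          have a2 := sp_sq hNn x'
          have a3 : w ^ 2 = 1 := by rw [hw, mul_pow, a1, a2, one_mul]
          rw [← sq_abs] at a3
          exact (pow_eq_one_iff_of_nonneg (abs_nonneg w) two_ne_zero).1 a3
        rw [← hr, ← hw]
        have e4 : β ^ 2 * w * R l - γ ^ 2 * w * (N * r) =
            w * (β ^ 2 * (R l - r) + β ^ 2 / ((N + 1 : ℕ) : ℝ) * r) := by
          rw [← hγN]; ring
        rw [e4]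
        have e5 : |w * (β ^ 2 * (R l - r) + β ^ 2 / ((N + 1 : ℕ) : ℝ) * r)| ≤
            β ^ 2 * |r - R l| + β ^ 2 / ((N + 1 : ℕ) : ℝ) := by
          rw [abs_mul, hw1, one_mul]
          refine (abs_add_le _ _).trans (add_le_add ?_ ?_)
          · rw [abs_mul, abs_of_nonneg hb2, abs_sub_comm]
          · rw [abs_mul, abs_of_nonneg (div_nonneg hb2 hN1.le)]
            exact mul_le_of_le_one_right (div_nonneg hb2 hN1.le) hr1
        have e6 := (abs_le.1 e5).1
        linarith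
      have e7 := Finset.sum_le_sum e2
      have e8 : ∑ l ∈ Finset.range (K + 1), (me K (l + 1) - me K l) *
          -(β ^ 2 * (ST n K (me K) β N s R θ).pairEx l (fun x x' => |Rov (ph hN') x x' - R l|) +
            β ^ 2 / ((N + 1 : ℕ) : ℝ)) =
          -(β ^ 2 * ∑ l ∈ Finset.range (K + 1), (me K (l + 1) - me K l) *
            (ST n K (me K) β N s R θ).pairEx l (fun x x' => |Rov (ph hN') x x' - R l|) +
            β ^ 2 / ((N + 1 : ℕ) : ℝ) * ∑ l ∈ Finset.range (K + 1), (me K (l + 1) - me K l)) := by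
        rw [Finset.mul_sum, Finset.mul_sum, ← Finset.sum_add_distrib, ← Finset.sum_neg_distrib]
        exact Finset.sum_congr rfl fun l _ => by ring
      rw [e8, hsum, mul_one] at e7
      have e9 := mul_le_mul_of_nonneg_left (hdev θ) hb2
      linarith)
  -- (3)
  have h3 := fe_tre (R := R) hNn hm hβ hR s
  -- (4)
  have h4 := SC_ge hN' h0 hm hβ s
  have h5 : ∑ l ∈ Finset.range (K + 1), (me K (l + 1) - me K l) * R l ^ 2 - 2 * W ≤
      ∑ l ∈ Finset.range (K + 1), (me K (l + 1) - me K l) *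
        (SN n K (me K) β N s).pairEx l (fun x x' => Rov (ph hN') x x' ^ 2) := by
    have hReg : (SN n K (me K) β N s).Reg := rs_reg hm _ _
    have a1 : ∀ l ∈ Finset.range (K + 1), (me K (l + 1) - me K l) * (R l ^ 2 -
        2 * (SN n K (me K) β N s).pairEx l (fun x x' => |Rov (ph hN') x x' - R l|)) ≤
        (me K (l + 1) - me K l) *
        (SN n K (me K) β N s).pairEx l (fun x x' => Rov (ph hN') x x' ^ 2) := by
      intro l hl
      have hl' : l ≤ K := by have := Finset.mem_range.1 hl; omega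
      have hl'' : l ≤ (SN n K (me K) β N s).K := hl'
      refine mul_le_mul_of_nonneg_left ?_ (rs_p_nonneg hm hl)
      have a2 : R l ^ 2 - 2 * (SN n K (me K) β N s).pairEx l
          (fun x x' => |Rov (ph hN') x x' - R l|) =
          (SN n K (me K) β N s).pairEx l (fun x x' => (-2) * |Rov (ph hN') x x' - R l| +
            R l ^ 2) := by
        rw [hReg.pairEx_add hl'' (fun x x' => (-2) * |Rov (ph hN') x x' - R l|)
            (fun _ _ => R l ^ 2), hReg.pairEx_const_mul, hReg.pairEx_const hl'']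
        ring
      rw [a2]
      refine hReg.pairEx_mono hl'' fun x x' => ?_
      obtain ⟨r, hr⟩ : ∃ r, r = Rov (ph hN') x x' := ⟨_, rfl⟩
      have hr1 : |r| ≤ 1 := by rw [hr]; exact rs_abs_Rov hN' h0 x x'
      have hr2 := abs_le.1 hr1
      have hR' := hRm l hl'
      rw [← hr]
      have a3 := abs_le.1 (le_refl |r - R l|)
      rcases abs_cases (r - R l) with h | h
      · rw [h.1]
        nlinarith
      · rw [h.1]
        nlinarith
    refine le_trans ?_ (Finset.sum_le_sum a1)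
    have a4 : ∑ l ∈ Finset.range (K + 1), (me K (l + 1) - me K l) * (R l ^ 2 -
        2 * (SN n K (me K) β N s).pairEx l (fun x x' => |Rov (ph hN') x x' - R l|)) =
        ∑ l ∈ Finset.range (K + 1), (me K (l + 1) - me K l) * R l ^ 2 -
        2 * ∑ l ∈ Finset.range (K + 1), (me K (l + 1) - me K l) *
          (SN n K (me K) β N s).pairEx l (fun x x' => |Rov (ph hN') x x' - R l|) := by
      rw [Finset.mul_sum, ← Finset.sum_sub_distrib]
      exact Finset.sum_congr rfl fun l _ => by ring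
    rw [a4]
    linarith
  have h6 := mul_le_mul_of_nonneg_left h5 (show 0 ≤ β ^ 2 / 4 by positivity)
  rw [← hγ] at h1
  rw [h3, hRK] at h2
  unfold PSK
  have h7 : β ^ 2 / 4 * (1 - ∑ l ∈ Finset.range (K + 1), (me K (l + 1) - me K l) *
        (SN n K (me K) β N s).pairEx l (fun x x' => Rov (ph hN') x x' ^ 2)) =
      β ^ 2 / 4 - β ^ 2 / 4 * ∑ l ∈ Finset.range (K + 1), (me K (l + 1) - me K l) *
        (SN n K (me K) β N s).pairEx l (fun x x' => Rov (ph hN') x x' ^ 2) := by ring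
  rw [h7] at h4
  have h8 : β ^ 2 / 4 * (∑ l ∈ Finset.range (K + 1), (me K (l + 1) - me K l) * R l ^ 2 - 2 * W) =
      β ^ 2 / 4 * ∑ l ∈ Finset.range (K + 1), (me K (l + 1) - me K l) * R l ^ 2 -
        β ^ 2 * W / 2 := by ring
  rw [h8] at h6
  have h9 : β ^ 2 / 4 * (1 + ∑ i ∈ Finset.range (K + 1), (me K (i + 1) - me K i) * R i ^ 2) =
      β ^ 2 / 4 + β ^ 2 / 4 * ∑ i ∈ Finset.range (K + 1), (me K (i + 1) - me K i) * R i ^ 2 := by
    ring
  rw [h9]
  linarith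

end Vale.Agent.P146.Ub
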